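import Vale.Agent.P158.Obj

open scoped NNReal ENNReal
open MeasureTheory Filter Topology

namespace P158

/-! Elementary API for walks, passage times and staircases. -/

theorem tau_nonneg (ω : Env) (e : Sym2 V) : 0 ≤ tau ω e := by
  unfold tau; split_ifs
  · exact NNReal.coe_nonneg _
  · exact le_rfl
theorem tau_edge (ω : Env) (e : E) : tau ω e.1 = ω e := by
  unfold tau; rw [dif_pos e.2]
theorem wt_nonneg (ω : Env) {x y : V} (p : Zd.Walk x y) : 0 ≤ wt ω p := by
  unfold wt
  exact List.sum_nonneg (by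
    intro a ha; obtain ⟨e, -, rfl⟩ := List.mem_map.1 ha; exact tau_nonneg _ _)
@[simp] theorem wt_nil (ω : Env) (x : V) : wt ω (SimpleGraph.Walk.nil : Zd.Walk x x) = 0 := by simp [wt]
theorem wt_cons (ω : Env) {x y z : V} (h : Zd.Adj x y) (p : Zd.Walk y z) :
    wt ω (SimpleGraph.Walk.cons h p) = tau ω s(x, y) + wt ω p := by simp [wt]
theorem wt_append (ω : Env) {x y z : V} (p : Zd.Walk x y) (q : Zd.Walk y z) :
    wt ω (p.append q) = wt ω p + wt ω q := by simp [wt, SimpleGraph.Walk.edges_append]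
theorem wt_reverse (ω : Env) {x y : V} (p : Zd.Walk x y) : wt ω p.reverse = wt ω p := by simp [wt, SimpleGraph.Walk.edges_reverse, List.sum_reverse]
theorem wt_bypass_le (ω : Env) {x y : V} (p : Zd.Walk x y) : wt ω p.bypass ≤ wt ω p := by
  classical
  unfold wt
  induction p with
  | nil => simp [SimpleGraph.Walk.bypass]
  | @cons u v w h p ih =>
    simp only [SimpleGraph.Walk.bypass]
    split_ifs with hs
    · have h2 := SimpleGraph.Walk.take_spec p.bypass hs
      have h3 : (p.bypass.edges.map (tau ω)).sum =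
          ((p.bypass.takeUntil u hs).edges.map (tau ω)).sum +
            ((p.bypass.dropUntil u hs).edges.map (tau ω)).sum := by
        have := wt_append ω (p.bypass.takeUntil u hs) (p.bypass.dropUntil u hs)
        rw [h2] at this; exact this
      have h4 := wt_nonneg ω (p.bypass.takeUntil u hs)
      have h5 := tau_nonneg ω s(u, v)
      unfold wt at h4
      simp only [SimpleGraph.Walk.edges_cons, List.map_cons, List.sum_cons]
      linarith
    · simp only [SimpleGraph.Walk.edges_cons, List.map_cons, List.sum_cons]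
      linarith
theorem In.append {S : Set V} {x y z : V} {p : Zd.Walk x y} {q : Zd.Walk y z} (hp : In S p)
    (hq : In S q) : In S (p.append q) := by
  intro v hv
  rcases (SimpleGraph.Walk.mem_support_append_iff _ _).1 hv with h | h
  exacts [hp v h, hq v h]
theorem In.reverse {S : Set V} {x y : V} {p : Zd.Walk x y} (hp : In S p) : In S p.reverse := by
  intro v hv; exact hp v (by simpa using hv)
theorem In.bypass {S : Set V} {x y : V} {p : Zd.Walk x y} (hp : In S p) : In S p.bypass := by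
  intro v hv; exact hp v (SimpleGraph.Walk.support_bypass_subset _ hv)
theorem In.mono {S S' : Set V} {x y : V} {p : Zd.Walk x y} (hp : In S p) (h : S ⊆ S') :
    In S' p := fun v hv => h (hp v hv)
theorem Conn.refl {S : Set V} {x : V} (hx : x ∈ S) : Conn S x x := 
  ⟨SimpleGraph.Walk.nil, by intro v hv; simp at hv; exact hv ▸ hx⟩
theorem Conn.symm {S : Set V} {x y : V} (h : Conn S x y) : Conn S y x := by
  obtain ⟨p, hp⟩ := h; exact ⟨p.reverse, hp.reverse⟩
theorem Conn.trans {S : Set V} {x y z : V} (h : Conn S x y) (h' : Conn S y z) : Conn S x z := by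
  obtain ⟨p, hp⟩ := h; obtain ⟨q, hq⟩ := h'; exact ⟨p.append q, hp.append hq⟩
theorem Conn.mono {S S' : Set V} {x y : V} (h : Conn S x y) (hS : S ⊆ S') : Conn S' x y := by
  obtain ⟨p, hp⟩ := h; exact ⟨p, hp.mono hS⟩
theorem TS_nonneg (ω : Env) (S : Set V) (x y : V) : 0 ≤ TS ω S x y := 
  Real.iInf_nonneg fun p => wt_nonneg ω p.1
theorem TS_le (ω : Env) {S : Set V} {x y : V} (p : Zd.Walk x y) (hp : In S p) :
    TS ω S x y ≤ wt ω p := 
  ciInf_le ⟨0, by rintro _ ⟨q, rfl⟩; exact wt_nonneg ω q.1⟩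
    (⟨p, hp⟩ : {p : Zd.Walk x y // In S p})
theorem le_TS (ω : Env) {S : Set V} {x y : V} (h : Conn S x y) {a : ℝ}
    (H : ∀ p : Zd.Walk x y, In S p → a ≤ wt ω p) : a ≤ TS ω S x y := by
  obtain ⟨p, hp⟩ := h
  haveI : Nonempty {p : Zd.Walk x y // In S p} := ⟨⟨p, hp⟩⟩
  exact le_ciInf fun q => H q.1 q.2
/-- It is enough to test self-avoiding paths. -/
theorem le_TS_path (ω : Env) {S : Set V} {x y : V} (h : Conn S x y) {a : ℝ}
    (H : ∀ p : Zd.Walk x y, In S p → p.IsPath → a ≤ wt ω p) : a ≤ TS ω S x y := 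
  le_TS ω h fun p hp => (H p.bypass hp.bypass p.bypass_isPath).trans (wt_bypass_le ω p)
theorem exists_lt_TS (ω : Env) {S : Set V} {x y : V} (h : Conn S x y) {ε : ℝ} (hε : 0 < ε) :
    ∃ p : Zd.Walk x y, In S p ∧ p.IsPath ∧ wt ω p < TS ω S x y + ε := by
  by_contra hc
  push Not at hc
  have := le_TS_path ω h (a := TS ω S x y + ε) hc
  linarith
theorem TS_self (ω : Env) {S : Set V} {x : V} (hx : x ∈ S) : TS ω S x x = 0 := 
  le_antisymm (by
    simpa using TS_le ω (S := S) (SimpleGraph.Walk.nil : Zd.Walk x x)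
      (by intro v hv; simp at hv; exact hv ▸ hx)) (TS_nonneg _ _ _ _)
theorem TS_comm (ω : Env) (S : Set V) (x y : V) : TS ω S x y = TS ω S y x := by
  by_cases h : Conn S x y
  · refine le_antisymm (le_TS ω h.symm fun p hp => ?_) (le_TS ω h fun p hp => ?_)
    · exact (TS_le ω p.reverse hp.reverse).trans (wt_reverse ω p).le
    · exact (TS_le ω p.reverse hp.reverse).trans (wt_reverse ω p).le
  · have h' : ¬ Conn S y x := fun h' => h h'.symm
    haveI : IsEmpty {p : Zd.Walk x y // In S p} := ⟨fun p => h ⟨p.1, p.2⟩⟩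
    haveI : IsEmpty {p : Zd.Walk y x // In S p} := ⟨fun p => h' ⟨p.1, p.2⟩⟩
    simp [TS]
theorem TS_tri (ω : Env) {S : Set V} {x y z : V} (h : Conn S x y) (h' : Conn S y z) :
    TS ω S x z ≤ TS ω S x y + TS ω S y z := by
  have : TS ω S x z - TS ω S y z ≤ TS ω S x y := le_TS ω h fun p hp => by
    have : TS ω S x z - wt ω p ≤ TS ω S y z := le_TS ω h' fun q hq => by
      have := TS_le ω (p.append q) (hp.append hq)
      rw [wt_append] at this; linarith
    linarith
  linarith
theorem TS_mono (ω : Env) {S S' : Set V} {x y : V} (h : Conn S x y) (hS : S ⊆ S') :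
    TS ω S' x y ≤ TS ω S x y := 
  le_TS ω h fun p hp => TS_le ω p (hp.mono hS)
theorem TS_adj (ω : Env) {S : Set V} {x y : V} (h : Zd.Adj x y) (hx : x ∈ S) (hy : y ∈ S) :
    TS ω S x y ≤ tau ω s(x, y) := by
  have := TS_le ω (S := S) (SimpleGraph.Walk.cons h SimpleGraph.Walk.nil) (by
    intro v hv; simp at hv; rcases hv with rfl | rfl <;> assumption)
  simpa [wt_cons] using this
theorem conn_row_Basic (x : ℤ) (y : ℤ) (n : ℕ) : Conn Set.univ (x, y) (x + n, y) := by
  induction n with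
  | zero => simpa using Conn.refl (Set.mem_univ (x, y))
  | succ n ih =>
    refine ih.trans ⟨SimpleGraph.Walk.cons (v := (x + (n + 1 : ℕ), y)) ?_ SimpleGraph.Walk.nil,
      fun _ _ => Set.mem_univ _⟩
    simp [Zd]
theorem conn_col_Basic (x : ℤ) (y : ℤ) (n : ℕ) : Conn Set.univ (x, y) (x, y + n) := by
  induction n with
  | zero => simpa using Conn.refl (Set.mem_univ (x, y))
  | succ n ih =>
    refine ih.trans ⟨SimpleGraph.Walk.cons (v := (x, y + (n + 1 : ℕ))) ?_ SimpleGraph.Walk.nil,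
      fun _ _ => Set.mem_univ _⟩
    simp [Zd]
theorem conn_univ (x y : V) : Conn Set.univ x y := by
  obtain ⟨a, b⟩ := x
  obtain ⟨c, d⟩ := y
  have h1 : Conn Set.univ (a, b) (c, b) := by
    rcases le_total a c with h | h
    · have := conn_row_Basic a b (c - a).toNat
      rwa [Int.toNat_of_nonneg (by omega), add_sub_cancel] at this
    · have := conn_row_Basic c b (a - c).toNat
      rw [Int.toNat_of_nonneg (by omega), add_sub_cancel] at this
      exact this.symm
  have h2 : Conn Set.univ (c, b) (c, d) := by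
    rcases le_total b d with h | h
    · have := conn_col_Basic c b (d - b).toNat
      rwa [Int.toNat_of_nonneg (by omega), add_sub_cancel] at this
    · have := conn_col_Basic c d (b - d).toNat
      rw [Int.toNat_of_nonneg (by omega), add_sub_cancel] at this
      exact this.symm
  exact h1.trans h2
theorem T_eq_TS (ω : Env) (x y : V) : T ω x y = TS ω Set.univ x y := by
  obtain ⟨p₀, -⟩ := conn_univ x y
  haveI : Nonempty (Zd.Walk x y) := ⟨p₀⟩
  refine le_antisymm (le_TS ω (conn_univ x y) fun p _ => ?_) (le_ciInf fun p => ?_)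
  · exact ciInf_le ⟨0, by rintro _ ⟨q, rfl⟩; exact wt_nonneg ω q⟩ p
  · exact TS_le ω p fun _ _ => Set.mem_univ _
theorem T_nonneg (ω : Env) (x y : V) : 0 ≤ T ω x y := by rw [T_eq_TS]; exact TS_nonneg _ _ _ _
theorem T_le (ω : Env) {x y : V} (p : Zd.Walk x y) : T ω x y ≤ wt ω p := by
  rw [T_eq_TS]; exact TS_le ω p fun _ _ => Set.mem_univ _
theorem le_T (ω : Env) {x y : V} {a : ℝ} (H : ∀ p : Zd.Walk x y, p.IsPath → a ≤ wt ω p) :
    a ≤ T ω x y := by
  rw [T_eq_TS]; exact le_TS_path ω (conn_univ x y) fun p _ hp => H p hp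
theorem exists_lt_T (ω : Env) (x y : V) {ε : ℝ} (hε : 0 < ε) :
    ∃ p : Zd.Walk x y, p.IsPath ∧ wt ω p < T ω x y + ε := by
  obtain ⟨p, -, h1, h2⟩ := exists_lt_TS ω (conn_univ x y) hε
  exact ⟨p, h1, by rwa [T_eq_TS]⟩
@[simp] theorem T_self (ω : Env) (x : V) : T ω x x = 0 := by rw [T_eq_TS]; exact TS_self ω (Set.mem_univ _)
theorem T_comm (ω : Env) (x y : V) : T ω x y = T ω y x := by rw [T_eq_TS, T_eq_TS, TS_comm]
theorem T_tri (ω : Env) (x y z : V) : T ω x z ≤ T ω x y + T ω y z := by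
  rw [T_eq_TS, T_eq_TS, T_eq_TS]; exact TS_tri ω (conn_univ _ _) (conn_univ _ _)
theorem T_le_TS (ω : Env) {S : Set V} {x y : V} (h : Conn S x y) : T ω x y ≤ TS ω S x y := by
  rw [T_eq_TS]; exact TS_mono ω h (Set.subset_univ _)
theorem T_adj (ω : Env) {x y : V} (h : Zd.Adj x y) : T ω x y ≤ tau ω s(x, y) := by
  rw [T_eq_TS]; exact TS_adj ω h (Set.mem_univ _) (Set.mem_univ _)
/-- A walk through `v` costs at least the two passage times. -/
theorem T_add_le_of_mem (ω : Env) {x y v : V} (p : Zd.Walk x y) (hv : v ∈ p.support) :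
    T ω x v + T ω v y ≤ wt ω p := by
  classical
  have h := wt_append ω (p.takeUntil v hv) (p.dropUntil v hv)
  rw [SimpleGraph.Walk.take_spec] at h
  linarith [T_le ω (p.takeUntil v hv), T_le ω (p.dropUntil v hv)]
/-- A walk through `u` and `v` visits them in one of the two orders. -/
theorem T_add_le_of_mem₂ (ω : Env) {x y u v : V} (p : Zd.Walk x y) (hu : u ∈ p.support)
    (hv : v ∈ p.support) : T ω x u + T ω u v + T ω v y ≤ wt ω p ∨
      T ω x v + T ω v u + T ω u y ≤ wt ω p := by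
  classical
  have h := wt_append ω (p.takeUntil u hu) (p.dropUntil u hu)
  have hs := SimpleGraph.Walk.take_spec p hu
  rw [hs] at h
  rw [← hs, SimpleGraph.Walk.mem_support_append_iff] at hv
  rcases hv with hv | hv
  · right
    linarith [T_add_le_of_mem ω _ hv, T_le ω (p.dropUntil u hu)]
  · left
    linarith [T_add_le_of_mem ω _ hv, T_le ω (p.takeUntil u hu)]
/-- Changing finitely many weights changes the weight of a path by the changes on its edges. -/
theorem wt_sub_wt (ω ω' : Env) (σ : Finset E) (h : ∀ e ∉ σ, ω' e = ω e) {x y : V}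
    (p : Zd.Walk x y) (hp : p.IsPath) :
    wt ω p - wt ω' p = ∑ e ∈ σ with e.1 ∈ p.edges, ((ω e : ℝ) - ω' e) := by
  classical
  have hnd : p.edges.Nodup := hp.isTrail.edges_nodup
  unfold wt
  rw [← List.sum_toFinset _ hnd, ← List.sum_toFinset _ hnd, ← Finset.sum_sub_distrib]
  symm
  refine Finset.sum_bij_ne_zero (fun e _ _ => e.1) ?_ ?_ ?_ ?_
  · intro e he _; simpa using (Finset.mem_filter.1 he).2
  · intro e _ _ e' _ _ hh; exact Subtype.ext hh
  · intro e he hne
    have he' : e ∈ p.edges := by simpa using he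
    have hE : e ∈ Zd.edgeSet := p.edges_subset_edgeSet he'
    have h1 := tau_edge ω ⟨e, hE⟩
    have h2 := tau_edge ω' ⟨e, hE⟩
    simp only at h1 h2
    have hσ : (⟨e, hE⟩ : E) ∈ σ := by
      by_contra hc
      exact hne (by rw [h1, h2, h _ hc, sub_self])
    exact ⟨⟨e, hE⟩, Finset.mem_filter.2 ⟨hσ, he'⟩, by rwa [← h1, ← h2], rfl⟩
  · intro e _ _; rw [tau_edge, tau_edge]
theorem W_zero (ω : Env) (f : ℕ → V) : W ω f 0 = 0 := by simp [W]
theorem W_succ (ω : Env) (f : ℕ → V) (n : ℕ) :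
    W ω f (n + 1) = W ω f n + tau ω s(f n, f (n + 1)) := by simp [W, Finset.sum_range_succ]
theorem W_mono (ω : Env) (f : ℕ → V) : Monotone (W ω f) := 
  monotone_nat_of_le_succ fun n => by rw [W_succ]; linarith [tau_nonneg ω s(f n, f (n + 1))]
theorem W_tail (ω : Env) (f : ℕ → V) (i n : ℕ) :
    W ω (fun k => f (k + i)) n = W ω f (n + i) - W ω f i := by
  induction n with
  | zero => simp [W_zero]
  | succ n ih =>
    rw [W_succ, ih, show n + 1 + i = n + i + 1 by ring, W_succ]; ring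
theorem Ray.tail {ω : Env} {f : ℕ → V} (h : Ray ω f) (i : ℕ) : Ray ω (fun k => f (k + i)) := 
  ⟨fun a b hab => by simpa using h.inj hab,
    fun k => by rw [show k + 1 + i = k + i + 1 by ring]; exact h.adj _,
    fun a b hab => by rw [W_tail, W_tail, h.geo _ _ (by omega)]; ring⟩
/-- The piece of a nearest-neighbour sequence between two indices, as a walk. -/
theorem exists_seg {f : ℕ → V} (adj : ∀ i, Zd.Adj (f i) (f (i + 1))) {i j : ℕ} (h : i ≤ j) :
    ∃ p : Zd.Walk (f i) (f j), (∀ ω, wt ω p = W ω f j - W ω f i) ∧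
      (∀ v, v ∈ p.support ↔ ∃ k, i ≤ k ∧ k ≤ j ∧ f k = v) ∧
      (∀ e ∈ p.edges, ∃ k, i ≤ k ∧ k < j ∧ e = s(f k, f (k + 1))) ∧ p.length = j - i := by
  induction j, h using Nat.le_induction with
  | base =>
    refine ⟨SimpleGraph.Walk.nil, by simp, fun v => ?_, by simp, by simp⟩
    simp only [SimpleGraph.Walk.support_nil, List.mem_singleton]
    constructor
    · rintro rfl; exact ⟨i, le_rfl, le_rfl, rfl⟩
    · rintro ⟨k, h1, h2, rfl⟩; rw [le_antisymm h2 h1]
  | succ j hij ih =>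
    obtain ⟨p, h1, h2, h3, h4⟩ := ih
    refine ⟨p.append (SimpleGraph.Walk.cons (adj j) SimpleGraph.Walk.nil), fun ω => ?_,
      fun v => ?_, fun e he => ?_, ?_⟩
    · rw [wt_append, h1, wt_cons, wt_nil, W_succ]; ring
    · rw [SimpleGraph.Walk.mem_support_append_iff, h2]
      simp only [SimpleGraph.Walk.support_cons, SimpleGraph.Walk.support_nil, List.mem_cons,
        List.not_mem_nil, or_false]
      constructor
      · rintro (⟨k, a, b, c⟩ | rfl | rfl)
        exacts [⟨k, a, by omega, c⟩, ⟨j, hij, by omega, rfl⟩, ⟨j + 1, by omega, le_rfl, rfl⟩]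
      · rintro ⟨k, a, b, rfl⟩
        rcases Nat.lt_or_ge j k with hk | hk
        · right; right; rw [show k = j + 1 by omega]
        · left; exact ⟨k, a, hk, rfl⟩
    · rw [SimpleGraph.Walk.edges_append, List.mem_append] at he
      rcases he with he | he
      · obtain ⟨k, a, b, c⟩ := h3 e he; exact ⟨k, a, by omega, c⟩
      · simp at he; exact ⟨j, hij, by omega, he⟩
    · simp [h4]; omega
@[simp] theorem X_pt (s : Stair) (k y : ℤ) : X s (pt s k y) = k := by simp [X, pt]
@[simp] theorem pt_snd (s : Stair) (k y : ℤ) : (pt s k y).2 = y := rfl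
theorem eq_pt (s : Stair) (v : V) : v = pt s (X s v) v.2 := by simp [X, pt]
theorem X_adj (s : Stair) {u v : V} (h : Zd.Adj u v) : |X s u - X s v| ≤ 1 := by
  have h' : |u.1 - v.1| + |u.2 - v.2| = 1 := h
  have a1 := abs_nonneg (u.1 - v.1)
  have a2 := abs_nonneg (u.2 - v.2)
  unfold X
  rcases eq_or_ne u.2 v.2 with e | e
  · rw [e] at h' ⊢; simp at h'; rw [sub_sub_sub_cancel_right]; omega
  · have : 1 ≤ |u.2 - v.2| := Int.one_le_abs (sub_ne_zero.2 e)
    have e1 : u.1 = v.1 := sub_eq_zero.1 (abs_eq_zero.1 (by omega))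
    have e2 : |u.2 - v.2| = 1 := by omega
    rw [e1, sub_sub_sub_cancel_left]
    rcases abs_eq (by norm_num : (0 : ℤ) ≤ 1) |>.1 e2 with e3 | e3
    · rw [show u.2 = v.2 + 1 by omega, abs_sub_comm]; exact s.lip _
    · rw [show v.2 = u.2 + 1 by omega]; exact s.lip _
theorem snd_adj {u v : V} (h : Zd.Adj u v) : |u.2 - v.2| ≤ 1 := by
  have h' : |u.1 - v.1| + |u.2 - v.2| = 1 := h
  have a1 := abs_nonneg (u.1 - v.1); omega
theorem fst_adj {u v : V} (h : Zd.Adj u v) : |u.1 - v.1| ≤ 1 := by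
  have h' : |u.1 - v.1| + |u.2 - v.2| = 1 := h
  have a1 := abs_nonneg (u.2 - v.2); omega
theorem adj_pt (s : Stair) (k y : ℤ) : Zd.Adj (pt s k y) (pt s (k + 1) y) := by
  simp [Zd, pt]
theorem c_lip (s : Stair) (y y' : ℤ) : |s.c y - s.c y'| ≤ |y - y'| := by
  have key : ∀ (n : ℕ) (y : ℤ), |s.c (y + n) - s.c y| ≤ n := by
    intro n y
    induction n with
    | zero => simp
    | succ n ih =>
      have := s.lip (y + n)
      push_cast
      rw [← add_assoc]
      rw [abs_le] at *; constructor <;> linarith [this.1, this.2, ih.1, ih.2]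
  rcases le_total y y' with h | h
  · have := key (y' - y).toNat y
    rw [Int.toNat_of_nonneg (by omega), add_sub_cancel] at this
    rw [abs_sub_comm, abs_sub_comm y, abs_of_nonneg (by omega : 0 ≤ y' - y)]; exact this
  · have := key (y - y').toNat y'
    rw [Int.toNat_of_nonneg (by omega), add_sub_cancel] at this
    rw [abs_of_nonneg (by omega : 0 ≤ y - y')]; exact this
theorem p_le_q (s : Stair) : |s.p| ≤ s.q := by
  have h := c_lip s (0 + s.q) 0
  rw [s.per] at h; simpa using h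
theorem c_per (s : Stair) (y j : ℤ) : s.c (y + j * s.q) = s.c y + j * s.p := by
  induction j using Int.induction_on with
  | zero => simp
  | succ j ih => rw [add_mul, one_mul, ← add_assoc, s.per, ih]; ring
  | pred j ih =>
    have := s.per (y + (-j - 1) * s.q)
    rw [show y + (-j - 1) * (s.q : ℤ) + s.q = y + -j * s.q by ring, ih] at this
    linarith
/-- The staircase stays within `q` of the line of direction `(p, q)`. -/
theorem c_line (s : Stair) (y : ℤ) : |s.q * s.c y - s.p * y| ≤ 2 * s.q * s.q := by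
  have hq : (0 : ℤ) < s.q := by exact_mod_cast s.hq
  have h1 := Int.emod_add_mul_ediv y s.q
  have h2 := Int.emod_nonneg y hq.ne'
  have h3 := Int.emod_lt_of_pos y hq
  have h4 := c_per s (y % s.q) (y / s.q)
  rw [show y % s.q + y / s.q * s.q = y by linarith] at h4
  have h5 := c_lip s (y % s.q) 0
  rw [s.c0, sub_zero, sub_zero, abs_of_nonneg h2] at h5
  have h6 := p_le_q s
  have e : s.q * s.c y - s.p * y = s.q * s.c (y % s.q) - s.p * (y % s.q) := by
    rw [h4]; nth_rewrite 3 [← h1]; ring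
  rw [e, abs_le] at *
  constructor <;> nlinarith [h5.1, h5.2, h6.1, h6.2]
theorem row_walk_Basic (s : Stair) (k y : ℤ) (n : ℕ) : ∃ p : Zd.Walk (pt s k y) (pt s (k + n) y),
    (∀ v ∈ p.support, k ≤ X s v ∧ X s v ≤ k + n ∧ v.2 = y) ∧ p.length = n := by
  induction n with
  | zero =>
    refine ⟨(SimpleGraph.Walk.nil : Zd.Walk (pt s k y) (pt s k y)).copy rfl (by simp), ?_, by simp⟩
    intro v hv; simp at hv; subst hv; simp
  | succ n ih =>
    obtain ⟨p, h1, h2⟩ := ih
    have ha : Zd.Adj (pt s (k + n) y) (pt s (k + (n + 1 : ℕ)) y) := by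
      push_cast; rw [← add_assoc]; exact adj_pt s _ _
    refine ⟨p.append (SimpleGraph.Walk.cons ha SimpleGraph.Walk.nil), fun v hv => ?_, by simp [h2]⟩
    rw [SimpleGraph.Walk.mem_support_append_iff] at hv
    rcases hv with hv | hv
    · have := h1 v hv; push_cast; refine ⟨this.1, by linarith [this.2.1], this.2.2⟩
    · simp at hv; rcases hv with rfl | rfl <;> simp <;> omega
theorem row_walk'_Basic (s : Stair) (k k' y : ℤ) : ∃ p : Zd.Walk (pt s k y) (pt s k' y),
    (∀ v ∈ p.support, min k k' ≤ X s v ∧ X s v ≤ max k k' ∧ v.2 = y) ∧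
      (p.length : ℤ) = |k - k'| := by
  rcases le_total k k' with h | h
  · obtain ⟨n, rfl⟩ := Int.le.dest h
    obtain ⟨p, h1, h2⟩ := row_walk_Basic s k y n
    refine ⟨p, fun v hv => ?_, by rw [h2]; simp⟩
    have := h1 v hv; rw [min_eq_left h, max_eq_right h]; exact this
  · obtain ⟨n, rfl⟩ := Int.le.dest h
    obtain ⟨p, h1, h2⟩ := row_walk_Basic s k' y n
    refine ⟨p.reverse, fun v hv => ?_, by simp [h2]⟩
    have := h1 v (by simpa using hv); rw [min_eq_right h, max_eq_left h]; exact this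
theorem up_step_Basic (s : Stair) {a b k : ℤ} (hab : a < b) (hk : a ≤ k ∧ k ≤ b) (y : ℤ) :
    ∃ p : Zd.Walk (pt s k y) (pt s k (y + 1)),
      (∀ v ∈ p.support, v ∈ Strip s a b ∧ y ≤ v.2 ∧ v.2 ≤ y + 1) ∧ p.length ≤ 2 := by
  have hl := abs_le.1 (s.lip y)
  have two : ∀ m : V, Zd.Adj (pt s k y) m → Zd.Adj m (pt s k (y + 1)) → m ∈ Strip s a b →
      y ≤ m.2 → m.2 ≤ y + 1 → ∃ p : Zd.Walk (pt s k y) (pt s k (y + 1)),
      (∀ v ∈ p.support, v ∈ Strip s a b ∧ y ≤ v.2 ∧ v.2 ≤ y + 1) ∧ p.length ≤ 2 := by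
    intro m h1 h2 h3 h4 h5
    refine ⟨.cons h1 (.cons h2 .nil), fun v hv => ?_, by simp⟩
    simp at hv
    rcases hv with rfl | rfl | rfl
    · simp [Strip, hk]
    · exact ⟨h3, h4, h5⟩
    · simp [Strip, hk]
  rcases (by omega : s.c (y + 1) = s.c y ∨ s.c (y + 1) = s.c y + 1 ∨ s.c (y + 1) = s.c y - 1) with
    e | e | e
  · have h1 : Zd.Adj (pt s k y) (pt s k (y + 1)) := by simp [Zd, pt, e]
    refine ⟨.cons h1 .nil, fun v hv => ?_, by simp⟩
    simp at hv
    rcases hv with rfl | rfl <;> simp [Strip, hk]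
  · rcases lt_or_ge k b with h | h
    · refine two (k + s.c y + 1, y) (by simp [Zd, pt]) (by simp [Zd, pt, e, add_assoc]) ?_ le_rfl
        (by simp)
      simp only [Strip, X, Set.mem_setOf_eq]; omega
    · refine two (k + s.c y, y + 1) (by simp [Zd, pt]) (by simp [Zd, pt, e]) ?_ (by simp) le_rfl
      simp only [Strip, X, Set.mem_setOf_eq]; omega
  · rcases lt_or_ge k b with h | h
    · refine two (k + s.c y, y + 1) (by simp [Zd, pt]) (by simp [Zd, pt, e]) ?_ (by simp) le_rfl
      simp only [Strip, X, Set.mem_setOf_eq]; omega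
    · refine two (k + s.c y - 1, y) (by simp [Zd, pt]) (by simp [Zd, pt, e, add_sub_assoc]) ?_
        le_rfl (by simp)
      simp only [Strip, X, Set.mem_setOf_eq]; omega
theorem col_walk_Basic (s : Stair) {a b k : ℤ} (hab : a < b) (hk : a ≤ k ∧ k ≤ b) (y : ℤ) (n : ℕ) :
    ∃ p : Zd.Walk (pt s k y) (pt s k (y + n)),
      (∀ v ∈ p.support, v ∈ Strip s a b ∧ y ≤ v.2 ∧ v.2 ≤ y + n) ∧ p.length ≤ 2 * n := by
  induction n with
  | zero =>
    refine ⟨(SimpleGraph.Walk.nil : Zd.Walk (pt s k y) (pt s k y)).copy rfl (by simp), ?_, by simp⟩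
    intro v hv; simp at hv; subst hv; simp [Strip, hk]
  | succ n ih =>
    obtain ⟨p, h1, h2⟩ := ih
    obtain ⟨q, h3, h4⟩ := up_step_Basic s hab hk (y + n)
    refine ⟨(p.append q).copy rfl (by push_cast; rw [add_assoc]), fun v hv => ?_, ?_⟩
    · rw [SimpleGraph.Walk.support_copy, SimpleGraph.Walk.mem_support_append_iff] at hv
      rcases hv with hv | hv
      · have := h1 v hv; push_cast; exact ⟨this.1, this.2.1, by linarith [this.2.2]⟩
      · have := h3 v hv; push_cast; exact ⟨this.1, by linarith [this.2.1], by linarith [this.2.2]⟩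
    · simp only [SimpleGraph.Walk.length_copy, SimpleGraph.Walk.length_append]; omega
/-- A short walk inside a strip of width at least one, between the two rows. -/
theorem exists_walk (s : Stair) {a b : ℤ} (hab : a < b) {x y : V} (hx : x ∈ Strip s a b)
    (hy : y ∈ Strip s a b) : ∃ p : Zd.Walk x y,
      (∀ v ∈ p.support, v ∈ Strip s a b ∧ min x.2 y.2 ≤ v.2 ∧ v.2 ≤ max x.2 y.2) ∧
      (p.length : ℤ) ≤ |X s x - X s y| + 2 * |x.2 - y.2| := by
  wlog hxy : x.2 ≤ y.2 generalizing x y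
  · obtain ⟨p, h1, h2⟩ := this hy hx (by omega)
    refine ⟨p.reverse, fun v hv => ?_, ?_⟩
    · have := h1 v (by simpa using hv); rwa [min_comm, max_comm]
    · rw [SimpleGraph.Walk.length_reverse, abs_sub_comm (X s x), abs_sub_comm x.2]; exact h2
  obtain ⟨n, hn⟩ := Int.le.dest hxy
  obtain ⟨p, h1, h2⟩ := col_walk_Basic s hab hx x.2 n
  obtain ⟨q, h3, h4⟩ := row_walk'_Basic s (X s x) (X s y) (x.2 + n)
  refine ⟨(p.append q).copy (eq_pt s x).symm (by rw [hn]; exact (eq_pt s y).symm),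
    fun v hv => ?_, ?_⟩
  · rw [SimpleGraph.Walk.support_copy, SimpleGraph.Walk.mem_support_append_iff] at hv
    rw [min_eq_left hxy, max_eq_right hxy]
    rcases hv with hv | hv
    · have := h1 v hv; exact ⟨this.1, this.2.1, hn ▸ this.2.2⟩
    · have := h3 v hv
      obtain ⟨x1, x2⟩ := hx
      obtain ⟨y1, y2⟩ := hy
      exact ⟨⟨(le_min x1 y1).trans this.1, this.2.1.trans (max_le x2 y2)⟩, by omega, by omega⟩
  · simp only [SimpleGraph.Walk.length_copy, SimpleGraph.Walk.length_append]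
    push_cast
    rw [h4, show x.2 - y.2 = -(n : ℤ) by omega, abs_neg, Nat.abs_cast]
    have : (p.length : ℤ) ≤ 2 * n := by exact_mod_cast h2
    linarith
theorem conn_Strip (s : Stair) {a b : ℤ} (hab : a < b) {x y : V} (hx : x ∈ Strip s a b)
    (hy : y ∈ Strip s a b) : Conn (Strip s a b) x y := by
  obtain ⟨p, h1, -⟩ := exists_walk s hab hx hy
  exact ⟨p, fun v hv => (h1 v hv).1⟩
theorem conn_HLe (s : Stair) {k : ℤ} {x y : V} (hx : X s x ≤ k) (hy : X s y ≤ k) :
    Conn (HLe s k) x y := 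
  (conn_Strip s (a := min (min (X s x) (X s y)) (k - 1)) (b := k) (by omega)
    ⟨by omega, hx⟩ ⟨by omega, hy⟩).mono fun _ hv => hv.2
theorem conn_HGe (s : Stair) {k : ℤ} {x y : V} (hx : k ≤ X s x) (hy : k ≤ X s y) :
    Conn (HGe s k) x y := 
  (conn_Strip s (a := k) (b := max (max (X s x) (X s y)) (k + 1)) (by omega)
    ⟨hx, by omega⟩ ⟨hy, by omega⟩).mono fun _ hv => hv.1
theorem conn_Box (s : Stair) {k z : ℤ} {R : ℕ} (hR : 1 ≤ R) {x y : V} (hx : x ∈ Box s k z R)
    (hy : y ∈ Box s k z R) : Conn (Box s k z R) x y := by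
  obtain ⟨x1, x2⟩ := hx
  obtain ⟨y1, y2⟩ := hy
  rw [abs_le] at x1 x2 y1 y2
  obtain ⟨p, h1, -⟩ := exists_walk s (a := k - R) (b := k + R) (x := x) (y := y) (by omega)
    ⟨by omega, by omega⟩ ⟨by omega, by omega⟩
  refine ⟨p, fun v hv => ?_⟩
  obtain ⟨⟨a1, a2⟩, a3, a4⟩ := h1 v hv
  exact ⟨abs_le.2 ⟨by omega, by omega⟩, abs_le.2 ⟨by omega, by omega⟩⟩
theorem finite_Box (s : Stair) (k z : ℤ) (R : ℕ) : (Box s k z R).Finite := by
  refine (((Set.finite_Icc (k - R) (k + R)).prod (Set.finite_Icc (z - R) (z + R))).image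
    fun x : ℤ × ℤ => pt s x.1 x.2).subset fun v hv => ?_
  obtain ⟨h1, h2⟩ := hv
  rw [abs_le] at h1 h2
  exact ⟨(X s v, v.2), ⟨⟨by simp; omega, by simp; omega⟩, ⟨by simp; omega, by simp; omega⟩⟩,
    (eq_pt s v).symm⟩
/-- First visit of a walk to column `k`, coming from the left. -/
theorem split_first (s : Stair) {x y : V} (p : Zd.Walk x y) {k : ℤ} (hx : X s x ≤ k)
    (hy : k ≤ X s y) : ∃ (z : ℤ) (p₁ : Zd.Walk x (pt s k z)) (p₂ : Zd.Walk (pt s k z) y),
      p = p₁.append p₂ ∧ In (HLe s k) p₁ := by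
  induction p with
  | nil =>
    rename_i x
    have e : x = pt s k x.2 := by rw [← le_antisymm hx hy]; exact eq_pt s x
    refine ⟨x.2, SimpleGraph.Walk.nil.copy rfl e, SimpleGraph.Walk.nil.copy e rfl, ?_, ?_⟩
    · simp
    · intro v hv; simp at hv; subst hv; exact hx
  | @cons u v w h p ih =>
    rcases eq_or_lt_of_le hx with e | e
    · have e' : u = pt s k u.2 := by rw [← e]; exact eq_pt s u
      refine ⟨u.2, SimpleGraph.Walk.nil.copy rfl e', (SimpleGraph.Walk.cons h p).copy e' rfl,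
        ?_, ?_⟩
      · simp
      · intro v hv; simp at hv; subst hv; exact hx
    · have := abs_le.1 (X_adj s h)
      obtain ⟨z, p₁, p₂, h1, h2⟩ := ih (by omega) hy
      refine ⟨z, SimpleGraph.Walk.cons h p₁, p₂, by rw [h1]; rfl, fun a ha => ?_⟩
      simp only [SimpleGraph.Walk.support_cons, List.mem_cons] at ha
      rcases ha with rfl | ha
      exacts [hx, h2 a ha]
theorem split_last_Basic (s : Stair) {x y : V} (p : Zd.Walk x y) {k : ℤ}
    (hx : ∃ a ∈ p.support, X s a ≤ k) (hy : k ≤ X s y) :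
    ∃ (z : ℤ) (p₁ : Zd.Walk x (pt s k z)) (p₂ : Zd.Walk (pt s k z) y),
      p = p₁.append p₂ ∧ In (HGe s k) p₂ := by
  induction p with
  | nil =>
    rename_i x
    have hx : X s x ≤ k := by simpa using hx
    have e : x = pt s k x.2 := by rw [← le_antisymm hx hy]; exact eq_pt s x
    refine ⟨x.2, SimpleGraph.Walk.nil.copy rfl e, SimpleGraph.Walk.nil.copy e rfl, ?_, ?_⟩
    · simp
    · intro v hv; simp at hv; subst hv; exact hy
  | @cons u v w h p ih =>
    by_cases hv : ∃ a ∈ p.support, X s a ≤ k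
    · obtain ⟨z, p₁, p₂, h1, h2⟩ := ih hv hy
      exact ⟨z, SimpleGraph.Walk.cons h p₁, p₂, by rw [h1]; rfl, h2⟩
    · push Not at hv
      have := abs_le.1 (X_adj s h)
      have h1 := hv v p.start_mem_support
      have h2 : X s u ≤ k := by
        obtain ⟨a, ha, hk⟩ := hx
        simp only [SimpleGraph.Walk.support_cons, List.mem_cons] at ha
        rcases ha with rfl | ha
        exacts [hk, absurd hk (not_le.2 (hv a ha))]
      have e : X s u = k := by omega
      have e' : u = pt s k u.2 := by rw [← e]; exact eq_pt s u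
      refine ⟨u.2, SimpleGraph.Walk.nil.copy rfl e', (SimpleGraph.Walk.cons h p).copy e' rfl,
        by simp, fun a ha => ?_⟩
      simp only [SimpleGraph.Walk.support_copy, SimpleGraph.Walk.support_cons,
        List.mem_cons] at ha
      rcases ha with rfl | ha
      exacts [e.ge, (hv a ha).le]
/-- Last visit of a walk to column `k`, leaving to the right. -/
theorem split_last (s : Stair) {x y : V} (p : Zd.Walk x y) {k : ℤ} (hx : X s x ≤ k)
    (hy : k ≤ X s y) : ∃ (z : ℤ) (p₁ : Zd.Walk x (pt s k z)) (p₂ : Zd.Walk (pt s k z) y),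
      p = p₁.append p₂ ∧ In (HGe s k) p₂ :=
  split_last_Basic s p ⟨x, p.start_mem_support, hx⟩ hy
/-- An injective sequence leaves every finite set. -/
theorem eventually_notMem {f : ℕ → V} (hf : Function.Injective f) {S : Set V} (hS : S.Finite) :
    ∀ᶠ i in atTop, f i ∉ S := by
  rw [← Nat.cofinite_eq_atTop]
  exact (hS.preimage hf.injOn).subset fun i hi => by simpa using hi
theorem tendsto_nrm {f : ℕ → V} (hf : Function.Injective f) :
    Tendsto (fun i => nrm (f i)) atTop atTop := by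
  refine tendsto_atTop.2 fun b => ?_
  have hS : ((Set.Icc (-b) b) ×ˢ (Set.Icc (-b) b) : Set V).Finite :=
    (Set.finite_Icc _ _).prod (Set.finite_Icc _ _)
  filter_upwards [eventually_notMem hf hS] with i hi
  by_contra hc
  unfold nrm at hc
  have a1 := abs_nonneg (f i).1
  have a2 := abs_nonneg (f i).2
  exact hi ⟨abs_le.1 (by omega), abs_le.1 (by omega)⟩
theorem ivt_Basic {g : ℕ → ℤ} (step : ∀ i, |g i - g (i + 1)| ≤ 1) {N : ℤ} (h0 : N ≤ g 0) {j : ℕ}
    (hne : ∀ i', i' < j → g i' ≠ N) : ∀ i', i' ≤ j → N ≤ g i' := by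
  intro i
  induction i with
  | zero => exact fun _ => h0
  | succ i ih =>
    intro hi
    have h1 := ih (by omega)
    have h2 := hne i (by omega)
    have := abs_le.1 (step i)
    omega
theorem cone_finite_Basic (s : Stair) (A R : ℕ) (k y a b : ℤ) :
    {v : V | a ≤ X s v ∧ X s v ≤ b ∧ |v.2 - y| ≤ A * |X s v - k| + R}.Finite := by
  obtain ⟨M, hM⟩ : ∃ M : ℕ, (M : ℤ) = (A + 1) * (|a - k| + |b - k|) + R :=
    ⟨((A + 1) * (|a - k| + |b - k|) + R).toNat, Int.toNat_of_nonneg (by positivity)⟩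
  refine (finite_Box s k y M).subset fun v ⟨h1, h2, h3⟩ => ?_
  have h4 : |X s v - k| ≤ |a - k| + |b - k| := by
    rw [abs_le]
    constructor <;> linarith [neg_abs_le (a - k), le_abs_self (b - k), abs_nonneg (a - k),
      abs_nonneg (b - k)]
  have h5 : (A : ℤ) * |X s v - k| ≤ A * (|a - k| + |b - k|) :=
    mul_le_mul_of_nonneg_left h4 (by positivity)
  have h6 : (0 : ℤ) ≤ A * (|a - k| + |b - k|) := by positivity
  have h7 : (0 : ℤ) ≤ |a - k| + |b - k| := by positivity
  constructor <;> rw [hM] <;> nlinarith [(Int.natCast_nonneg R)]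
/-- A ray in a cone on the left of a column meets every column further left. -/
theorem exists_hitL (s : Stair) {A R : ℕ} {k y m : ℤ} {f : ℕ → V} (inj : Function.Injective f)
    (adj : ∀ i, Zd.Adj (f i) (f (i + 1))) (side : ∀ i, X s (f i) ≤ m) (hc : Cone s A R k y f)
    {N : ℤ} (hN : N ≤ X s (f 0)) :
    ∃ i, FirstHit s f N i ∧ ∀ i', i' ≤ i → N ≤ X s (f i') := by
  classical
  have step : ∀ i, |X s (f i) - X s (f (i + 1))| ≤ 1 := fun i => X_adj s (adj i)
  have hex : ∃ i, X s (f i) = N := by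
    by_contra hc'
    push Not at hc'
    obtain ⟨i, hi⟩ := (eventually_notMem inj (cone_finite_Basic s A R k y N m)).exists
    exact hi ⟨ivt_Basic step hN (j := i) (fun i' _ => hc' i') i le_rfl, side i, hc i⟩
  have hF : FirstHit s f N (Nat.find hex) := ⟨Nat.find_spec hex, fun i' hi' => Nat.find_min hex hi'⟩
  exact ⟨_, hF, ivt_Basic step hN hF.2⟩
theorem exists_hitR (s : Stair) {A R : ℕ} {k y m : ℤ} {f : ℕ → V} (inj : Function.Injective f)
    (adj : ∀ i, Zd.Adj (f i) (f (i + 1))) (side : ∀ i, m ≤ X s (f i)) (hc : Cone s A R k y f)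
    {N : ℤ} (hN : X s (f 0) ≤ N) :
    ∃ i, FirstHit s f N i ∧ ∀ i', i' ≤ i → X s (f i') ≤ N := by
  classical
  have step : ∀ i, |(-X s (f i)) - (-X s (f (i + 1)))| ≤ 1 := fun i => by
    rw [neg_sub_neg, abs_sub_comm]; exact X_adj s (adj i)
  have hex : ∃ i, X s (f i) = N := by
    by_contra hc'
    push Not at hc'
    obtain ⟨i, hi⟩ := (eventually_notMem inj (cone_finite_Basic s A R k y m N)).exists
    refine hi ⟨side i, ?_, hc i⟩
    have := ivt_Basic (g := fun i => -X s (f i)) step (N := -N) (by simpa using hN) (j := i)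
      (fun i' _ => by simpa using hc' i') i le_rfl
    simpa using this
  have hF : FirstHit s f N (Nat.find hex) := ⟨Nat.find_spec hex, fun i' hi' => Nat.find_min hex hi'⟩
  refine ⟨_, hF, fun i' hi' => ?_⟩
  have := ivt_Basic (g := fun i => -X s (f i)) step (N := -N) (by simpa using hN)
    (fun i' h => by simpa using hF.2 i' h) i' hi'
  simpa using this
theorem FirstHit.left {s : Stair} {f : ℕ → V} (adj : ∀ i, Zd.Adj (f i) (f (i + 1))) {N : ℤ}
    {i : ℕ} (h : FirstHit s f N i) (hN : N ≤ X s (f 0)) : ∀ i', i' ≤ i → N ≤ X s (f i') := 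
  ivt_Basic (g := fun i => X s (f i)) (fun i => X_adj s (adj i)) hN h.2
theorem FirstHit.right {s : Stair} {f : ℕ → V} (adj : ∀ i, Zd.Adj (f i) (f (i + 1))) {N : ℤ}
    {i : ℕ} (h : FirstHit s f N i) (hN : X s (f 0) ≤ N) : ∀ i', i' ≤ i → X s (f i') ≤ N := by
  intro i' hi'
  have step : ∀ i, |(-X s (f i)) - (-X s (f (i + 1)))| ≤ 1 := fun i => by
    rw [neg_sub_neg, abs_sub_comm]; exact X_adj s (adj i)
  have := ivt_Basic (g := fun i => -X s (f i)) step (N := -N) (by simpa using hN)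
    (fun i' h' => by simpa using h.2 i' h') i' hi'
  simpa using this

end P158
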