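import Vale.Agent.P158.Basic

open scoped NNReal ENNReal
open MeasureTheory Filter Topology

namespace P158

/-! Planarity: crossing walks meet; Monge inequalities. -/

/-- Parity of the vertical edges to the left of `v` between its row and the next one. -/
def crossL (v : V) : ∀ {x y : V}, Zd.Walk x y → ZMod 2
  | _, _, .nil => 0
  | a, _, .cons (v := b) _ p =>
    (if a.1 = b.1 ∧ a.1 < v.1 ∧ min a.2 b.2 = v.2 then 1 else 0) + crossL v p

theorem cross_adj {a b : V} (h : Zd.Adj a b) :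
    (a.1 = b.1 ∧ (a.2 = b.2 + 1 ∨ b.2 = a.2 + 1)) ∨ (a.2 = b.2 ∧ (a.1 = b.1 + 1 ∨ b.1 = a.1 + 1)) := by
  have : |a.1 - b.1| + |a.2 - b.2| = 1 := h
  rcases abs_cases (a.1 - b.1) with h1 | h1 <;> rcases abs_cases (a.2 - b.2) with h2 | h2 <;> omega

theorem cross_ne {a v : V} (h : a ≠ v) : a.1 ≠ v.1 ∨ a.2 ≠ v.2 := by
  by_contra! h'
  exact h (Prod.ext h'.1 h'.2)

theorem cross_hor {v v' x y : V} (h1 : v'.1 = v.1 + 1) (h2 : v'.2 = v.2) (p : Zd.Walk x y)
    (hv : v ∉ p.support) : crossL v' p = crossL v p := by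
  induction p with
  | nil => rfl
  | @cons a b c h p ih =>
    rw [SimpleGraph.Walk.support_cons, List.mem_cons, not_or] at hv
    have e1 := cross_adj h
    have e2 := cross_ne (Ne.symm hv.1)
    have e3 := cross_ne (ne_of_mem_of_not_mem p.start_mem_support hv.2)
    rw [crossL, crossL, ih hv.2]
    congr 2
    refine propext ?_
    omega

theorem cross_ver {v v' x y : V} (h1 : v'.1 = v.1) (h2 : v'.2 = v.2 + 1) (p : Zd.Walk x y)
    (hv : v' ∉ p.support) : crossL v' p = crossL v p +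
      ((if x.2 = v'.2 ∧ x.1 < v'.1 then 1 else 0) + if y.2 = v'.2 ∧ y.1 < v'.1 then 1 else 0) := by
  induction p with
  | nil => split_ifs <;> rfl
  | @cons a b c h p ih =>
    rw [SimpleGraph.Walk.support_cons, List.mem_cons, not_or] at hv
    have e1 := cross_adj h
    have e2 := cross_ne (Ne.symm hv.1)
    have e3 := cross_ne (ne_of_mem_of_not_mem p.start_mem_support hv.2)
    rw [crossL, crossL, ih hv.2]
    generalize crossL v p = t
    generalize (if c.2 = v'.2 ∧ c.1 < v'.1 then (1 : ZMod 2) else 0) = t'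
    split_ifs <;> first | omega | (revert t t'; decide)

theorem cross_inv {x y u w : V} (p : Zd.Walk x y) (φ : ℤ → ZMod 2) (q : Zd.Walk u w)
    (hq : ∀ v ∈ q.support, v ∉ p.support ∧ φ (v.2 - 1) = φ v.2 +
      ((if x.2 = v.2 ∧ x.1 < v.1 then 1 else 0) + if y.2 = v.2 ∧ y.1 < v.1 then 1 else 0)) :
    crossL u p + φ u.2 = crossL w p + φ w.2 := by
  induction q with
  | nil => rfl
  | @cons a b c h q ih =>
    have ha := hq a (by simp)
    have hb := hq b (by simp)
    rw [← ih fun v hv => hq v (by simp [hv])]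
    have two : ∀ t : ZMod 2, t + t = 0 := by decide
    rcases cross_adj h with ⟨e1, e2 | e2⟩ | ⟨e1, e2 | e2⟩
    · rw [cross_ver e1 e2 p ha.1, show b.2 = a.2 - 1 by omega, ha.2]
      ring
    · rw [cross_ver e1.symm e2 p hb.1, show a.2 = b.2 - 1 by omega, hb.2]
      ring
    · rw [cross_hor e2 e1 p hb.1, e1]
    · rw [cross_hor e2 e1.symm p ha.1, e1]

theorem cross_left (s : Stair) {a z : ℤ} {x y : V} (p : Zd.Walk x y)
    (hp : ∀ v ∈ p.support, a ≤ X s v) : crossL (pt s a z) p = 0 := by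
  induction p with
  | nil => rfl
  | @cons u v c h p ih =>
    have h1 := hp u (by simp)
    have h2 := hp v (by simp)
    rw [crossL, ih fun v hv => hp v (by simp [hv]), add_zero, if_neg]
    rintro ⟨e1, e2, e3⟩
    simp only [X, pt] at h1 h2 e2 e3
    rcases min_choice u.2 v.2 with e | e
    · rw [e.symm.trans e3] at h1
      omega
    · rw [e.symm.trans e3] at h2
      omega

theorem cross_right (s : Stair) {b z : ℤ} {x y : V} (p : Zd.Walk x y)
    (hp : ∀ v ∈ p.support, X s v ≤ b ∧ v ≠ pt s b z) : crossL (pt s b z) p =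
      (if x.2 ≤ z then 1 else 0) + if y.2 ≤ z then 1 else 0 := by
  induction p with
  | nil => split_ifs <;> rfl
  | @cons u v c h p ih =>
    have k : ∀ w : V, X s w ≤ b ∧ w ≠ pt s b z → w.2 = z → w.1 < (pt s b z).1 := fun w hw e => by
      have := cross_ne hw.2
      have h1 := hw.1
      simp only [X, pt, e] at this h1 ⊢
      omega
    have h1 := k u (hp u (by simp))
    have h2 := k v (hp v (by simp))
    have e1 := cross_adj h
    rw [crossL, ih fun v hv => hp v (by simp [hv]), pt_snd]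
    generalize (if c.2 ≤ z then (1 : ZMod 2) else 0) = t'
    split_ifs <;> first | omega | (revert t'; decide)

theorem cross_lt (s : Stair) {a i : ℤ} {v : V} (h : a ≤ X s v) (h' : v ≠ pt s a i) :
    ((pt s a i).2 = v.2 ∧ (pt s a i).1 < v.1) ↔ i = v.2 := by
  refine ⟨fun e => e.1, fun e => ⟨e, ?_⟩⟩
  have := cross_ne h'
  simp only [X, pt, e] at this h ⊢
  omega

theorem cross_swap (ω : Env) {S : Set V} {x y x' y' : V} (hc : Conn S x y) (hc' : Conn S x' y')
    (H : ∀ (p : Zd.Walk x y) (p' : Zd.Walk x' y'), In S p → In S p' →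
      ∃ v, v ∈ p.support ∧ v ∈ p'.support) :
    TS ω S x y' + TS ω S x' y ≤ TS ω S x y + TS ω S x' y' := by
  rw [← sub_le_iff_le_add]
  refine le_TS ω hc fun p hp => ?_
  rw [sub_le_comm]
  refine le_TS ω hc' fun p' hp' => ?_
  obtain ⟨v, h1, h2⟩ := H p p' hp hp'
  obtain ⟨q, r, rfl⟩ := SimpleGraph.Walk.mem_support_iff_exists_append.1 h1
  obtain ⟨q', r', rfl⟩ := SimpleGraph.Walk.mem_support_iff_exists_append.1 h2
  have a1 := TS_le ω (q.append r') (In.append (S := S)
    (fun v hv => hp v (q.support_subset_support_append_left r hv))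
    fun v hv => hp' v (q'.support_subset_support_append_right r' hv))
  have a2 := TS_le ω (q'.append r) (In.append (S := S)
    (fun v hv => hp' v (q'.support_subset_support_append_left r' hv))
    fun v hv => hp v (q.support_subset_support_append_right r hv))
  simp only [wt_append] at *
  linarith
theorem cross_strip (s : Stair) {a b i i' j j' : ℤ} (hi : i ≤ i') (hj : j ≤ j')
    (p : Zd.Walk (pt s a i) (pt s b j')) (p' : Zd.Walk (pt s a i') (pt s b j))
    (hp : In (Strip s a b) p) (hp' : In (Strip s a b) p') :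
    ∃ v, v ∈ p.support ∧ v ∈ p'.support := by
  by_contra! H
  have key := cross_inv p (fun z => if i ≤ z then 1 else 0) p' fun v hv => ⟨fun h => H v h hv, by
    have h1 := hp' v hv
    rw [if_congr (cross_lt s h1.1 fun e => H v (e ▸ p.start_mem_support) hv) rfl rfl,
      if_neg (c := _ ∧ _) (by
        rintro ⟨e1, e2⟩
        have := h1.2
        simp only [X, pt] at e1 e2 this
        rw [← e1] at this
        omega)]
    split_ifs <;> first | omega | decide⟩
  rw [cross_left s p fun v hv => (hp v hv).1, cross_right s p fun v hv =>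
    ⟨(hp v hv).2, fun e => H v hv (e ▸ p'.end_mem_support)⟩] at key
  have : j ≠ j' := fun e => H _ p.end_mem_support (e ▸ p'.end_mem_support)
  change (0 : ZMod 2) + (if i ≤ i' then 1 else 0) =
    ((if i ≤ j then 1 else 0) + if j' ≤ j then 1 else 0) + if i ≤ j then 1 else 0 at key
  split_ifs at key <;> first | omega | exact absurd key (by decide)

theorem cross_half (s : Stair) {y₁ y₂ y₃ y₄ : ℤ} (h₁ : y₁ ≤ y₂) (h₂ : y₂ ≤ y₃) (h₃ : y₃ ≤ y₄)
    (p : Zd.Walk (pt s 0 y₁) (pt s 0 y₃)) (p' : Zd.Walk (pt s 0 y₂) (pt s 0 y₄))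
    (hp : In (HGe s 0) p) (hp' : In (HGe s 0) p') :
    ∃ v, v ∈ p.support ∧ v ∈ p'.support := by
  by_contra! H
  have key := cross_inv p (fun z => (if y₁ ≤ z then 1 else 0) + if y₃ ≤ z then 1 else 0) p'
    fun v hv => ⟨fun h => H v h hv, by
    have h1 := hp' v hv
    rw [if_congr (cross_lt s h1 fun e => H v (e ▸ p.start_mem_support) hv) rfl rfl,
      if_congr (cross_lt s h1 fun e => H v (by rw [e]; exact p.end_mem_support) hv) rfl rfl]
    split_ifs <;> first | omega | decide⟩
  rw [cross_left s p hp, cross_left s p hp] at key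
  have : y₂ ≠ y₃ := fun e => H _ p.end_mem_support (e ▸ p'.start_mem_support)
  change (0 : ZMod 2) + ((if y₁ ≤ y₂ then 1 else 0) + if y₃ ≤ y₂ then 1 else 0) =
    0 + ((if y₁ ≤ y₄ then 1 else 0) + if y₃ ≤ y₄ then 1 else 0) at key
  split_ifs at key <;> first | omega | exact absurd key (by decide)

theorem monge_strip (s : Stair) (ω : Env) {a b i i' j j' : ℤ} (hab : a < b) (hi : i ≤ i')
    (hj : j ≤ j') :
    TS ω (Strip s a b) (pt s a i) (pt s b j) + TS ω (Strip s a b) (pt s a i') (pt s b j') ≤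
      TS ω (Strip s a b) (pt s a i) (pt s b j') + TS ω (Strip s a b) (pt s a i') (pt s b j) := cross_swap ω (conn_Strip s hab ⟨by simp, by simpa using hab.le⟩ ⟨by simpa using hab.le, by simp⟩)
    (conn_Strip s hab ⟨by simp, by simpa using hab.le⟩ ⟨by simpa using hab.le, by simp⟩)
    (cross_strip s hi hj)

theorem monge_half (s : Stair) (ω : Env) {y₁ y₂ y₃ y₄ : ℤ} (h₁ : y₁ ≤ y₂) (h₂ : y₂ ≤ y₃)
    (h₃ : y₃ ≤ y₄) :
    TS ω (HGe s 0) (pt s 0 y₁) (pt s 0 y₄) + TS ω (HGe s 0) (pt s 0 y₂) (pt s 0 y₃) ≤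
      TS ω (HGe s 0) (pt s 0 y₁) (pt s 0 y₃) + TS ω (HGe s 0) (pt s 0 y₂) (pt s 0 y₄) := cross_swap ω (conn_HGe s (by simp) (by simp)) (conn_HGe s (by simp) (by simp))
    (cross_half s h₁ h₂ h₃)

end P158
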