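import Vale.Agent.P158.Trn
import Vale.Agent.P158.Cross

open scoped NNReal ENNReal
open MeasureTheory Filter Topology

namespace P158

/-! The outer boundary of a finite connected set can be followed. -/

theorem walk_Bd {S : Set V} {g : V → ZMod 2} (h : ∀ x ∈ S, ∀ y ∈ S, Zd.Adj x y → g x = g y)
    {a b : V} (hc : Conn S a b) : g a = g b := by
  obtain ⟨p, hp⟩ := hc
  induction p with
  | nil => rfl
  | cons hadj q ih =>
    exact (h _ (hp _ (by simp)) _ (hp _ (by simp)) hadj).trans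
      (ih fun w hw => hp w (by simp [hw]))

theorem pot_Bd (f : V → V → ZMod 2) (symm : ∀ a b, f a b = f b a) (B : ℤ)
    (far : ∀ a b, (B ≤ |a.1| ∨ B ≤ |a.2|) → (B ≤ |b.1| ∨ B ≤ |b.2|) → f a b = 0)
    (sq : ∀ a b c d, Zd.Adj a b → Zd.Adj b c → Zd.Adj c d → Zd.Adj d a →
      f a b + f b c + f c d + f d a = 0) :
    ∃ g : V → ZMod 2, (∀ a b, Zd.Adj a b → g a + g b = f a b) ∧ ∀ a, 2 * B ≤ nrm a → g a = 0 := by
  have two : ∀ x : ZMod 2, x + x = 0 := by decide
  let g : V → ZMod 2 := fun a => ∑ k ∈ Finset.Ico a.1 B, f (k, a.2) (k + 1, a.2)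
  have g0 : ∀ x y, B ≤ x → g (x, y) = 0 := fun x y h => by
    simp only [g, Finset.Ico_eq_empty_of_le h, Finset.sum_empty]
  have fx : ∀ x y x' y', B ≤ x → B ≤ x' → f (x, y) (x', y') = 0 := fun x y x' y' h h' =>
    far _ _ (Or.inl (h.trans (le_abs_self _))) (Or.inl (h'.trans (le_abs_self _)))
  have hor : ∀ x y, g (x, y) = f (x, y) (x + 1, y) + g (x + 1, y) := fun x y => by
    by_cases h : B ≤ x
    · rw [g0 x y h, g0 _ y (by omega), fx _ _ _ _ h (by omega), add_zero]
    · have : Finset.Ico x B = insert x (Finset.Ico (x + 1) B) := by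
        ext k
        simp only [Finset.mem_Ico, Finset.mem_insert]
        omega
      simp only [g]
      rw [this, Finset.sum_insert (by simp)]
  have ver : ∀ x y, g (x, y) + g (x, y + 1) = f (x, y) (x, y + 1) := fun x y => by
    by_cases h : B ≤ x
    · rw [g0 x y h, g0 x _ h, fx _ _ _ _ h h, add_zero]
    · have key : ∀ x ≤ B, g (x, y) + g (x, y + 1) = f (x, y) (x, y + 1) := fun x hx => by
        induction x, hx using Int.le_induction_down with
        | base => rw [g0 _ y le_rfl, g0 _ _ le_rfl, fx _ _ _ _ le_rfl le_rfl, add_zero]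
        | pred n _ ih =>
          have h1 := hor (n - 1) y
          have h2 := hor (n - 1) (y + 1)
          rw [sub_add_cancel] at h1 h2
          have h3 := sq (n - 1, y) (n, y) (n, y + 1) (n - 1, y + 1) (by simp [Zd]) (by simp [Zd])
            (by simp [Zd]) (by simp [Zd])
          rw [symm (n, y + 1), symm (n - 1, y + 1) (n - 1, y)] at h3
          linear_combination h1 + h2 + ih + h3 - two (f (n - 1, y) (n - 1, y + 1))
      exact key x (by omega)
  have row : ∀ x y, B ≤ |y| → g (x, y) = 0 := fun x y h =>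
    Finset.sum_eq_zero fun k _ => far _ _ (Or.inr h) (Or.inr h)
  refine ⟨g, fun a b h => ?_, fun a h => ?_⟩
  · obtain ⟨x, y⟩ := a
    obtain ⟨x', y'⟩ := b
    rcases cross_adj h with ⟨h1, h2 | h2⟩ | ⟨h1, h2 | h2⟩ <;> dsimp only at h1 h2 <;> subst h1 h2
    · rw [add_comm, ver, symm]
    · exact ver _ _
    · rw [hor x' y, symm, add_left_comm, two, add_zero]
    · rw [hor x y, add_assoc, two, add_zero]
  · obtain ⟨x, y⟩ := a
    by_cases h1 : B ≤ |y|
    · exact row x y h1
    by_cases h2 : B ≤ x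
    · exact g0 x y h2
    have h3 : B ≤ |x| := by
      simp only [nrm] at h
      omega
    have key : ∀ y ≤ |B|, g (x, y) = 0 := fun y hy => by
      induction y, hy using Int.le_induction_down with
      | base => exact row x _ (by rw [abs_abs]; exact le_abs_self _)
      | pred n _ ih =>
        have := ver x (n - 1)
        rwa [sub_add_cancel, ih, add_zero, far _ _ (Or.inl h3) (Or.inl h3)] at this
    exact key y (((le_abs_self y).trans (not_le.1 h1).le).trans (le_abs_self B))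

theorem dir_Bd {a b : V} (h : Zd.Adj a b) :
    b - a ∈ ({(1, 0), (-1, 0), (0, 1), (0, -1)} : Finset V) := by
  obtain ⟨x, y⟩ := a
  obtain ⟨x', y'⟩ := b
  rcases cross_adj h with ⟨h1, h2 | h2⟩ | ⟨h1, h2 | h2⟩ <;> dsimp only at h1 h2 <;>
    subst h1 h2 <;> simp

theorem bd {C : Set V} (hC : C.Finite) (hconn : ∀ a ∈ C, ∀ b ∈ C, Conn C a b) {u v : V}
    (hu : ∃ c ∈ C, Zd.Adj u c) (hv : ∃ c ∈ C, Zd.Adj v c) (ou : Out C u) (ov : Out C v) :
    ∃ p : Zd.Walk u v, (∀ e ∈ p.edges, ∃ w ∈ e, w ∉ C ∧ ∃ c ∈ C, Zd.Adj w c) ∧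
      p.length ≤ 16 * C.ncard := by
  classical
  let Bd : V → Prop := fun w => w ∉ C ∧ ∃ c ∈ C, Zd.Adj w c
  let R : V → Prop := fun w => ∃ p : Zd.Walk u w, ∀ e ∈ p.edges, ∃ w ∈ e, Bd w
  have step : ∀ a b, R a → Zd.Adj a b → Bd a ∨ Bd b → R b := fun a b ⟨p, hp⟩ h hb => by
    refine ⟨p.concat h, fun e he => ?_⟩
    rw [SimpleGraph.Walk.edges_concat, List.concat_eq_append, List.mem_append,
      List.mem_singleton] at he
    rcases he with he | rfl
    · exact hp e he
    · rcases hb with hb | hb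
      · exact ⟨a, by simp, hb⟩
      · exact ⟨b, by simp, hb⟩
  have notC : ∀ w, Out C w → w ∉ C := fun w hw => by
    obtain ⟨_, -, p, hp⟩ := hw 0
    exact hp w p.start_mem_support
  let f : V → V → ZMod 2 := fun a b =>
    if (a ∈ C ∧ Bd b ∧ R b) ∨ (b ∈ C ∧ Bd a ∧ R a) then 1 else 0
  let χ : V → ZMod 2 := fun a => if a ∈ C then 1 else 0
  have two : ∀ x : ZMod 2, x + x = 0 := by decide
  have fχ : ∀ a b, Zd.Adj a b → (Bd a → R a) → (Bd b → R b) → f a b = χ a + χ b :=
    fun a b h ha hb => by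
      by_cases h1 : a ∈ C <;> by_cases h2 : b ∈ C
      · simp only [f, χ, Bd, h1, h2]
        simp [two]
      · have : Bd b := ⟨h2, a, h1, h.symm⟩
        simp [f, χ, h1, h2, this, hb this]
      · have : Bd a := ⟨h1, b, h2, h⟩
        simp [f, χ, h1, h2, this, ha this]
      · simp [f, χ, h1, h2]
  have sq1 : ∀ a b c d, Zd.Adj a b → Zd.Adj b c → Zd.Adj c d → Zd.Adj d a → Bd a ∧ R a →
      f a b + f b c + f c d + f d a = 0 := fun a b c d h1 h2 h3 h4 ha => by
    have rb := step a b ha.2 h1 (Or.inl ha.1)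
    have rd := step a d ha.2 h4.symm (Or.inl ha.1)
    have rc : Bd c → R c := fun hc => step b c rb h2 (Or.inr hc)
    rw [fχ a b h1 (fun _ => ha.2) fun _ => rb, fχ b c h2 (fun _ => rb) rc,
      fχ c d h3 rc fun _ => rd, fχ d a h4 (fun _ => rd) fun _ => ha.2]
    linear_combination two (χ a) + two (χ b) + two (χ c) + two (χ d)
  obtain ⟨B, hB⟩ := (hC.image nrm).bddAbove
  have hB' : ∀ a : V, (B + 1 ≤ |a.1| ∨ B + 1 ≤ |a.2|) → a ∉ C := fun a h ha => by
    have h1 : |a.1| + |a.2| ≤ B := hB ⟨a, ha, rfl⟩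
    have := abs_nonneg a.1
    have := abs_nonneg a.2
    omega
  obtain ⟨g, g1, g2⟩ := pot_Bd f (fun a b => by simp only [f, or_comm]) (B + 1)
    (fun a b ha hb => by simp [f, hB' a ha, hB' b hb]) fun a b c d h1 h2 h3 h4 => by
      by_cases ha : Bd a ∧ R a
      · exact sq1 a b c d h1 h2 h3 h4 ha
      by_cases hb : Bd b ∧ R b
      · linear_combination sq1 b c d a h2 h3 h4 h1 hb
      by_cases hc : Bd c ∧ R c
      · linear_combination sq1 c d a b h3 h4 h1 h2 hc
      by_cases hd : Bd d ∧ R d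
      · linear_combination sq1 d a b c h4 h1 h2 h3 hd
      simp only [f, ha, hb, hc, hd]
      simp
  have eqz : ∀ a b, Zd.Adj a b → f a b = 0 → g a = g b := fun a b h h0 => by
    linear_combination g1 a b h + h0 - two (g b)
  have out0 : ∀ w, Out C w → g w = 0 := fun w hw => by
    obtain ⟨z, hz, hc⟩ := hw (2 * (B + 1))
    rw [walk_Bd (fun x hx y hy h => eqz x y h (by
      simp [f, show x ∉ C from hx, show y ∉ C from hy])) hc, g2 z hz]
  obtain ⟨c, hc, huc⟩ := hu
  obtain ⟨c', hc', hvc⟩ := hv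
  have e1 : g c = g c' := walk_Bd (fun x hx y hy h => eqz x y h (by simp [f, Bd, hx, hy]))
    (hconn c hc c' hc')
  have e2 := g1 u c huc
  have e3 := g1 v c' hvc
  have bu : Bd u := ⟨notC u ou, c, hc, huc⟩
  have ru : R u := ⟨.nil, by simp⟩
  rw [out0 u ou, e1] at e2
  rw [out0 v ov, e2] at e3
  have rv : R v := by
    by_contra h
    simp [f, hc, bu, ru, h, notC v ov] at e3
  obtain ⟨p, hp⟩ := rv
  have hp' : ∀ e ∈ p.bypass.edges, ∃ w ∈ e, Bd w := fun e he => hp e (p.edges_bypass_subset he)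
  refine ⟨p.bypass, hp', ?_⟩
  let Dr : Finset V := {(1, 0), (-1, 0), (0, 1), (0, -1)}
  have hD : Dr.card ≤ 4 := Finset.card_le_four
  have hsub : p.bypass.edges.toFinset ⊆ (hC.toFinset ×ˢ Dr ×ˢ Dr).image
      fun t => s(t.1 + t.2.1, t.1 + t.2.1 + t.2.2) := fun e he => by
    rw [List.mem_toFinset] at he
    obtain ⟨w, hw, -, c, hc, hwc⟩ := hp' e he
    obtain ⟨z, rfl⟩ := Sym2.mem_iff_exists.1 hw
    have hz : Zd.Adj w z := p.bypass.adj_of_mem_edges he
    refine Finset.mem_image.2 ⟨(c, w - c, z - w), ?_, by simp⟩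
    simp only [Finset.mem_product, Set.Finite.mem_toFinset]
    exact ⟨hc, dir_Bd hwc.symm, dir_Bd hz⟩
  rw [← SimpleGraph.Walk.length_edges,
    ← List.toFinset_card_of_nodup p.bypass_isPath.isTrail.edges_nodup,
    Set.ncard_eq_toFinset_card C hC]
  refine (Finset.card_le_card hsub).trans (Finset.card_image_le.trans ?_)
  rw [Finset.card_product, Finset.card_product, mul_comm]
  exact Nat.mul_le_mul_right _ (Nat.mul_le_mul hD hD)

end P158
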