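import Vale.Agent.P158.Cross

open scoped NNReal ENNReal
open MeasureTheory Filter Topology

namespace P158

/-! Left half-plane Busemann functions. -/

variable {s : Stair} {A : ℕ} {ω : Env} {l l' : ℕ → V}

section gen
variable {S : Set V} {f : ℕ → V} {z z' : V}

theorem anti_BuseL (h : Ray ω f) (hS : ∀ i, f i ∈ S) (hc : ∀ x ∈ S, ∀ y ∈ S, Conn S x y)
    (hz : z ∈ S) : Antitone fun i => TS ω S (f i) z - W ω f i := by
  refine antitone_nat_of_succ_le fun i => ?_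
  have h1 := TS_tri ω (hc _ (hS (i + 1)) _ (hS i)) (hc _ (hS i) _ hz)
  have h2 := TS_adj ω (h.adj i) (hS i) (hS (i + 1))
  rw [TS_comm] at h2
  rw [W_succ]; linarith

theorem bdd_BuseL (h : Ray ω f) (hS : ∀ i, f i ∈ S) (hc : ∀ x ∈ S, ∀ y ∈ S, Conn S x y)
    (hz : z ∈ S) : BddBelow (Set.range fun i => TS ω S (f i) z - W ω f i) := by
  refine ⟨-T ω (f 0) z, ?_⟩
  rintro _ ⟨i, rfl⟩
  have h1 := T_le_TS ω (hc _ (hS i) _ hz)
  have h2 := h.geo 0 i (Nat.zero_le _)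
  have h3 := T_tri ω (f 0) z (f i)
  rw [T_comm ω z] at h3
  rw [W_zero] at h2
  simp only; linarith

theorem tend_BuseL (h : Ray ω f) (hS : ∀ i, f i ∈ S) (hc : ∀ x ∈ S, ∀ y ∈ S, Conn S x y)
    (hz : z ∈ S) : Tendsto (fun i => TS ω S (f i) z - W ω f i) atTop
      (𝓝 (⨅ i, (TS ω S (f i) z - W ω f i))) :=
  tendsto_atTop_ciInf (anti_BuseL h hS hc hz) (bdd_BuseL h hS hc hz)

theorem lip_BuseL (h : Ray ω f) (hS : ∀ i, f i ∈ S) (hc : ∀ x ∈ S, ∀ y ∈ S, Conn S x y)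
    (hz : z ∈ S) (hz' : z' ∈ S) :
    |(⨅ i, (TS ω S (f i) z' - W ω f i)) - ⨅ i, (TS ω S (f i) z - W ω f i)| ≤ TS ω S z z' := by
  refine le_of_tendsto' ((tend_BuseL h hS hc hz').sub (tend_BuseL h hS hc hz)).abs fun i => ?_
  have h1 := TS_tri ω (hc _ (hS i) _ hz) (hc _ hz _ hz')
  have h2 := TS_tri ω (hc _ (hS i) _ hz') (hc _ hz' _ hz)
  rw [TS_comm ω S z' z] at h2
  rw [abs_le]; constructor <;> linarith

theorem tail_BuseL (h : Ray ω f) (hS : ∀ i, f i ∈ S) (hc : ∀ x ∈ S, ∀ y ∈ S, Conn S x y)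
    (hz : z ∈ S) (i : ℕ) : (⨅ k, (TS ω S (f (k + i)) z - W ω (fun k => f (k + i)) k)) =
      (⨅ k, (TS ω S (f k) z - W ω f k)) + W ω f i := by
  refine tendsto_nhds_unique (tend_BuseL (h.tail i) (fun k => hS _) hc hz) ?_
  refine (((tend_BuseL h hS hc hz).comp (tendsto_add_atTop_nat i)).add_const (W ω f i)).congr
    fun k => ?_
  simp only [Function.comp, W_tail]; ring

theorem idx_BuseL {g : ℕ → ℤ} {i : ℕ → ℕ} (hi : ∀ᶠ N : ℕ in atTop, |g (i N)| = N) :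
    Tendsto i atTop atTop := by
  refine tendsto_atTop.2 fun b => ?_
  filter_upwards [hi, eventually_gt_atTop (∑ k ∈ Finset.range b, (g k).natAbs)] with N h1 h2
  by_contra hc
  have h3 : (g (i N)).natAbs ≤ ∑ k ∈ Finset.range b, (g k).natAbs :=
    Finset.single_le_sum (f := fun k => (g k).natAbs) (fun _ _ => Nat.zero_le _)
      (Finset.mem_range.2 (not_le.1 hc))
  rw [Int.abs_eq_natAbs] at h1
  omega

theorem strip_BuseL (h : Ray ω f) (hS : ∀ i, f i ∈ S) (hc : ∀ x ∈ S, ∀ y ∈ S, Conn S x y)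
    (hz : z ∈ S) {S' : ℕ → Set V} (h1 : ∀ N, S' N ⊆ S) (h2 : ∀ v ∈ S, ∀ᶠ N in atTop, v ∈ S' N)
    (h3 : ∀ᶠ N in atTop, ∀ x ∈ S' N, ∀ y ∈ S' N, Conn (S' N) x y) {i : ℕ → ℕ}
    (hi : Tendsto i atTop atTop) (h4 : ∀ᶠ N in atTop, ∀ i', i' ≤ i N → f i' ∈ S' N) :
    Tendsto (fun N : ℕ => TS ω (S' N) (f (i N)) z - W ω f (i N)) atTop
      (𝓝 (⨅ k, (TS ω S (f k) z - W ω f k))) := by
  refine tendsto_order.2 ⟨fun a ha => ?_, fun a ha => ?_⟩
  · filter_upwards [h2 z hz, h3, h4] with N a1 a2 a3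
    have b1 := TS_mono ω (a2 _ (a3 _ le_rfl) _ a1) (h1 N)
    have b2 := ciInf_le (bdd_BuseL h hS hc hz) (i N)
    linarith
  · obtain ⟨k, hk⟩ := exists_lt_of_ciInf_lt ha
    obtain ⟨p, hp, -, hw⟩ := exists_lt_TS ω (hc _ (hS k) _ hz) (sub_pos.2 hk)
    have e : ∀ᶠ N in atTop, ∀ v ∈ p.support.toFinset, v ∈ S' N :=
      (eventually_all_finset _).2 fun v hv => h2 v (hp v (List.mem_toFinset.1 hv))
    filter_upwards [e, h4, hi.eventually_ge_atTop k] with N a1 a2 a3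
    obtain ⟨q, q1, q2, -⟩ := exists_seg h.adj a3
    have hq : In (S' N) q := fun v hv => by
      obtain ⟨j, -, hj, rfl⟩ := (q2 v).1 hv
      exact a2 j hj
    have := TS_le ω (q.reverse.append p)
      (hq.reverse.append fun v hv => a1 v (List.mem_toFinset.2 hv))
    rw [wt_append, wt_reverse, q1] at this
    linarith

end gen

theorem hc_BuseL (s : Stair) (k : ℤ) : ∀ x ∈ HLe s k, ∀ y ∈ HLe s k, Conn (HLe s k) x y :=
  fun _ hx _ hy => conn_HLe s hx hy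
theorem hz_BuseL (s : Stair) (k y : ℤ) : pt s k y ∈ HLe s k := (X_pt s k y).le
theorem bL_le (h : RayL s A ω l) (y : ℤ) (i : ℕ) :
    bL s ω l y ≤ TS ω (HLe s 0) (l i) (pt s 0 y) - W ω l i := ciInf_le (bdd_BuseL h.ray h.side (hc_BuseL s 0) (hz_BuseL s 0 y)) i
theorem bL_tendsto (h : RayL s A ω l) (y : ℤ) :
    Tendsto (fun i => TS ω (HLe s 0) (l i) (pt s 0 y) - W ω l i) atTop (𝓝 (bL s ω l y)) := tend_BuseL h.ray h.side (hc_BuseL s 0) (hz_BuseL s 0 y)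
theorem bL_lip (h : RayL s A ω l) (y y' : ℤ) :
    |bL s ω l y' - bL s ω l y| ≤ TS ω (HLe s 0) (pt s 0 y) (pt s 0 y') := lip_BuseL h.ray h.side (hc_BuseL s 0) (hz_BuseL s 0 y) (hz_BuseL s 0 y')
theorem RayL.tail (h : RayL s A ω l) (i : ℕ) : RayL s A ω (fun k => l (k + i)) := ⟨h.ray.tail i, fun _ => h.side _, h.cone.imp fun _ hR _ => hR _⟩
theorem bL_tail (h : RayL s A ω l) (i : ℕ) (y : ℤ) :
    bL s ω (fun k => l (k + i)) y = bL s ω l y + W ω l i := tail_BuseL h.ray h.side (hc_BuseL s 0) (hz_BuseL s 0 y) i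
theorem ev_BuseL (a : ℤ) : ∀ᶠ N : ℕ in atTop, -(N : ℤ) ≤ a := by
  filter_upwards [eventually_ge_atTop a.natAbs] with N hN
  omega
/-- First hits of far columns exist. -/
theorem RayL.hits (h : RayL s A ω l) : ∃ i : ℕ → ℕ, Tendsto i atTop atTop ∧
    ∀ᶠ N : ℕ in atTop, FirstHit s l (-N) (i N) ∧ ∀ i', i' ≤ i N → -(N : ℤ) ≤ X s (l i') := by
  obtain ⟨R, hR⟩ := h.cone
  have : ∀ N : ℕ, ∃ i, -(N : ℤ) ≤ X s (l 0) →
      FirstHit s l (-N) i ∧ ∀ i', i' ≤ i → -(N : ℤ) ≤ X s (l i') := fun N => by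
    by_cases hN : -(N : ℤ) ≤ X s (l 0)
    · obtain ⟨i, hi⟩ := exists_hitL s h.ray.inj h.ray.adj h.side hR hN
      exact ⟨i, fun _ => hi⟩
    · exact ⟨0, fun h => absurd h hN⟩
  choose i hi using this
  have e := (ev_BuseL (X s (l 0))).mono fun N hN => hi N hN
  refine ⟨i, idx_BuseL (g := fun k => X s (l k)) (e.mono fun N hN => ?_), e⟩
  simp [hN.1.1]
theorem bL_strip (h : RayL s A ω l) {i : ℕ → ℕ}
    (hi : ∀ᶠ N : ℕ in atTop, FirstHit s l (-N) (i N)) (y : ℤ) :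
    Tendsto (fun N : ℕ => TS ω (Strip s (-N) 0) (l (i N)) (pt s 0 y) - W ω l (i N)) atTop
      (𝓝 (bL s ω l y)) := by
  refine strip_BuseL h.ray h.side (hc_BuseL s 0) (hz_BuseL s 0 y)
    (S' := fun N => Strip s (-N) 0) (fun N v hv => hv.2) (fun v hv => ?_) ?_
    (idx_BuseL (g := fun k => X s (l k)) (hi.mono fun N hN => by simp [hN.1])) ?_
  · exact (ev_BuseL (X s v)).mono fun N hN => ⟨hN, hv⟩
  · filter_upwards [eventually_gt_atTop 0] with N hN x hx y hy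
    exact conn_Strip s (by omega) hx hy
  · filter_upwards [hi, ev_BuseL (X s (l 0))] with N a1 a2 i' hi'
    exact ⟨a1.left h.ray.adj a2 i' hi', h.side _⟩
/-- The higher ray has the smaller increments. -/
theorem bL_Le (h : RayL s A ω l) (h' : RayL s A ω l') {i i' : ℕ → ℕ}
    (hi : ∀ᶠ N : ℕ in atTop, FirstHit s l (-N) (i N))
    (hi' : ∀ᶠ N : ℕ in atTop, FirstHit s l' (-N) (i' N))
    (hf : ∃ᶠ N in atTop, (l' (i' N)).2 ≤ (l (i N)).2) : Le (bL s ω l) (bL s ω l') := by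
  intro y y' hy
  refine le_of_tendsto_of_tendsto_of_frequently ((bL_strip h hi y').sub (bL_strip h hi y))
    ((bL_strip h' hi' y').sub (bL_strip h' hi' y)) ?_
  refine (hf.and_eventually (hi.and (hi'.and (eventually_gt_atTop 0)))).mono ?_
  rintro N ⟨a1, a2, a3, a4⟩
  have m := monge_strip s ω (a := -N) (b := 0) (by omega) a1 hy
  have e1 := eq_pt s (l (i N))
  have e2 := eq_pt s (l' (i' N))
  rw [a2.1] at e1
  rw [a3.1] at e2
  rw [← e1, ← e2] at m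
  linarith
theorem bL_chain (h : RayL s A ω l) (h' : RayL s A ω l') :
    Le (bL s ω l) (bL s ω l') ∨ Le (bL s ω l') (bL s ω l) := by
  obtain ⟨i, -, hi⟩ := h.hits
  obtain ⟨i', -, hi'⟩ := h'.hits
  have a := hi.mono fun _ h => h.1
  have a' := hi'.mono fun _ h => h.1
  rcases frequently_or_distrib.1 (Frequently.of_forall (f := atTop) fun N =>
    le_total (l' (i' N)).2 (l (i N)).2) with e | e
  exacts [Or.inl (bL_Le h h' a a' e), Or.inr (bL_Le h' h a' a e)]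

end P158
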