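import Vale.Agent.P158.BuseL
import Vale.Agent.P158.Cross

open scoped NNReal ENNReal
open MeasureTheory Filter Topology

namespace P158

/-! Right half-plane Busemann functions (same proofs as `BuseL`). -/

variable {s : Stair} {A : ℕ} {ω : Env} {r r' : ℕ → V}

theorem hc_BuseR (s : Stair) (k : ℤ) : ∀ x ∈ HGe s k, ∀ y ∈ HGe s k, Conn (HGe s k) x y :=
  fun _ hx _ hy => conn_HGe s hx hy
theorem hz_BuseR (s : Stair) (k y : ℤ) : pt s k y ∈ HGe s k := (X_pt s k y).ge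
theorem bR_le (h : RayR s A ω r) (y : ℤ) (i : ℕ) :
    bR s ω r y ≤ TS ω (HGe s 1) (r i) (pt s 1 y) - W ω r i := ciInf_le (bdd_BuseL h.ray h.side (hc_BuseR s 1) (hz_BuseR s 1 y)) i
theorem bR_tendsto (h : RayR s A ω r) (y : ℤ) :
    Tendsto (fun i => TS ω (HGe s 1) (r i) (pt s 1 y) - W ω r i) atTop (𝓝 (bR s ω r y)) := tend_BuseL h.ray h.side (hc_BuseR s 1) (hz_BuseR s 1 y)
theorem bR_lip (h : RayR s A ω r) (y y' : ℤ) :
    |bR s ω r y' - bR s ω r y| ≤ TS ω (HGe s 1) (pt s 1 y) (pt s 1 y') := lip_BuseL h.ray h.side (hc_BuseR s 1) (hz_BuseR s 1 y) (hz_BuseR s 1 y')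
theorem RayR.tail (h : RayR s A ω r) (i : ℕ) : RayR s A ω (fun k => r (k + i)) := ⟨h.ray.tail i, fun _ => h.side _, h.cone.imp fun _ hR _ => hR _⟩
theorem bR_tail (h : RayR s A ω r) (i : ℕ) (y : ℤ) :
    bR s ω (fun k => r (k + i)) y = bR s ω r y + W ω r i := tail_BuseL h.ray h.side (hc_BuseR s 1) (hz_BuseR s 1 y) i
theorem ev_BuseR (a : ℤ) : ∀ᶠ N : ℕ in atTop, a ≤ (N : ℤ) := by
  filter_upwards [eventually_ge_atTop a.natAbs] with N hN
  omega
theorem RayR.hits (h : RayR s A ω r) : ∃ i : ℕ → ℕ, Tendsto i atTop atTop ∧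
    ∀ᶠ N : ℕ in atTop, FirstHit s r N (i N) ∧ ∀ i', i' ≤ i N → X s (r i') ≤ N := by
  obtain ⟨R, hR⟩ := h.cone
  have : ∀ N : ℕ, ∃ i, X s (r 0) ≤ (N : ℤ) →
      FirstHit s r N i ∧ ∀ i', i' ≤ i → X s (r i') ≤ N := fun N => by
    by_cases hN : X s (r 0) ≤ (N : ℤ)
    · obtain ⟨i, hi⟩ := exists_hitR s h.ray.inj h.ray.adj h.side hR hN
      exact ⟨i, fun _ => hi⟩
    · exact ⟨0, fun h => absurd h hN⟩
  choose i hi using this
  have e := (ev_BuseR (X s (r 0))).mono fun N hN => hi N hN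
  refine ⟨i, idx_BuseL (g := fun k => X s (r k)) (e.mono fun N hN => ?_), e⟩
  simp [hN.1.1]
theorem bR_strip (h : RayR s A ω r) {i : ℕ → ℕ}
    (hi : ∀ᶠ N : ℕ in atTop, FirstHit s r N (i N)) (y : ℤ) :
    Tendsto (fun N : ℕ => TS ω (Strip s 1 N) (r (i N)) (pt s 1 y) - W ω r (i N)) atTop
      (𝓝 (bR s ω r y)) := by
  refine strip_BuseL h.ray h.side (hc_BuseR s 1) (hz_BuseR s 1 y)
    (S' := fun N => Strip s 1 N) (fun N v hv => hv.1) (fun v hv => ?_) ?_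
    (idx_BuseL (g := fun k => X s (r k)) (hi.mono fun N hN => by simp [hN.1])) ?_
  · exact (ev_BuseR (X s v)).mono fun N hN => ⟨hv, hN⟩
  · filter_upwards [eventually_gt_atTop 1] with N hN x hx y hy
    exact conn_Strip s (by omega) hx hy
  · filter_upwards [hi, ev_BuseR (X s (r 0))] with N a1 a2 i' hi'
    exact ⟨h.side _, a1.right h.ray.adj a2 i' hi'⟩
theorem bR_Le (h : RayR s A ω r) (h' : RayR s A ω r') {i i' : ℕ → ℕ}
    (hi : ∀ᶠ N : ℕ in atTop, FirstHit s r N (i N))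
    (hi' : ∀ᶠ N : ℕ in atTop, FirstHit s r' N (i' N))
    (hf : ∃ᶠ N in atTop, (r' (i' N)).2 ≤ (r (i N)).2) : Le (bR s ω r) (bR s ω r') := by
  intro y y' hy
  refine le_of_tendsto_of_tendsto_of_frequently ((bR_strip h hi y').sub (bR_strip h hi y))
    ((bR_strip h' hi' y').sub (bR_strip h' hi' y)) ?_
  refine (hf.and_eventually (hi.and (hi'.and (eventually_gt_atTop 1)))).mono ?_
  rintro N ⟨a1, a2, a3, a4⟩
  have m := monge_strip s ω (a := 1) (b := N) (by omega) hy a1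
  have e1 := eq_pt s (r (i N))
  have e2 := eq_pt s (r' (i' N))
  rw [a2.1] at e1
  rw [a3.1] at e2
  rw [← e1, ← e2, TS_comm ω _ (pt s 1 y), TS_comm ω _ (pt s 1 y), TS_comm ω _ (pt s 1 y'),
    TS_comm ω _ (pt s 1 y')] at m
  linarith
theorem bR_chain (h : RayR s A ω r) (h' : RayR s A ω r') :
    Le (bR s ω r) (bR s ω r') ∨ Le (bR s ω r') (bR s ω r) := by
  obtain ⟨i, -, hi⟩ := h.hits
  obtain ⟨i', -, hi'⟩ := h'.hits
  have a := hi.mono fun _ h => h.1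
  have a' := hi'.mono fun _ h => h.1
  rcases frequently_or_distrib.1 (Frequently.of_forall (f := atTop) fun N =>
    le_total (r' (i' N)).2 (r (i N)).2) with e | e
  exacts [Or.inl (bR_Le h h' a a' e), Or.inr (bR_Le h' h a' a e)]

end P158
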