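import Vale.Agent.P158.Obj

open scoped NNReal ENNReal
open MeasureTheory Filter Topology

namespace P158

/-! Projections of Borel sets are null measurable (capacitability), measurable selection. -/

theorem seq_Cap (P : ℕ → (ℕ → ℕ) → Prop) (h0 : P 0 0)
    (hs : ∀ k b, P k b → ∃ m, P (k + 1) (Function.update b k m))
    (hc : ∀ k b b', (∀ i, i < k → b i = b' i) → P k b → P k b') : ∃ b, ∀ k, P k b := by
  choose m hm using hs
  let B : ∀ k, {b // P k b} := fun k =>
    Nat.rec ⟨0, h0⟩ (fun k B => ⟨Function.update B.1 k (m k B.1 B.2), hm k B.1 B.2⟩) k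
  have hB : ∀ k, (B (k + 1)).1 = Function.update (B k).1 k (m k (B k).1 (B k).2) := fun _ => rfl
  refine ⟨fun i => (B (i + 1)).1 i, fun k => hc k (B k).1 _ ?_ (B k).2⟩
  induction k with
  | zero => intro i hi; omega
  | succ k ih =>
    intro i hi
    rcases Nat.lt_succ_iff_lt_or_eq.1 hi with h | rfl
    · rw [hB, Function.update_of_ne h.ne]
      exact ih i h
    · rfl

theorem closure_Cap {Ω : Type} [TopologicalSpace Ω] [PolishSpace Ω] {f : (ℕ → ℕ) → Ω}
    (hf : Continuous f) (b : ℕ → ℕ) :
    ⋂ k, closure (f '' {x | ∀ i, i < k → x i ≤ b i}) ⊆ f '' {x | ∀ i, x i ≤ b i} := by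
  letI := TopologicalSpace.upgradeIsCompletelyMetrizable Ω
  intro y hy
  have h1 : ∀ k : ℕ, ∃ x : ℕ → ℕ, (∀ i, i < k → x i ≤ b i) ∧ dist y (f x) < 1 / ((k : ℝ) + 1) := by
    intro k
    obtain ⟨_, ⟨x, hx, rfl⟩, h⟩ := Metric.mem_closure_iff.1 (Set.mem_iInter.1 hy k) _
      (Nat.one_div_pos_of_nat (n := k))
    exact ⟨x, hx, h⟩
  choose x hx hd using h1
  have hK : IsCompact (Set.pi Set.univ fun i => Set.Iic (b i)) :=
    isCompact_univ_pi fun i => (Set.finite_Iic _).isCompact
  obtain ⟨z, hz, φ, hφ, hlim⟩ := hK.tendsto_subseq (x := fun k i => min (x k i) (b i))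
    (fun k i _ => Set.mem_Iic.2 (min_le_right _ _))
  have h2 : Tendsto (fun n => x (φ n)) atTop (𝓝 z) := by
    rw [tendsto_pi_nhds] at hlim ⊢
    intro i
    refine (hlim i).congr' ?_
    filter_upwards [eventually_gt_atTop i] with n hn
    exact min_eq_left (hx _ i (hn.trans_le (hφ.id_le n)))
  have h3 : Tendsto (fun n => f (x n)) atTop (𝓝 y) := by
    rw [tendsto_iff_dist_tendsto_zero]
    refine squeeze_zero (fun _ => dist_nonneg) (fun n => ?_)
      tendsto_one_div_add_atTop_nhds_zero_nat
    rw [dist_comm]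
    exact (hd n).le
  exact ⟨z, fun i => hz i (Set.mem_univ i),
    tendsto_nhds_unique ((hf.tendsto z).comp h2) (h3.comp hφ.tendsto_atTop)⟩

theorem inner_Cap {Ω : Type} [TopologicalSpace Ω] [PolishSpace Ω] [MeasurableSpace Ω]
    [BorelSpace Ω] (μ : Measure Ω) [IsFiniteMeasure μ] {f : (ℕ → ℕ) → Ω} (hf : Continuous f)
    {c : ℝ≥0∞} (hc : c < μ (Set.range f)) :
    ∃ K, MeasurableSet K ∧ K ⊆ Set.range f ∧ c ≤ μ K := by
  obtain ⟨b, hb⟩ := seq_Cap (fun k b => c < μ (f '' {x | ∀ i, i < k → x i ≤ b i}))
    (by simpa using hc) (by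
      intro k b h
      have e : f '' {x | ∀ i, i < k → x i ≤ b i} =
          ⋃ m : ℕ, f '' {x | ∀ i, i < k + 1 → x i ≤ Function.update b k m i} := by
        rw [← Set.image_iUnion]
        congr 1
        ext x
        simp only [Set.mem_setOf_eq, Set.mem_iUnion]
        constructor
        · intro hx
          refine ⟨x k, fun i hi => ?_⟩
          rcases Nat.lt_succ_iff_lt_or_eq.1 hi with h | rfl
          · rw [Function.update_of_ne h.ne]; exact hx i h
          · simp
        · rintro ⟨m, hm⟩ i hi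
          have := hm i (by omega)
          rwa [Function.update_of_ne hi.ne] at this
      have hmono : Monotone fun m : ℕ =>
          f '' {x | ∀ i, i < k + 1 → x i ≤ Function.update b k m i} := by
        intro m m' hm
        refine Set.image_mono fun x hx i hi => (hx i hi).trans ?_
        by_cases h : i = k
        · subst h; simpa using hm
        · rw [Function.update_of_ne h, Function.update_of_ne h]
      rw [e, hmono.measure_iUnion] at h
      exact lt_iSup_iff.1 h)
    (by
      intro k b b' h h'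
      have : {x : ℕ → ℕ | ∀ i, i < k → x i ≤ b' i} = {x | ∀ i, i < k → x i ≤ b i} := by
        ext x
        exact forall_congr' fun i => forall_congr' fun hi => by rw [h i hi]
      simpa only [this] using h')
  refine ⟨⋂ k, closure (f '' {x | ∀ i, i < k → x i ≤ b i}),
    MeasurableSet.iInter fun k => isClosed_closure.measurableSet,
    (closure_Cap hf b).trans (Set.image_subset_range _ _), ?_⟩
  have hanti : Antitone fun k : ℕ => closure (f '' {x | ∀ i, i < k → x i ≤ b i}) :=
    fun k k' hk => closure_mono (Set.image_mono fun x hx i hi => hx i (hi.trans_le hk))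
  rw [hanti.measure_iInter (fun k => isClosed_closure.measurableSet.nullMeasurableSet)
    ⟨0, measure_ne_top _ _⟩]
  exact le_iInf fun k => (hb k).le.trans (measure_mono subset_closure)

theorem analytic_nullMeas {Ω : Type} [TopologicalSpace Ω] [PolishSpace Ω] [MeasurableSpace Ω]
    [BorelSpace Ω] (μ : Measure Ω) [IsFiniteMeasure μ] {A : Set Ω} (hA : AnalyticSet A) :
    NullMeasurableSet A μ := by
  rcases eq_or_ne (μ A) 0 with h0 | h0
  · exact NullMeasurableSet.of_null h0
  rw [AnalyticSet] at hA
  rcases hA with rfl | ⟨f, hf, rfl⟩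
  · exact nullMeasurableSet_empty
  obtain ⟨u, -, hu, hlim⟩ := exists_seq_strictMono_tendsto' (pos_iff_ne_zero.2 h0)
  choose K hK hKs hKc using fun n => inner_Cap μ hf (hu n).2
  have hF : MeasurableSet (⋃ n, K n) := MeasurableSet.iUnion hK
  have hFs : ⋃ n, K n ⊆ Set.range f := Set.iUnion_subset hKs
  have hFm : μ (Set.range f) ≤ μ (⋃ n, K n) :=
    le_of_tendsto' hlim fun n => (hKc n).trans (measure_mono (Set.subset_iUnion K n))
  refine hF.nullMeasurableSet.congr (ae_eq_set.2 ⟨?_, ?_⟩)
  · rw [Set.diff_eq_empty.2 hFs, measure_empty]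
  · refine measure_mono_null (Set.diff_subset_diff_left (subset_toMeasurable μ _)) ?_
    rw [measure_diff (hFs.trans (subset_toMeasurable μ _)) hF.nullMeasurableSet
      (measure_ne_top _ _), measure_toMeasurable]
    exact tsub_eq_zero_of_le hFm

theorem countable_E_Cap : Countable E := by
  have : Countable (Sym2 V) := Function.Surjective.countable Sym2.mk_surjective
  infer_instance

theorem nullMeas_proj {Y : Type} [MeasurableSpace Y] [StandardBorelSpace Y] (μ : Measure Env)
    [IsFiniteMeasure μ] {S : Set (Env × Y)} (hS : MeasurableSet S) :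
    NullMeasurableSet {ω | ∃ y, (ω, y) ∈ S} μ := by
  haveI := countable_E_Cap
  have e : {ω | ∃ y, (ω, y) ∈ S} = Prod.fst '' S := by
    ext ω; simp
  rw [e]
  exact analytic_nullMeas μ (hS.analyticSet_image measurable_fst)

end P158
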