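import Vale.Agent.P158.Obj

open scoped NNReal ENNReal
open MeasureTheory Filter Topology

namespace P158

/-! Counting aligned triples against the total Monge mass. -/

theorem chain_Cell (F : ℤ → ℤ → ℝ)
    (monge : ∀ i i' j j', i ≤ i' → j ≤ j' → F i j + F i' j' ≤ F i j' + F i' j) {η : ℝ}
    (hη : 0 < η) (S : Finset (ℤ × ℤ × ℤ)) :
    (∀ t ∈ S, ∀ t' ∈ S, t ≠ t' →
      η ≤ F t.2.1 t'.2.2 + F t'.2.1 t.2.2 - F t.2.1 t.2.2 - F t'.2.1 t'.2.2) →
    ∀ p0 p1 q0 q1 : ℤ, p0 ≤ p1 → q0 ≤ q1 →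
      (∀ t ∈ S, p0 ≤ t.2.1 ∧ t.2.1 ≤ p1 ∧ q0 ≤ t.2.2 ∧ t.2.2 ≤ q1) →
      η * S.card ≤ η + (F p0 q1 + F p1 q0 - F p0 q0 - F p1 q1) := by
  classical
  induction S using Finset.induction_on_max_value (fun t : ℤ × ℤ × ℤ => t.2.2) with
  | empty =>
    intro _ p0 p1 q0 q1 hp hq _
    have := monge p0 p1 q0 q1 hp hq
    simp only [Finset.card_empty, Nat.cast_zero, mul_zero]
    linarith
  | insert x S hx hmax ih =>
    intro hgap p0 p1 q0 q1 hp hq hin
    rw [Finset.card_insert_of_notMem hx]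
    push_cast
    rcases S.eq_empty_or_nonempty with rfl | hne
    · have := monge p0 p1 q0 q1 hp hq
      simp only [Finset.card_empty, Nat.cast_zero]
      linarith
    · obtain ⟨y, hy, hym⟩ := S.exists_max_image (fun t : ℤ × ℤ × ℤ => t.2.2) hne
      have mono : ∀ t ∈ insert x S, ∀ t' ∈ insert x S, t.2.2 ≤ t'.2.2 → t ≠ t' →
          t.2.1 ≤ t'.2.1 := by
        intro t ht t' ht' h1 h2
        by_contra hc
        have h3 := hgap t ht t' ht' h2
        have h4 := monge t'.2.1 t.2.1 t.2.2 t'.2.2 (by omega) h1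
        linarith
      have hyI : y ∈ insert x S := Finset.mem_insert_of_mem hy
      have hxI : x ∈ insert x S := Finset.mem_insert_self _ _
      have hxy : y ≠ x := fun h => hx (h ▸ hy)
      obtain ⟨y1, y2, y3, y4⟩ := hin y hyI
      obtain ⟨x1, x2, x3, x4⟩ := hin x hxI
      have hq' : y.2.2 ≤ x.2.2 := hmax y hy
      have hp' : y.2.1 ≤ x.2.1 := mono y hyI x hxI hq' hxy
      have h1 := ih (fun t ht t' ht' h => hgap t (Finset.mem_insert_of_mem ht) t'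
        (Finset.mem_insert_of_mem ht') h) p0 y.2.1 q0 y.2.2 y1 y3 (fun t ht => by
          have ht' := Finset.mem_insert_of_mem (b := x) ht
          obtain ⟨t1, _, t3, _⟩ := hin t ht'
          refine ⟨t1, ?_, t3, hym t ht⟩
          by_cases hty : t = y
          · rw [hty]
          · exact mono t ht' y hyI (hym t ht) hty)
      have h2 := hgap y hyI x hxI hxy
      have m1 := monge p0 y.2.1 y.2.2 q1 y1 y4
      have m2 := monge x.2.1 p1 q0 q1 x2 hq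
      have m3 := monge y.2.1 x.2.1 q0 y.2.2 hp' y3
      have m4 := monge y.2.1 x.2.1 x.2.2 q1 hp' x4
      linarith

theorem tele_Cell (g : ℤ → ℝ) {p0 p1 : ℤ} (h : p0 ≤ p1) :
    ∑ i ∈ Finset.Ico p0 p1, (g (i + 1) - g i) = g p1 - g p0 := by
  induction p1, h using Int.leInduction with
  | base => simp
  | succ n hn ih =>
    have e : Finset.Ico p0 (n + 1) = insert n (Finset.Ico p0 n) := by
      ext i; simp only [Finset.mem_Ico, Finset.mem_insert]; omega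
    rw [e, Finset.sum_insert (by simp), ih]; ring

theorem group_Cell (F : ℤ → ℤ → ℝ)
    (monge : ∀ i i' j j', i ≤ i' → j ≤ j' → F i j + F i' j' ≤ F i j' + F i' j) {η : ℝ}
    (hη : 0 < η) (S : Finset (ℤ × ℤ × ℤ)) (N b a q0 q1 : ℤ) (hq : q0 ≤ q1)
    (hgap : ∀ t ∈ S, ∀ t' ∈ S, t ≠ t' →
      η ≤ F t.2.1 t'.2.2 + F t'.2.1 t.2.2 - F t.2.1 t.2.2 - F t'.2.1 t'.2.2)
    (hin : ∀ t ∈ S, |t.2.1| ≤ N ∧ q0 ≤ t.2.2 ∧ t.2.2 ≤ q1 ∧ |4 * t.2.1 - a - 3 * t.2.2| ≤ b) :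
    η * S.card ≤ η + ∑ i ∈ Finset.Ico (-N) N,
      if 4 * i + 4 - 3 * q1 - b ≤ a ∧ a ≤ 4 * i - 3 * q0 + b then
        ((F (i + 1) q0 - F (i + 1) q1) - (F i q0 - F i q1)) else 0 := by
  have hnn : ∀ i, 0 ≤ (F (i + 1) q0 - F (i + 1) q1) - (F i q0 - F i q1) := fun i => by
    have := monge i (i + 1) q0 q1 (by omega) hq
    linarith
  rcases S.eq_empty_or_nonempty with rfl | ⟨x, hx⟩
  · simp only [Finset.card_empty, Nat.cast_zero, mul_zero]
    refine add_nonneg hη.le (Finset.sum_nonneg fun i _ => ?_)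
    split_ifs
    · exact hnn i
    · exact le_rfl
  · have hb : ∀ t ∈ S, max (-N) ((a + 3 * q0 - b + 3) / 4) ≤ t.2.1 ∧
        t.2.1 ≤ min N ((a + 3 * q1 + b) / 4) ∧ q0 ≤ t.2.2 ∧ t.2.2 ≤ q1 := by
      intro t ht
      obtain ⟨h1, h2, h3, h4⟩ := hin t ht
      rw [abs_le] at h1 h4
      refine ⟨?_, ?_, h2, h3⟩ <;> omega
    have hp : max (-N) ((a + 3 * q0 - b + 3) / 4) ≤ min N ((a + 3 * q1 + b) / 4) :=
      (hb x hx).1.trans (hb x hx).2.1
    have h1 := chain_Cell F monge hη S hgap _ _ q0 q1 hp hq hb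
    have h2 := tele_Cell (fun i => F i q0 - F i q1) hp
    rw [← Finset.sum_filter]
    have h3 : ∑ i ∈ Finset.Ico (max (-N) ((a + 3 * q0 - b + 3) / 4))
        (min N ((a + 3 * q1 + b) / 4)), ((F (i + 1) q0 - F (i + 1) q1) - (F i q0 - F i q1)) ≤
        ∑ i ∈ (Finset.Ico (-N) N).filter
          (fun i => 4 * i + 4 - 3 * q1 - b ≤ a ∧ a ≤ 4 * i - 3 * q0 + b),
          ((F (i + 1) q0 - F (i + 1) q1) - (F i q0 - F i q1)) := by
      refine Finset.sum_le_sum_of_subset_of_nonneg ?_ fun i _ _ => hnn i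
      intro i hi
      simp only [Finset.mem_Ico, Finset.mem_filter] at hi ⊢
      omega
    linarith

theorem window_Cell (F : ℤ → ℤ → ℝ)
    (monge : ∀ i i' j j', i ≤ i' → j ≤ j' → F i j + F i' j' ≤ F i j' + F i' j)
    (N b : ℕ) (q0 q1 : ℤ) (hq : q0 ≤ q1) (hqb : q1 ≤ q0 + b) :
    ∑ a ∈ Finset.Icc (-N : ℤ) N, (∑ i ∈ Finset.Ico (-N : ℤ) N,
      if 4 * i + 4 - 3 * q1 - b ≤ a ∧ a ≤ 4 * i - 3 * q0 + b then
        ((F (i + 1) q0 - F (i + 1) q1) - (F i q0 - F i q1)) else 0) ≤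
      6 * b * ((F N q0 - F (-N) q0) - (F N q1 - F (-N) q1)) := by
  have hnn : ∀ i, 0 ≤ (F (i + 1) q0 - F (i + 1) q1) - (F i q0 - F i q1) := fun i => by
    have := monge i (i + 1) q0 q1 (by omega) hq
    linarith
  have h2 := tele_Cell (fun i => F i q0 - F i q1) (p0 := -N) (p1 := N) (by omega)
  rw [Finset.sum_comm]
  have e : (F N q0 - F (-N) q0) - (F N q1 - F (-N) q1) =
      ∑ i ∈ Finset.Ico (-N : ℤ) N, ((F (i + 1) q0 - F (i + 1) q1) - (F i q0 - F i q1)) := by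
    rw [h2]; ring
  rw [e, Finset.mul_sum]
  refine Finset.sum_le_sum fun i _ => ?_
  rw [← Finset.sum_filter, Finset.sum_const, nsmul_eq_mul]
  refine mul_le_mul_of_nonneg_right ?_ (hnn i)
  have h3 : ((Finset.Icc (-N : ℤ) N).filter
      (fun a => 4 * i + 4 - 3 * q1 - b ≤ a ∧ a ≤ 4 * i - 3 * q0 + b)).card ≤ 6 * b := by
    calc _ ≤ (Finset.Icc (4 * i + 4 - 3 * q1 - b) (4 * i - 3 * q0 + b)).card := by
          refine Finset.card_le_card fun a ha => ?_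
          simp only [Finset.mem_Icc, Finset.mem_filter] at ha ⊢
          exact ha.2
      _ ≤ 6 * b := by rw [Int.card_Icc]; omega
  exact_mod_cast h3

theorem cell (F : ℤ → ℤ → ℝ)
    (monge : ∀ i i' j j', i ≤ i' → j ≤ j' → F i j + F i' j' ≤ F i j' + F i' j)
    (S : Finset (ℤ × ℤ × ℤ)) (N b : ℕ) (hb : 1 ≤ b) {η : ℝ} (hη : 0 < η)
    (hN : ∀ t ∈ S, |t.1| ≤ N ∧ |t.2.1| ≤ N ∧ |t.2.2| ≤ N)
    (hal : ∀ t ∈ S, |4 * t.2.1 - t.1 - 3 * t.2.2| ≤ b)
    (hgap : ∀ t ∈ S, ∀ t' ∈ S, t ≠ t' → t.1 = t'.1 →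
      η ≤ F t.2.1 t'.2.2 + F t'.2.1 t.2.2 - F t.2.1 t.2.2 - F t'.2.1 t'.2.2) :
    η * S.card ≤ η * (2 * N + 1) * (2 * N / b + 2) +
      6 * b * (F (-N) N + F N (-N) - F (-N) (-N) - F N N) := by
  classical
  have hb0 : (0 : ℤ) < b := by exact_mod_cast hb
  set lo : ℕ → ℤ := fun w => min (N : ℤ) (-N + w * b) with hlo
  set Wn : ℕ := 2 * N / b + 1 with hWn
  set f : ℤ × ℤ × ℤ → ℕ × ℤ := fun t => ((t.2.2 + N).toNat / b, t.1) with hf
  have hmap : Set.MapsTo f (S : Set (ℤ × ℤ × ℤ))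
      ((Finset.range Wn ×ˢ Finset.Icc (-N : ℤ) N : Finset (ℕ × ℤ)) : Set (ℕ × ℤ)) := by
    intro t ht
    obtain ⟨h1, -, h3⟩ := hN t ht
    rw [abs_le] at h1 h3
    simp only [Finset.coe_product, Set.mem_prod, Finset.mem_coe, Finset.mem_range,
      Finset.mem_Icc, hf]
    refine ⟨Nat.lt_succ_of_le (Nat.div_le_div_right (by omega)), h1⟩
  have hlo1 : ∀ w, lo w ≤ lo (w + 1) ∧ lo (w + 1) ≤ lo w + b := by
    intro w
    simp only [hlo]
    push_cast
    rw [add_mul, one_mul]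
    generalize (w : ℤ) * b = c
    omega
  have hgrp : ∀ x ∈ Finset.range Wn ×ˢ Finset.Icc (-N : ℤ) N,
      η * ((S.filter (fun t => f t = x)).card : ℝ) ≤ η + ∑ i ∈ Finset.Ico (-N : ℤ) N,
      if 4 * i + 4 - 3 * lo (x.1 + 1) - b ≤ x.2 ∧ x.2 ≤ 4 * i - 3 * lo x.1 + b then
        ((F (i + 1) (lo x.1) - F (i + 1) (lo (x.1 + 1))) -
          (F i (lo x.1) - F i (lo (x.1 + 1)))) else 0 := by
    intro x _
    refine group_Cell F monge hη _ N b x.2 _ _ (hlo1 x.1).1 ?_ ?_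
    · intro t ht t' ht' hne
      rw [Finset.mem_filter] at ht ht'
      refine hgap t ht.1 t' ht'.1 hne ?_
      have e1 : t.1 = x.2 := congrArg Prod.snd ht.2
      have e2 : t'.1 = x.2 := congrArg Prod.snd ht'.2
      rw [e1, e2]
    · intro t ht
      rw [Finset.mem_filter] at ht
      obtain ⟨-, h2, h3⟩ := hN t ht.1
      have h4 := hal t ht.1
      have e1 : t.1 = x.2 := congrArg Prod.snd ht.2
      have e2 : (t.2.2 + N).toNat / b = x.1 := congrArg Prod.fst ht.2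
      rw [e1] at h4
      rw [abs_le] at h3
      have h5 := Nat.div_mul_le_self (t.2.2 + N).toNat b
      have h6 := Nat.lt_div_mul_add (a := (t.2.2 + N).toNat) (b := b) (by omega)
      rw [e2] at h5 h6
      have h7 : ((x.1 * b : ℕ) : ℤ) = (x.1 : ℤ) * b := by push_cast; ring
      refine ⟨h2, ?_, ?_, h4⟩
      · simp only [hlo]; rw [← h7]; omega
      · simp only [hlo]; push_cast; rw [add_mul, one_mul, ← h7]; omega
  have hcard := Finset.card_eq_sum_card_fiberwise hmap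
  have h1 : η * (S.card : ℝ) ≤ ∑ x ∈ Finset.range Wn ×ˢ Finset.Icc (-N : ℤ) N, (η +
      ∑ i ∈ Finset.Ico (-N : ℤ) N,
      if 4 * i + 4 - 3 * lo (x.1 + 1) - b ≤ x.2 ∧ x.2 ≤ 4 * i - 3 * lo x.1 + b then
        ((F (i + 1) (lo x.1) - F (i + 1) (lo (x.1 + 1))) -
          (F i (lo x.1) - F i (lo (x.1 + 1)))) else 0) := by
    rw [hcard]; push_cast; rw [Finset.mul_sum]
    exact Finset.sum_le_sum hgrp
  rw [Finset.sum_add_distrib, Finset.sum_const, Finset.card_product, Finset.card_range,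
    Int.card_Icc, nsmul_eq_mul, Finset.sum_product] at h1
  have h2 : ∑ w ∈ Finset.range Wn, ∑ a ∈ Finset.Icc (-N : ℤ) N, (∑ i ∈ Finset.Ico (-N : ℤ) N,
      if 4 * i + 4 - 3 * lo (w + 1) - b ≤ a ∧ a ≤ 4 * i - 3 * lo w + b then
        ((F (i + 1) (lo w) - F (i + 1) (lo (w + 1))) -
          (F i (lo w) - F i (lo (w + 1)))) else 0) ≤
      ∑ w ∈ Finset.range Wn, 6 * (b : ℝ) * ((F N (lo w) - F (-N) (lo w)) -
        (F N (lo (w + 1)) - F (-N) (lo (w + 1)))) :=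
    Finset.sum_le_sum fun w _ => window_Cell F monge N b _ _ (hlo1 w).1 (hlo1 w).2
  rw [← Finset.mul_sum, Finset.sum_range_sub' (fun w => F N (lo w) - F (-N) (lo w))] at h2
  have e0 : lo 0 = -N := by simp only [hlo]; simp
  have e1 : lo Wn = N := by
    simp only [hlo]
    have h6 := Nat.lt_div_mul_add (a := 2 * N) (b := b) (by omega)
    have h7 : ((Wn * b : ℕ) : ℤ) = (Wn : ℤ) * b := by push_cast; ring
    have h8 : Wn * b = 2 * N / b * b + b := by rw [hWn]; ring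
    rw [← h7]; omega
  rw [e0, e1] at h2
  have e2 : ((N : ℤ) + 1 - -(N : ℤ)).toNat = 2 * N + 1 := by omega
  rw [e2] at h1
  have h3 : (Wn : ℝ) ≤ 2 * N / b + 2 := by
    have := Nat.cast_div_le (α := ℝ) (m := 2 * N) (n := b)
    rw [hWn]; push_cast at this ⊢; linarith
  push_cast at h1
  have h4 : (Wn : ℝ) * (2 * N + 1) * η ≤ η * (2 * N + 1) * (2 * N / b + 2) := by
    have : 0 ≤ η * (2 * N + 1) := by positivity
    nlinarith
  linarith

end P158
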