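import Vale.Agent.P158.TrA

open scoped NNReal ENNReal
open MeasureTheory Filter Topology

namespace P158

/-! Bad clusters are small. -/

variable {G : Measure ℝ≥0} {M : ℕ}

theorem nb_ClT (v : V) : ∃ N : Finset V, N.card ≤ 4 ∧ ∀ w, Zd.Adj v w → w ∈ N := by
  refine ⟨{(v.1 + 1, v.2), (v.1 - 1, v.2), (v.1, v.2 + 1), (v.1, v.2 - 1)},
    Finset.card_le_four, fun ⟨a, b⟩ h => ?_⟩
  have h' : |v.1 - a| + |v.2 - b| = 1 := h
  simp only [Finset.mem_insert, Finset.mem_singleton, Prod.mk.injEq]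
  rcases abs_cases (v.1 - a) with h4 | h4 <;> rcases abs_cases (v.2 - b) with h5 | h5 <;> omega

theorem inc_ClT (M : ℕ) (v : V) : ∃ I : Finset E, I.card ≤ 4 ∧
    ∀ ω, Bad M ω v → ∃ e ∈ I, v ∈ e.1 ∧ (M : ℝ) < ω e := by
  classical
  obtain ⟨N, h1, h2⟩ := nb_ClT v
  refine ⟨N.biUnion fun w => if h : Zd.Adj v w then {⟨s(v, w), h⟩} else ∅, ?_, ?_⟩
  · refine (Finset.card_biUnion_le_card_mul _ _ 1 fun w _ => ?_).trans (by omega)
    split_ifs <;> simp
  · rintro ω ⟨w, h, hw⟩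
    refine ⟨⟨s(v, w), h⟩, Finset.mem_biUnion.2 ⟨w, h2 w h, by simp [h]⟩, by simp, ?_⟩
    rwa [← tau_edge]

theorem fam_ClT (M n : ℕ) : ∀ v : V, ∃ F : Finset (Finset E), F.card ≤ 4 * 16 ^ n ∧
    ∀ ω w (p : Zd.Walk v w), p.IsPath → n ≤ p.length → In {u | Bad M ω u} p →
      ∃ T ∈ F, (∀ e ∈ T, (M : ℝ) < ω e) ∧ ∃ S : Finset V, S.card = n + 1 ∧
        ∀ u ∈ S, u ∈ p.support ∧ ∃ e ∈ T, u ∈ e.1 := by
  classical
  choose I hI hI' using inc_ClT M
  induction n with
  | zero =>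
    refine fun v => ⟨(I v).image singleton, Finset.card_image_le.trans (hI v),
      fun ω w p _ _ h => ?_⟩
    obtain ⟨e, h1, h2, h3⟩ := hI' v ω (h v p.start_mem_support)
    exact ⟨{e}, Finset.mem_image_of_mem _ h1, by simpa using h3, {v}, by simp, by simpa using h2⟩
  | succ n ih =>
    intro v
    choose F h1 h2 using ih
    obtain ⟨N, h3, h4⟩ := nb_ClT v
    refine ⟨(I v ×ˢ N.biUnion F).image fun x => insert x.1 x.2, Finset.card_image_le.trans ?_,
      fun ω w p hp hn h => ?_⟩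
    · rw [Finset.card_product]
      have := (Finset.card_biUnion_le_card_mul N F _ fun w _ => h1 w).trans
        (Nat.mul_le_mul_right _ h3)
      calc _ ≤ 4 * (4 * (4 * 16 ^ n)) := Nat.mul_le_mul (hI v) this
        _ = _ := by ring
    · obtain ⟨e, h5, h6, h7⟩ := hI' v ω (h v p.start_mem_support)
      cases p with
      | nil => simp at hn
      | @cons _ u _ a q =>
        rw [SimpleGraph.Walk.cons_isPath_iff] at hp
        obtain ⟨T, k1, k2, S, k3, k4⟩ := h2 u ω w q hp.1 (by simpa using hn)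
          fun x hx => h x (by simp [hx])
        refine ⟨insert e T, Finset.mem_image.2 ⟨(e, T), Finset.mem_product.2
          ⟨h5, Finset.mem_biUnion.2 ⟨u, h4 u a, k1⟩⟩, rfl⟩,
          Finset.forall_mem_insert .. |>.2 ⟨h7, k2⟩, insert v S, ?_, fun x hx => ?_⟩
        · rw [Finset.card_insert_of_notMem fun hv => hp.2 (k4 v hv).1, k3]
        · rcases Finset.mem_insert.1 hx with rfl | hx
          · exact ⟨by simp, e, Finset.mem_insert_self _ _, h6⟩
          · obtain ⟨k5, e', k6, k7⟩ := k4 x hx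
            exact ⟨by simp [k5], e', Finset.mem_insert_of_mem k6, k7⟩

theorem len_ClT {v w : V} (p : Zd.Walk v w) : nrm (w - v) ≤ p.length := by
  induction p with
  | nil => simp [nrm]
  | @cons a b c h q ih =>
    have h' : |a.1 - b.1| + |a.2 - b.2| = 1 := h
    simp only [nrm, Prod.fst_sub, Prod.snd_sub, SimpleGraph.Walk.length_cons, Nat.cast_add,
      Nat.cast_one] at ih ⊢
    have h1 := abs_sub_le c.1 b.1 a.1
    have h2 := abs_sub_le c.2 b.2 a.2
    rw [abs_sub_comm b.1] at h1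
    rw [abs_sub_comm b.2] at h2
    omega

theorem clT (hG : Law0 G M) (v : V) (r : ℕ) :
    PP G {ω | ∃ w ∈ Cl M ω v, (r : ℤ) ≤ nrm (w - v)} ≤ (1 / 2) ^ r := by
  classical
  have := hG.prob
  obtain ⟨F, h1, h2⟩ := fam_ClT M r v
  have hm : MeasurableSet {t : ℝ≥0 | (M : ℝ) < t} :=
    measurableSet_lt measurable_const measurable_coe_nnreal_real
  calc _ ≤ PP G (⋃ T ∈ F.filter (fun T => r + 1 ≤ 2 * T.card),
        Set.pi (T : Set E) fun _ => {t : ℝ≥0 | (M : ℝ) < t}) := by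
        refine measure_mono ?_
        rintro ω ⟨w, ⟨p, hp⟩, hw⟩
        obtain ⟨T, k1, k2, S, k3, k4⟩ := h2 ω w p.bypass p.bypass_isPath
          (by have := len_ClT p.bypass; omega) hp.bypass
        refine Set.mem_biUnion (Finset.mem_coe.2 (Finset.mem_filter.2 ⟨k1, ?_⟩)) k2
        rw [← k3, mul_comm]
        refine le_trans (Finset.card_le_card (t := T.biUnion fun e => e.1.toFinset) fun u hu => ?_)
          (Finset.card_biUnion_le_card_mul _ _ _ fun e _ => ?_)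
        · obtain ⟨e, k5, k6⟩ := (k4 u hu).2
          exact Finset.mem_biUnion.2 ⟨e, k5, Sym2.mem_toFinset.2 k6⟩
        · rw [Sym2.card_toFinset]; split_ifs <;> omega
    _ ≤ ∑ _T ∈ F.filter (fun T => r + 1 ≤ 2 * T.card), (1 / 32 : ℝ≥0∞) ^ (r + 1) := by
        refine (measure_biUnion_finset_le _ _).trans (Finset.sum_le_sum fun T hT => ?_)
        rw [Measure.infinitePi_pi _ fun _ _ => hm, Finset.prod_const]
        calc _ ≤ (1 / 1024 : ℝ≥0∞) ^ T.card := by gcongr; exact hG.light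
          _ = (1 / 32) ^ (2 * T.card) := by
            rw [pow_mul, one_div, one_div, ← ENNReal.inv_pow (a := 32)]; norm_num
          _ ≤ _ := pow_le_pow_of_le_one zero_le (by simp) (Finset.mem_filter.1 hT).2
    _ ≤ (32 * 16 ^ r : ℝ≥0∞) * (1 / 32) ^ (r + 1) := by
        rw [Finset.sum_const, nsmul_eq_mul]
        gcongr
        have : (F.filter (fun T => r + 1 ≤ 2 * T.card)).card ≤ 32 * 16 ^ r :=
          (Finset.card_filter_le _ _).trans (by omega)
        exact_mod_cast this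
    _ = _ := by
        rw [← ENNReal.toReal_eq_toReal_iff' (by finiteness) (by finiteness)]
        simp only [ENNReal.toReal_mul, ENNReal.toReal_pow, ENNReal.toReal_div,
          ENNReal.toReal_one, ENNReal.toReal_ofNat]
        rw [pow_succ, show (1 / 2 : ℝ) = 16 * (1 / 32) by norm_num, mul_pow]
        ring

theorem sum_ClT : ∃ c : ℝ≥0∞, c ≠ ⊤ ∧ ∀ {G : Measure ℝ≥0} {M : ℕ}, Law0 G M → ∀ v,
    ∑' w, PP G {ω | w ∈ Cl M ω v} ≤ c := by
  set a : ℤ → ℝ≥0∞ := fun k => (1 / 2) ^ k.natAbs with ha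
  have h1 : ∑' k, a k ≠ ⊤ := by
    have g : ∑' n : ℕ, (1 / 2 : ℝ≥0∞) ^ n ≠ ⊤ := by
      rw [ENNReal.tsum_geometric]; simp
    rw [tsum_of_nat_of_neg_add_one ENNReal.summable ENNReal.summable]
    refine ENNReal.add_ne_top.2 ⟨by simpa [ha] using g, ne_top_of_le_ne_top g ?_⟩
    exact ENNReal.tsum_le_tsum fun n => pow_le_pow_of_le_one zero_le (by simp) (by omega)
  refine ⟨(∑' k, a k) * ∑' k, a k, ENNReal.mul_ne_top h1 h1, fun {G M} hG v => ?_⟩
  rw [← (Equiv.addRight v).tsum_eq, ← ENNReal.tsum_mul_right]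
  simp only [← ENNReal.tsum_mul_left]
  rw [← ENNReal.tsum_prod]
  refine ENNReal.tsum_le_tsum fun w => ?_
  rw [ha, ← pow_add]
  refine le_trans (measure_mono fun ω hω => ?_) (clT hG v _)
  exact ⟨_, hω, by simp [nrm]⟩

theorem ae_finite_Cl (hG : Law0 G M) : ∀ᵐ ω ∂PP G, ∀ v, (Cl M ω v).Finite := by
  obtain ⟨c, hc, h⟩ := sum_ClT
  exact ae_all_iff.2 fun v => ae_finite_setOfPred_mem (ne_top_of_le_ne_top hc (h hG v))

theorem ncard_ClT (M : ℕ) (ω : Env) (v : V) : ((Cl M ω v).ncard : ℝ≥0∞) ≤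
    ∑' w, {ω | w ∈ Cl M ω v}.indicator 1 ω := by
  have h1 := tsum_subtype (Cl M ω v) (fun _ => (1 : ℝ≥0∞))
  rw [ENNReal.tsum_set_one] at h1
  refine le_trans ?_ (h1.le.trans (le_of_eq (tsum_congr fun w => rfl)))
  rcases (Cl M ω v).finite_or_infinite with h | h
  · rw [← h.cast_ncard_eq]; simp
  · simp [h.ncard]

theorem intH (hG : Law0 G M) : ∃ m : ℝ, ∀ e : Sym2 V,
    Integrable (fun ω => tau (trunc M ω) e) (PP G) ∧
      ∫ ω, tau (trunc M ω) e ∂PP G ≤ m := by
  have := hG.prob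
  obtain ⟨c, hc, h⟩ := sum_ClT
  have h0 : ∀ v, ∫⁻ ω, ∑' w, {ω | w ∈ Cl M ω v}.indicator 1 ω ∂PP G ≤ c := fun v => by
    rw [lintegral_tsum fun w =>
      (measurable_one.indicator (measurableSet_mem_Cl M v w)).aemeasurable]
    simp only [lintegral_indicator_one (measurableSet_mem_Cl M v _)]
    exact h hG v
  have hm : ∀ v, Measurable fun ω => ∑' w, {ω | w ∈ Cl M ω v}.indicator (1 : Env → ℝ≥0∞) ω :=
    fun v => Measurable.ennreal_tsum fun w => measurable_one.indicator (measurableSet_mem_Cl M v w)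
  have hb : (M + 1 : ℝ≥0∞) + 16 * M * (c + c) ≠ ⊤ := by finiteness
  refine ⟨((M + 1 : ℝ≥0∞) + 16 * M * (c + c)).toReal, fun e => ?_⟩
  by_cases he : e ∈ Zd.edgeSet
  swap
  · simp [tau, he]
  induction e using Sym2.ind with
  | _ a b =>
  have e1 : ∀ ω, tau (trunc M ω) s(a, b) = trunc M ω ⟨_, he⟩ := fun ω => tau_edge _ ⟨_, he⟩
  simp only [e1]
  have m1 : Measurable fun ω => (trunc M ω ⟨_, he⟩ : ℝ) :=
    measurable_coe_nnreal_real.comp ((measurable_pi_apply _).comp (measurable_trunc M))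
  have k : ∫⁻ ω, ENNReal.ofReal (trunc M ω ⟨_, he⟩) ∂PP G ≤ (M + 1 : ℝ≥0∞) + 16 * M * (c + c) := by
    calc _ ≤ ∫⁻ ω, (M + 1 : ℝ≥0∞) + 16 * M * (∑' w, {ω | w ∈ Cl M ω a}.indicator 1 ω +
          ∑' w, {ω | w ∈ Cl M ω b}.indicator 1 ω) ∂PP G := by
          refine lintegral_mono fun ω => ?_
          have k1 := trunc_le_cap M ω ⟨_, he⟩
          have k2 : clE M ω ⟨_, he⟩ = Cl M ω a ∪ Cl M ω b := by
            ext w; simp [clE]
          have k3 : (trunc M ω ⟨_, he⟩ : ℝ) ≤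
              ((M + 1 + 16 * M * ((Cl M ω a).ncard + (Cl M ω b).ncard) : ℕ) : ℝ) := by
            have k4 : (((Cl M ω a ∪ Cl M ω b).ncard : ℕ) : ℝ) ≤
                (Cl M ω a).ncard + (Cl M ω b).ncard := by exact_mod_cast Set.ncard_union_le _ _
            rw [cap, k2] at k1
            push_cast
            nlinarith [Nat.cast_nonneg (α := ℝ) M]
          refine (ENNReal.ofReal_le_ofReal k3).trans ?_
          rw [ENNReal.ofReal_natCast]
          push_cast
          gcongr <;> exact ncard_ClT _ _ _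
      _ ≤ _ := by
          rw [lintegral_add_left measurable_const, lintegral_const, measure_univ, mul_one,
            lintegral_const_mul' _ _ (by finiteness), lintegral_add_left (hm a)]
          gcongr <;> exact h0 _
  have n1 : 0 ≤ᵐ[PP G] fun ω => (trunc M ω ⟨_, he⟩ : ℝ) := ae_of_all _ fun ω => NNReal.coe_nonneg _
  refine ⟨⟨m1.aestronglyMeasurable, (hasFiniteIntegral_iff_ofReal n1).2 (k.trans_lt hb.lt_top)⟩, ?_⟩
  rw [integral_eq_lintegral_of_nonneg_ae n1 m1.aestronglyMeasurable]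
  exact ENNReal.toReal_mono hb k

end P158
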