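import Vale.Agent.P158.Basic

open scoped NNReal ENNReal
open MeasureTheory Filter Topology

namespace P158

/-! Lattice symmetries. -/

/-- `act σ` as a measurable equivalence. -/
noncomputable def actE_Sym (σ : Zd ≃g Zd) : Env ≃ᵐ Env :=
  (MeasurableEquiv.piCongrLeft (fun _ : E => ℝ≥0) σ.mapEdgeSet).symm
theorem coe_actE_Sym (σ : Zd ≃g Zd) : ⇑(actE_Sym σ) = act σ := rfl
theorem measurable_act (σ : Zd ≃g Zd) : Measurable (act σ) := (actE_Sym σ).measurable
theorem measurePreserving_act (G : Measure ℝ≥0) [IsProbabilityMeasure G] (σ : Zd ≃g Zd) :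
    MeasurePreserving (act σ) (PP G) (PP G) := by
  have h : MeasurePreserving (MeasurableEquiv.piCongrLeft (fun _ : E => ℝ≥0) σ.mapEdgeSet)
      (PP G) (PP G) :=
    ⟨MeasurableEquiv.measurable _,
      Measure.infinitePi_map_piCongrLeft (fun _ : E => G) σ.mapEdgeSet⟩
  exact h.symm _
/-- Invariance holds for arbitrary sets (`act σ` is a measurable equivalence). -/
theorem PP_act (G : Measure ℝ≥0) [IsProbabilityMeasure G] (σ : Zd ≃g Zd) (A : Set Env) :
    PP G (act σ ⁻¹' A) = PP G A := by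
  have h : MeasurePreserving (actE_Sym σ) (PP G) (PP G) := measurePreserving_act G σ
  exact h.measure_preimage_equiv A
theorem ae_act (G : Measure ℝ≥0) [IsProbabilityMeasure G] (σ : Zd ≃g Zd) {P : Env → Prop}
    (h : ∀ᵐ ω ∂PP G, P ω) : ∀ᵐ ω ∂PP G, P (act σ ω) := (measurePreserving_act G σ).quasiMeasurePreserving.ae h
theorem act_tr_add (a b : V) (ω : Env) : act (tr a) (act (tr b) ω) = act (tr (a + b)) ω := by
  funext e
  obtain ⟨e, he⟩ := e
  induction e using Sym2.ind with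
  | _ x y =>
    refine congrArg ω (Subtype.ext ?_)
    show s(x + a + b, y + a + b) = s(x + (a + b), y + (a + b))
    rw [add_assoc, add_assoc]
theorem act_tr_zero (ω : Env) : act (tr 0) ω = ω := by
  funext e
  obtain ⟨e, he⟩ := e
  induction e using Sym2.ind with
  | _ x y =>
    refine congrArg ω (Subtype.ext ?_)
    show s(x + 0, y + 0) = s(x, y)
    rw [add_zero, add_zero]
theorem tau_act (σ : Zd ≃g Zd) (ω : Env) (x y : V) :
    tau (act σ ω) s(x, y) = tau ω s(σ x, σ y) := by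
  unfold tau
  by_cases h : Zd.Adj x y
  · have h' : Zd.Adj (σ x) (σ y) := σ.map_rel_iff.2 h
    rw [dif_pos ((SimpleGraph.mem_edgeSet _).2 h), dif_pos ((SimpleGraph.mem_edgeSet _).2 h')]
    rfl
  · have h' : ¬ Zd.Adj (σ x) (σ y) := fun h' => h (σ.map_rel_iff.1 h')
    rw [dif_neg (mt (SimpleGraph.mem_edgeSet _).1 h), dif_neg (mt (SimpleGraph.mem_edgeSet _).1 h')]
theorem wt_act (σ : Zd ≃g Zd) (ω : Env) {x y : V} (p : Zd.Walk x y) :
    wt (act σ ω) p = wt ω (p.map σ.toHom) := by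
  induction p with
  | nil => simp
  | cons h p ih => rw [SimpleGraph.Walk.map_cons, wt_cons, wt_cons, ih, tau_act]; rfl
theorem exists_map_Sym (σ : Zd ≃g Zd) {x y : V} (q : Zd.Walk (σ x) (σ y)) :
    ∃ p : Zd.Walk x y, p.support.map σ = q.support ∧ ∀ ω, wt (act σ ω) p = wt ω q := by
  have key : ∀ {u v : V} (q : Zd.Walk u v), ∃ p : Zd.Walk (σ.symm u) (σ.symm v),
      p.support.map σ = q.support ∧ ∀ ω, wt (act σ ω) p = wt ω q := by
    intro u v q
    induction q with
    | nil => exact ⟨.nil, by simp, by simp⟩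
    | cons h q ih =>
      obtain ⟨p, h1, h2⟩ := ih
      refine ⟨.cons (σ.symm.map_rel_iff.2 h) p, by simp [h1], fun ω => ?_⟩
      rw [wt_cons, wt_cons, h2, tau_act]; simp
  obtain ⟨p, h1, h2⟩ := key q
  refine ⟨p.copy (by simp) (by simp), by simpa using h1, fun ω => ?_⟩
  rw [← h2]; simp [wt]
theorem support_map_Sym (σ : Zd ≃g Zd) {x y : V} (p : Zd.Walk x y) :
    (p.map σ.toHom).support = p.support.map σ := by
  rw [SimpleGraph.Walk.support_map]; rfl
theorem TS_act (σ : Zd ≃g Zd) (ω : Env) {S S' : Set V} (hS : ∀ v, v ∈ S ↔ σ v ∈ S') (x y : V) :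
    TS (act σ ω) S x y = TS ω S' (σ x) (σ y) := by
  have h1 : ∀ p : Zd.Walk x y, In S p → In S' (p.map σ.toHom) := fun p hp v hv => by
    rw [support_map_Sym] at hv
    obtain ⟨u, hu, rfl⟩ := List.mem_map.1 hv
    exact (hS u).1 (hp u hu)
  have h2 : ∀ q : Zd.Walk (σ x) (σ y), In S' q → ∃ p : Zd.Walk x y, In S p ∧
      wt (act σ ω) p = wt ω q := fun q hq => by
    obtain ⟨p, a, b⟩ := exists_map_Sym σ q
    exact ⟨p, fun v hv => (hS v).2 (hq _ (a ▸ List.mem_map_of_mem hv)), b ω⟩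
  by_cases h : Conn S x y
  · have h' : Conn S' (σ x) (σ y) := by obtain ⟨p, hp⟩ := h; exact ⟨_, h1 p hp⟩
    refine le_antisymm (le_TS ω h' fun q hq => ?_) (le_TS _ h fun p hp => ?_)
    · obtain ⟨p, a, b⟩ := h2 q hq
      exact b ▸ TS_le _ p a
    · rw [wt_act]; exact TS_le ω _ (h1 p hp)
  · have h' : ¬ Conn S' (σ x) (σ y) := fun ⟨q, hq⟩ => by
      obtain ⟨p, a, -⟩ := h2 q hq
      exact h ⟨p, a⟩
    have : IsEmpty {p : Zd.Walk x y // In S p} := ⟨fun p => h ⟨p.1, p.2⟩⟩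
    have : IsEmpty {p : Zd.Walk (σ x) (σ y) // In S' p} := ⟨fun p => h' ⟨p.1, p.2⟩⟩
    simp [TS]
theorem T_act (σ : Zd ≃g Zd) (ω : Env) (x y : V) : T (act σ ω) x y = T ω (σ x) (σ y) := by
  rw [T_eq_TS, T_eq_TS]; exact TS_act σ ω (by simp) x y
theorem W_act (σ : Zd ≃g Zd) (ω : Env) (f : ℕ → V) (n : ℕ) :
    W (act σ ω) f n = W ω (fun i => σ (f i)) n := by
  simp only [W, tau_act]
theorem Ray_act (σ : Zd ≃g Zd) (ω : Env) (f : ℕ → V) :
    Ray (act σ ω) f ↔ Ray ω (fun i => σ (f i)) := by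
  constructor
  · rintro ⟨a, b, c⟩
    exact ⟨σ.injective.comp a, fun i => σ.map_rel_iff.2 (b i), fun i j h => by
      rw [← T_act, ← W_act, ← W_act, c i j h]⟩
  · rintro ⟨a, b, c⟩
    exact ⟨fun i j h => a (congrArg σ h), fun i => σ.map_rel_iff.1 (b i), fun i j h => by
      rw [T_act, W_act, W_act, c i j h]⟩
theorem Quasi_act (σ : Zd ≃g Zd) (ω : Env) (l r : ℕ → V) :
    Quasi (act σ ω) l r ↔ Quasi ω (fun i => σ (l i)) (fun i => σ (r i)) := by
  simp only [Quasi, T_act, W_act]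
theorem Sep_act (σ : Zd ≃g Zd) (ω : Env) (l r : ℕ → V) :
    Sep (act σ ω) l r ↔ Sep ω (fun i => σ (l i)) (fun i => σ (r i)) := by
  simp only [Sep, T_act, W_act]
/-- Walk quantifiers are transported by a symmetry. -/
theorem forall_walk_act (σ : Zd ≃g Zd) (ω : Env) (x y : V) (P : List V → Prop) (a : ℝ) :
    (∀ p : Zd.Walk x y, P (p.support.map σ) → a ≤ wt (act σ ω) p) ↔
      ∀ p : Zd.Walk (σ x) (σ y), P p.support → a ≤ wt ω p := by
  constructor
  · intro h q hq
    obtain ⟨p, a, b⟩ := exists_map_Sym σ q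
    rw [← b]; exact h p (a ▸ hq)
  · intro h p hp
    rw [wt_act]; exact h _ (by rwa [support_map_Sym])
@[simp] theorem tr_apply (a v : V) : tr a v = v + a := rfl
@[simp] theorem rx_apply (k : ℤ) (v : V) : rx k v = (k - v.1, v.2) := rfl
@[simp] theorem ry_apply (v : V) : ry v = (v.1, -v.2) := rfl
@[simp] theorem sw_apply (v : V) : sw v = (v.2, v.1) := rfl
theorem X_sh (s : Stair) (k j : ℤ) (v : V) : X s (v + sh s k j) = X s v + k := by
  simp only [X, sh, Prod.fst_add, Prod.snd_add, c_per]; ring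
theorem pt_sh (s : Stair) (k j k' y : ℤ) :
    pt s k' y + sh s k j = pt s (k' + k) (y + j * s.q) := by
  simp only [pt, sh, Prod.mk_add_mk, c_per, Prod.mk.injEq, and_true]; ring
theorem sh_add (s : Stair) (k j k' j' : ℤ) : sh s k j + sh s k' j' = sh s (k + k') (j + j') := by
  simp only [sh, Prod.mk_add_mk, Prod.mk.injEq]; constructor <;> ring
theorem X_rx (s : Stair) (k : ℤ) (v : V) : X s (rx k v) = k - X s.negx v := by
  simp only [X, rx_apply, Stair.negx]; ring
theorem pt_rx (s : Stair) (k k' y : ℤ) : rx k (pt s.negx k' y) = pt s (k - k') y := by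
  simp only [pt, rx_apply, Stair.negx, Prod.mk.injEq, and_true]; ring
theorem X_ry (s : Stair) (v : V) : X s (ry v) = X s.negy v := by
  simp only [X, ry_apply, Stair.negy]
theorem pt_ry (s : Stair) (k y : ℤ) : ry (pt s.negy k y) = pt s k (-y) := by
  simp only [pt, ry_apply, Stair.negy]

end P158
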