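import Vale.Agent.P158.Cross

open scoped NNReal ENNReal
open MeasureTheory Filter Topology

namespace P158

/-! One-sided budget: robust curves below the two targets cost `η` each. -/

/-- A crossing of the cut below row `y + R` which joins the two targets at cost at most `c`. -/
def GadColD (s : Stair) (R n₁ n₂ : ℕ) (ω : Env) (a b y : ℤ) (c : ℝ) : Prop :=
  ∃ (z z' : ℤ) (p : Zd.Walk (pt s 0 z) (pt s 1 z')),
    (∀ v ∈ p.support, v.2 ≤ y + R ∧ v ∈ Strip s (-n₁) n₂) ∧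
    TS ω (Strip s (-n₁) 0) (pt s (-n₁) a) (pt s 0 z) + wt ω p +
      TS ω (Strip s 1 n₂) (pt s 1 z') (pt s n₂ b) ≤ c

theorem step_colD {s : Stair} {A R K n₁ n₂ : ℕ} {η : ℝ} {ω : Env} {a b : ℤ} (h₁ : R + 1 ≤ n₁)
    (h₂ : R + 2 ≤ n₂) {y₀ y : ℤ} {c ε : ℝ} (hε : 0 < ε) (hy : y₀ + (K + 2 * R + 1) ≤ y)
    (hG : GadColD s R n₁ n₂ ω a b y₀ c) {l r : ℕ → V} {i j : ℕ} (h : RC s A R K η 0 y ω l r)
    (hi : FirstHit s l (-n₁) i) (hj : FirstHit s r n₂ j) (ha : (l i).2 ≤ a) (hb : (r j).2 ≤ b) :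
    GadColD s R n₁ n₂ ω a b y (c - η + ε) := by
  obtain ⟨z₀, z₀', p₀, hp₀, hc⟩ := hG
  have bl := h.bl
  have br := h.br
  have s0 := h.sl 0
  have s1 := h.sr 0
  simp only [Box, Set.mem_ofPred_eq, abs_le] at bl br
  have hR : 1 ≤ R := by omega
  have hL : (-n₁ : ℤ) < 0 := by omega
  have hRt : (1 : ℤ) < n₂ := by omega
  obtain ⟨u, hu⟩ : ∃ u, l i = pt s (-n₁) u := ⟨_, hi.1 ▸ eq_pt s (l i)⟩
  obtain ⟨u', hu'⟩ : ∃ u, r j = pt s n₂ u := ⟨_, hj.1 ▸ eq_pt s (r j)⟩
  rw [hu, pt_snd] at ha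
  rw [hu', pt_snd] at hb
  obtain ⟨p, hp, -, hw⟩ := exists_lt_TS ω (conn_Box s hR h.bl h.br) hε
  obtain ⟨z, p₁, p', rfl, k₁⟩ := split_first s p (k := 0) s0 (by omega)
  obtain ⟨z', p₂, p₃, rfl, k₃⟩ := split_last s p' (k := 1) (by simp) (by omega)
  have box : ∀ v, v ∈ p₁.support ∨ v ∈ p₂.support ∨ v ∈ p₃.support →
      (-(R : ℤ) ≤ X s v ∧ X s v ≤ R) ∧ -(R : ℤ) ≤ v.2 - y ∧ v.2 - y ≤ R := fun v hv => by
    have := hp v (by simpa only [SimpleGraph.Walk.mem_support_append_iff] using hv)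
    simpa only [Box, Set.mem_ofPred_eq, abs_le, sub_zero] using this
  have z1 := box _ (Or.inl p₁.end_mem_support)
  have z2 := box _ (Or.inr (Or.inr p₃.start_mem_support))
  have z3 := (hp₀ _ p₀.start_mem_support).1
  have z4 := (hp₀ _ p₀.end_mem_support).1
  simp only [pt_snd] at z1 z2 z3 z4
  have m1 := monge_strip s ω hL ha (show z₀ ≤ z by omega)
  have m2 := monge_strip s ω hRt (show z₀' ≤ z' by omega) hb
  rw [← hu] at m1
  rw [← hu'] at m2
  obtain ⟨q₁, w₁, t₁, -⟩ := exists_seg h.hl.adj (Nat.zero_le i)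
  obtain ⟨q₂, w₂, t₂, -⟩ := exists_seg h.hr.adj (Nat.zero_le j)
  have u1 : TS ω (Strip s (-n₁) 0) (l i) (pt s 0 z) ≤ W ω l i + wt ω p₁ := by
    have := TS_le ω (S := Strip s (-n₁) 0) (q₁.reverse.append p₁) (In.append (In.reverse
      fun v hv => by
        obtain ⟨k, -, hk, rfl⟩ := (t₁ v).1 hv
        exact ⟨hi.left h.hl.adj (by omega) k hk, h.sl k⟩)
      fun v hv => ⟨by have := box v (Or.inl hv); omega, k₁ v hv⟩)
    rwa [wt_append, wt_reverse, w₁, W_zero, sub_zero] at this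
  have u2 : TS ω (Strip s 1 n₂) (pt s 1 z') (r j) ≤ wt ω p₃ + W ω r j := by
    have := TS_le ω (S := Strip s 1 n₂) (p₃.append q₂) (In.append
      (fun v hv => ⟨k₃ v hv, by have := box v (Or.inr (Or.inr hv)); omega⟩) fun v hv => by
        obtain ⟨k, -, hk, rfl⟩ := (t₂ v).1 hv
        exact ⟨by simpa using h.sr k, hj.right h.hr.adj (by omega) k hk⟩)
    rwa [wt_append, w₂, W_zero, sub_zero] at this
  have low : ∀ (qL : Zd.Walk (l i) (pt s 0 z₀)) (qR : Zd.Walk (pt s 1 z₀') (r j)),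
      In (Strip s (-n₁) 0) qL → In (Strip s 1 n₂) qR →
      T ω (l i) (r j) + η ≤ wt ω qL + (wt ω p₀ + wt ω qR) := by
    intro qL qR hL' hR'
    by_cases hm : l 0 ∈ (qL.append (p₀.append qR)).support ∧
        r 0 ∈ (qL.append (p₀.append qR)).support
    · simp only [SimpleGraph.Walk.mem_support_append_iff] at hm
      have a1 : l 0 ∈ qL.support := by
        rcases hm.1 with g | g | g
        · exact g
        · have := (hp₀ _ g).1; omega
        · have := (hR' _ g).1; omega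
      have a2 : r 0 ∈ (p₀.append qR).support := by
        rcases hm.2 with g | g
        · have := (hL' _ g).2; omega
        · exact (SimpleGraph.Walk.mem_support_append_iff _ _).2 g
      have b1 := T_add_le_of_mem ω qL a1
      have b2 := T_add_le_of_mem ω _ a2
      have b3 := h.loc _ h.bl _ h.br z₀ (by rw [abs_sub_comm]; exact le_abs.2 (Or.inl (by omega)))
      have b4 := h.add 0 0
      have b5 := h.add i j
      have b6 := h.hl.geo 0 i (Nat.zero_le _)
      have b7 := h.hr.geo 0 j (Nat.zero_le _)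
      rw [wt_append] at b2
      rw [T_comm] at b6
      simp only [W_zero] at b4 b6 b7
      linarith
    · simpa only [wt_append] using h.rob i j _ (not_and_or.1 hm)
  have cL : Conn (Strip s (-n₁) 0) (l i) (pt s 0 z₀) :=
    conn_Strip s hL ⟨hi.1.ge, h.sl i⟩ ⟨by simp, by simp⟩
  have cR : Conn (Strip s 1 n₂) (pt s 1 z₀') (r j) :=
    conn_Strip s hRt ⟨by simp, by simpa using hRt.le⟩ ⟨by simpa using h.sr j, hj.1.le⟩
  have low2 : T ω (l i) (r j) + η - wt ω p₀ - TS ω (Strip s 1 n₂) (pt s 1 z₀') (r j) ≤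
      TS ω (Strip s (-n₁) 0) (l i) (pt s 0 z₀) := le_TS ω cL fun qL hL' => by
    have := le_TS ω cR (a := T ω (l i) (r j) + η - wt ω p₀ - wt ω qL) fun qR hR' => by
      linarith [low qL qR hL' hR']
    linarith
  refine ⟨z, z', p₂, fun v hv => ?_, ?_⟩
  · have := box v (Or.inr (Or.inl hv))
    exact ⟨by omega, by omega, by omega⟩
  · have := h.add i j
    simp only [wt_append] at hw
    linarith

theorem colD {s : Stair} {A R K n₁ n₂ : ℕ} {η : ℝ} {ω : Env} {a b : ℤ} (h₁ : R + 1 ≤ n₁)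
    (h₂ : R + 2 ≤ n₂) (Y : Finset ℤ) (hY : ∀ y ∈ Y, (K + 2 * R + 1 : ℤ) ≤ y)
    (hYY : ∀ y ∈ Y, ∀ y' ∈ Y, y ≠ y' → (K + 2 * R + 1 : ℤ) ≤ |y - y'|)
    (h : ∀ y ∈ Y, ∃ l r i j, RC s A R K η 0 y ω l r ∧ FirstHit s l (-n₁) i ∧
      FirstHit s r n₂ j ∧ (l i).2 ≤ a ∧ (r j).2 ≤ b) :
    η * Y.card ≤ defect s n₁ n₂ a b ω := by
  set c := TS ω (Strip s (-n₁) 0) (pt s (-n₁) a) (pt s 0 0) + tau ω s(pt s 0 0, pt s 1 0) +
    TS ω (Strip s 1 n₂) (pt s 1 0) (pt s n₂ b) with hc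
  have key : ∀ ε : ℝ, 0 < ε → ∃ y, (y = 0 ∨ y ∈ Y) ∧
      GadColD s R n₁ n₂ ω a b y (c - η * Y.card + ε) := by
    induction Y using Finset.induction_on_max with
    | empty =>
      refine fun ε hε => ⟨0, Or.inl rfl, 0, 0, .cons (adj_pt s 0 0) .nil, fun v hv => ?_, ?_⟩
      · simp only [SimpleGraph.Walk.support_cons, SimpleGraph.Walk.support_nil, List.mem_cons,
          List.not_mem_nil, or_false] at hv
        rcases hv with rfl | rfl <;> simp [Strip] <;> omega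
      · rw [wt_cons, wt_nil]
        simp only [Finset.card_empty, Nat.cast_zero, zero_add]
        linarith
    | insert y Y hy ih =>
      intro ε hε
      obtain ⟨y₀, h0, hG⟩ := ih (fun y hy => hY y (Finset.mem_insert_of_mem hy))
        (fun y hy y' hy' => hYY y (Finset.mem_insert_of_mem hy) y' (Finset.mem_insert_of_mem hy'))
        (fun y hy => h y (Finset.mem_insert_of_mem hy)) (ε / 2) (half_pos hε)
      obtain ⟨l, r, i, j, g1, g2, g3, g4, g5⟩ := h y (Finset.mem_insert_self _ _)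
      refine ⟨y, Or.inr (Finset.mem_insert_self _ _), ?_⟩
      have := step_colD h₁ h₂ (half_pos hε) (y := y) (K := K) ?_ hG g1 g2 g3 g4 g5
      · rw [Finset.card_insert_of_notMem fun g => lt_irrefl _ (hy y g)]
        convert this using 1
        push_cast
        ring
      · rcases h0 with rfl | h0
        · simpa using hY y (Finset.mem_insert_self _ _)
        · have h3 := hy y₀ h0
          have := hYY y (Finset.mem_insert_self _ _) y₀ (Finset.mem_insert_of_mem h0) h3.ne'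
          rw [abs_of_pos (by omega)] at this
          omega
  refine le_of_forall_pos_le_add fun ε hε => ?_
  obtain ⟨y, -, z, z', p, hp, hG⟩ := key ε hε
  have cL : Conn (Strip s (-n₁) 0) (pt s (-n₁) a) (pt s 0 z) :=
    conn_Strip s (by omega) ⟨by simp, by simp⟩ ⟨by simp, by simp⟩
  have cR : Conn (Strip s 1 n₂) (pt s 1 z') (pt s n₂ b) :=
    conn_Strip s (by omega) ⟨by simp, by simp; omega⟩ ⟨by simp; omega, by simp⟩
  have sL : Strip s (-n₁) 0 ⊆ Strip s (-n₁) n₂ := fun v hv => ⟨hv.1, hv.2.trans (by omega)⟩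
  have sR : Strip s 1 n₂ ⊆ Strip s (-n₁) n₂ := fun v hv => ⟨le_trans (by omega) hv.1, hv.2⟩
  have cM : Conn (Strip s (-n₁) n₂) (pt s 0 z) (pt s 1 z') := ⟨p, fun v hv => (hp v hv).2⟩
  have t1 := TS_tri ω (cL.mono sL) (cM.trans (cR.mono sR))
  have t2 := TS_tri ω cM (cR.mono sR)
  have t3 := TS_mono ω cL sL
  have t4 := TS_mono ω cR sR
  have t5 := TS_le ω (S := Strip s (-n₁) n₂) p fun v hv => (hp v hv).2
  unfold defect
  linarith

end P158
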