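import Vale.Agent.P158.Basic

open scoped NNReal ENNReal
open MeasureTheory Filter Topology

namespace P158

/-! Measurability, jointly in the environment and the paths. -/

instance countable_walk_Meas (x y : V) : Countable (Zd.Walk x y) :=
  Function.Injective.countable (f := fun p : Zd.Walk x y => p.support)
    (fun _ _ h => SimpleGraph.Walk.support_injective h)

theorem measurable_tau (e : Sym2 V) : Measurable fun ω : Env => tau ω e := by
  unfold tau
  by_cases h : e ∈ Zd.edgeSet
  · simp only [h, dif_pos]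
    exact (measurable_pi_apply (⟨e, h⟩ : E)).coe_nnreal_real
  · simp only [h, dif_neg, not_false_eq_true]
    exact measurable_const

theorem measurable_list_Meas (L : List (Sym2 V)) :
    Measurable fun ω : Env => (L.map (tau ω)).sum := by
  induction L with
  | nil => simp
  | cons a L ih =>
    simp only [List.map_cons, List.sum_cons]
    exact (measurable_tau a).add ih

theorem measurable_wt {x y : V} (p : Zd.Walk x y) : Measurable fun ω : Env => wt ω p :=
  measurable_list_Meas _
theorem measurable_TS (S : Set V) (x y : V) : Measurable fun ω : Env => TS ω S x y := by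
  unfold TS
  exact Measurable.iInf fun p => measurable_wt _
theorem measurable_T (x y : V) : Measurable fun ω : Env => T ω x y := by
  unfold T
  exact Measurable.iInf fun p => measurable_wt _

variable {Y : Type} [MeasurableSpace Y] {φ : Y → Env} {l r : Y → ℕ → V}

theorem comp2_Meas {β : Type} [MeasurableSpace β] (f : V → V → Y → β)
    (hf : ∀ x y, Measurable (f x y)) {a b : Y → V} (ha : Measurable a) (hb : Measurable b) :
    Measurable fun z => f (a z) (b z) z := by
  have h : Measurable fun q : Y × (V × V) => f q.2.1 q.2.2 q.1 :=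
    measurable_from_prod_countable_left fun v => hf v.1 v.2
  exact h.comp (measurable_id.prodMk (ha.prodMk hb))

theorem set2_Meas (P : V → V → Y → Prop) (hP : ∀ x y, MeasurableSet {z | P x y z})
    {a b : Y → V} (ha : Measurable a) (hb : Measurable b) :
    MeasurableSet {z | P (a z) (b z) z} := by
  have h := comp2_Meas (β := Prop) P (fun x y => measurableSet_setOf.1 (hP x y)) ha hb
  exact measurableSet_setOf.2 h

theorem set1_Meas (P : V → Prop) {a : Y → V} (ha : Measurable a) :
    MeasurableSet {z | P (a z)} :=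
  ha (MeasurableSet.of_discrete (s := {v | P v}))

theorem app_Meas (hl : Measurable l) (i : ℕ) : Measurable fun z => l z i :=
  (measurable_pi_apply i).comp hl

theorem all_Meas {ι : Type} [Countable ι] {P : ι → Y → Prop}
    (h : ∀ i, MeasurableSet {z | P i z}) : MeasurableSet {z | ∀ i, P i z} := by
  rw [Set.setOf_forall]; exact MeasurableSet.iInter h

theorem ex_Meas {ι : Type} [Countable ι] {P : ι → Y → Prop}
    (h : ∀ i, MeasurableSet {z | P i z}) : MeasurableSet {z | ∃ i, P i z} := by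
  rw [Set.setOf_exists]; exact MeasurableSet.iUnion h

theorem imp_Meas {p : Prop} {P : Y → Prop} (h : MeasurableSet {z | P z}) :
    MeasurableSet {z | p → P z} := by
  by_cases hp : p
  · simpa [hp] using h
  · simp [hp]

theorem and_Meas {P Q : Y → Prop} (h : MeasurableSet {z | P z}) (h' : MeasurableSet {z | Q z}) :
    MeasurableSet {z | P z ∧ Q z} := h.inter h'

theorem measurable_W' (hφ : Measurable φ) (hl : Measurable l) (n : ℕ) :
    Measurable fun z => W (φ z) (l z) n := by
  unfold W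
  refine Finset.measurable_sum _ fun k _ => ?_
  exact comp2_Meas (fun x y z => tau (φ z) s(x, y)) (fun x y => (measurable_tau _).comp hφ)
    (app_Meas hl k) (app_Meas hl (k + 1))
theorem measurable_TS' (hφ : Measurable φ) (S : Set V) {a b : Y → V} (ha : Measurable a)
    (hb : Measurable b) : Measurable fun z => TS (φ z) S (a z) (b z) :=
  comp2_Meas (fun x y z => TS (φ z) S x y) (fun x y => (measurable_TS S x y).comp hφ) ha hb
theorem measurable_T' (hφ : Measurable φ) {a b : Y → V} (ha : Measurable a)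
    (hb : Measurable b) : Measurable fun z => T (φ z) (a z) (b z) :=
  comp2_Meas (fun x y z => T (φ z) x y) (fun x y => (measurable_T x y).comp hφ) ha hb
theorem measurable_bL (s : Stair) (hφ : Measurable φ) (hl : Measurable l) (y : ℤ) :
    Measurable fun z => bL s (φ z) (l z) y := by
  unfold bL
  exact Measurable.iInf fun i =>
    (measurable_TS' hφ _ (app_Meas hl i) measurable_const).sub (measurable_W' hφ hl i)
theorem measurable_bR (s : Stair) (hφ : Measurable φ) (hr : Measurable r) (y : ℤ) :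
    Measurable fun z => bR s (φ z) (r z) y := by
  unfold bR
  exact Measurable.iInf fun i =>
    (measurable_TS' hφ _ (app_Meas hr i) measurable_const).sub (measurable_W' hφ hr i)
theorem measurable_WW (s : Stair) (hφ : Measurable φ) (hl : Measurable l) (hr : Measurable r)
    (y : ℤ) : Measurable fun z => WW s (φ z) (l z) (r z) y := by
  unfold WW
  exact ((measurable_bL s hφ hl y).add ((measurable_tau _).comp hφ)).add (measurable_bR s hφ hr y)
theorem measurable_pr (s : Stair) (hφ : Measurable φ) (hl : Measurable l) (hr : Measurable r) :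
    Measurable fun z => pr s (φ z) (l z) (r z) := by
  unfold pr
  exact (measurable_pi_lambda _ fun y => measurable_bL s hφ hl y).prodMk
    (measurable_pi_lambda _ fun y => measurable_bR s hφ hr y)

theorem appZ_Meas {f : Y → ℤ → ℝ} (hf : Measurable f) (y : ℤ) : Measurable fun z => f z y :=
  (measurable_pi_apply y).comp hf

theorem Le_Meas {f g : Y → ℤ → ℝ} (hf : Measurable f) (hg : Measurable g) :
    MeasurableSet {z | Le (f z) (g z)} := by
  unfold Le
  exact all_Meas fun y => all_Meas fun y' => imp_Meas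
    (measurableSet_le ((appZ_Meas hf y').sub (appZ_Meas hf y))
      ((appZ_Meas hg y').sub (appZ_Meas hg y)))

theorem Ub_Meas {f g : Y → ℤ → ℝ} (hf : Measurable f) (hg : Measurable g) :
    MeasurableSet {z | Ub (f z) (g z)} := by
  have e : {z | Ub (f z) (g z)} = {z | ∀ M : ℕ, ∃ y y' : ℤ, y ≤ y' ∧
      (M : ℝ) ≤ (g z y' - g z y) - (f z y' - f z y)} := by
    ext z
    simp only [Set.mem_setOf_eq, Ub]
    constructor
    · intro h M; exact h M
    · intro h M
      obtain ⟨N, hN⟩ := exists_nat_ge M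
      obtain ⟨y, y', h1, h2⟩ := h N
      exact ⟨y, y', h1, hN.trans h2⟩
  rw [e]
  refine all_Meas fun M => ex_Meas fun y => ex_Meas fun y' => and_Meas ?_ ?_
  · exact MeasurableSet.const _
  · exact measurableSet_le measurable_const (((appZ_Meas hg y').sub (appZ_Meas hg y)).sub
      ((appZ_Meas hf y').sub (appZ_Meas hf y)))

theorem measurableSet_Prec {P Q : Y → FF} (hP : Measurable P) (hQ : Measurable Q) :
    MeasurableSet {z | Prec (P z) (Q z)} := by
  unfold Prec
  exact and_Meas (Le_Meas hP.fst hQ.fst) (and_Meas (Ub_Meas hP.fst hQ.fst)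
    (and_Meas (Le_Meas hQ.snd hP.snd) (Ub_Meas hQ.snd hP.snd)))
theorem measurable_Dm {P Q : Y → FF} (hP : Measurable P) (hQ : Measurable Q) (y y' : ℤ) :
    Measurable fun z => Dm (P z) (Q z) y y' := by
  unfold Dm
  exact (((appZ_Meas hQ.fst y').sub (appZ_Meas hQ.fst y)).sub
    ((appZ_Meas hP.fst y').sub (appZ_Meas hP.fst y))).add
    (((appZ_Meas hP.snd y').sub (appZ_Meas hP.snd y)).sub
    ((appZ_Meas hQ.snd y').sub (appZ_Meas hQ.snd y)))
theorem measurableSet_Ray (hφ : Measurable φ) (hl : Measurable l) :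
    MeasurableSet {z | Ray (φ z) (l z)} := by
  have e : {z | Ray (φ z) (l z)} = {z | (∀ i j, l z i = l z j → i = j) ∧
      (∀ i, Zd.Adj (l z i) (l z (i + 1))) ∧
      ∀ i j, i ≤ j → T (φ z) (l z i) (l z j) = W (φ z) (l z) j - W (φ z) (l z) i} := by
    ext z
    exact ⟨fun h => ⟨fun i j hij => h.inj hij, h.adj, h.geo⟩,
      fun h => ⟨fun i j hij => h.1 i j hij, h.2.1, h.2.2⟩⟩
  rw [e]
  refine and_Meas (all_Meas fun i => all_Meas fun j => ?_) (and_Meas (all_Meas fun i => ?_)
    (all_Meas fun i => all_Meas fun j => imp_Meas ?_))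
  · exact set2_Meas (fun x y _ => x = y → i = j) (fun _ _ => MeasurableSet.const _)
      (app_Meas hl i) (app_Meas hl j)
  · exact set2_Meas (fun x y _ => Zd.Adj x y) (fun _ _ => MeasurableSet.const _)
      (app_Meas hl i) (app_Meas hl (i + 1))
  · exact measurableSet_eq_fun (measurable_T' hφ (app_Meas hl i) (app_Meas hl j))
      ((measurable_W' hφ hl j).sub (measurable_W' hφ hl i))
theorem measurableSet_FirstHit (s : Stair) (hl : Measurable l) (k : ℤ) (i : ℕ) :
    MeasurableSet {z | FirstHit s (l z) k i} := by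
  unfold FirstHit
  refine and_Meas ?_ (all_Meas fun i' => imp_Meas ?_)
  · exact set1_Meas (fun v => X s v = k) (app_Meas hl i)
  · exact set1_Meas (fun v => X s v ≠ k) (app_Meas hl i')

theorem Cone_Meas (s : Stair) (A R : ℕ) (k y : ℤ) (hl : Measurable l) :
    MeasurableSet {z | Cone s A R k y (l z)} := by
  unfold Cone
  exact all_Meas fun i =>
    set1_Meas (fun v => |v.2 - y| ≤ A * |X s v - k| + R) (app_Meas hl i)

theorem RayL_Meas (s : Stair) (A : ℕ) (hφ : Measurable φ) (hl : Measurable l) :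
    MeasurableSet {z | RayL s A (φ z) (l z)} := by
  have e : {z | RayL s A (φ z) (l z)} = {z | Ray (φ z) (l z) ∧ (∀ i, X s (l z i) ≤ 0) ∧
      ∃ R, Cone s A R 0 0 (l z)} := by
    ext z
    exact ⟨fun h => ⟨h.ray, h.side, h.cone⟩, fun h => ⟨h.1, h.2.1, h.2.2⟩⟩
  rw [e]
  exact and_Meas (measurableSet_Ray hφ hl) (and_Meas
    (all_Meas fun i => set1_Meas (fun v => X s v ≤ 0) (app_Meas hl i))
    (ex_Meas fun R => Cone_Meas s A R 0 0 hl))

theorem RayR_Meas (s : Stair) (A : ℕ) (hφ : Measurable φ) (hl : Measurable l) :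
    MeasurableSet {z | RayR s A (φ z) (l z)} := by
  have e : {z | RayR s A (φ z) (l z)} = {z | Ray (φ z) (l z) ∧ (∀ i, 1 ≤ X s (l z i)) ∧
      ∃ R, Cone s A R 0 0 (l z)} := by
    ext z
    exact ⟨fun h => ⟨h.ray, h.side, h.cone⟩, fun h => ⟨h.1, h.2.1, h.2.2⟩⟩
  rw [e]
  exact and_Meas (measurableSet_Ray hφ hl) (and_Meas
    (all_Meas fun i => set1_Meas (fun v => 1 ≤ X s v) (app_Meas hl i))
    (ex_Meas fun R => Cone_Meas s A R 0 0 hl))

theorem loc_Meas (s : Stair) (B : Set V) (K : ℕ) (k y : ℤ) (c : ℝ) (hφ : Measurable φ) :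
    MeasurableSet {z | ∀ u ∈ B, ∀ u' ∈ B, ∀ y' : ℤ, (K : ℤ) ≤ |y' - y| →
      T (φ z) u u' + c ≤ T (φ z) u (pt s k y') + T (φ z) (pt s k y') u'} :=
  all_Meas fun u => imp_Meas (all_Meas fun u' => imp_Meas (all_Meas fun y' => imp_Meas
    (measurableSet_le (((measurable_T _ _).comp hφ).add measurable_const)
      (((measurable_T _ _).comp hφ).add ((measurable_T _ _).comp hφ)))))

theorem measurableSet_Rec (s : Stair) (A R Λ K : ℕ) (y : ℤ) (hφ : Measurable φ)
    (hl : Measurable l) (hr : Measurable r) :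
    MeasurableSet {z | Rec s A R Λ K y (φ z) (l z) (r z)} := by
  have e : {z | Rec s A R Λ K y (φ z) (l z) (r z)} = {z | RayL s A (φ z) (l z) ∧
      RayR s A (φ z) (r z) ∧
      (∀ i j, W (φ z) (l z) i + W (φ z) (r z) j + WW s (φ z) (l z) (r z) y - Λ ≤
        T (φ z) (l z i) (r z j)) ∧
      (∀ i j (p : Zd.Walk (l z i) (r z j)),
        (In (Box s 0 y R ∩ HLe s 0)ᶜ p ∨ In (Box s 0 y R ∩ HGe s 1)ᶜ p) →
        W (φ z) (l z) i + W (φ z) (r z) j + WW s (φ z) (l z) (r z) y + 1 ≤ wt (φ z) p) ∧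
      ∀ u ∈ Box s 0 y R, ∀ u' ∈ Box s 0 y R, ∀ y' : ℤ, (K : ℤ) ≤ |y' - y| →
        T (φ z) u u' + ((Λ : ℝ) + 2) ≤ T (φ z) u (pt s 0 y') + T (φ z) (pt s 0 y') u'} := by
    ext z
    simp only [Set.mem_setOf_eq, ← add_assoc]
    exact ⟨fun h => ⟨h.hl, h.hr, h.near, h.rob, h.loc⟩,
      fun h => ⟨h.1, h.2.1, h.2.2.1, h.2.2.2.1, h.2.2.2.2⟩⟩
  rw [e]
  have hWW := fun i j => ((measurable_W' hφ hl i).add (measurable_W' hφ hr j)).add
    (measurable_WW s hφ hl hr y)
  refine and_Meas (RayL_Meas s A hφ hl) (and_Meas (RayR_Meas s A hφ hr) (and_Meas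
    (all_Meas fun i => all_Meas fun j => ?_) (and_Meas (all_Meas fun i => all_Meas fun j => ?_)
    (loc_Meas s _ K 0 y _ hφ))))
  · exact measurableSet_le ((hWW i j).sub measurable_const)
      (measurable_T' hφ (app_Meas hl i) (app_Meas hr j))
  · exact set2_Meas (fun x w z => ∀ p : Zd.Walk x w,
        (In (Box s 0 y R ∩ HLe s 0)ᶜ p ∨ In (Box s 0 y R ∩ HGe s 1)ᶜ p) →
        W (φ z) (l z) i + W (φ z) (r z) j + WW s (φ z) (l z) (r z) y + 1 ≤ wt (φ z) p)
      (fun x w => all_Meas fun p => imp_Meas (measurableSet_le ((hWW i j).add measurable_const)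
        ((measurable_wt p).comp hφ))) (app_Meas hl i) (app_Meas hr j)

theorem imp2_Meas {P Q : Y → Prop} (h : MeasurableSet {z | P z}) (h' : MeasurableSet {z | Q z}) :
    MeasurableSet {z | P z → Q z} := by
  have e : {z | P z → Q z} = {z | P z}ᶜ ∪ {z | Q z} := by
    ext z; simp only [Set.mem_setOf_eq, Set.mem_union, Set.mem_compl_iff]; tauto
  rw [e]; exact h.compl.union h'

theorem measurableSet_RC (s : Stair) (A R K : ℕ) (η : ℝ) (k y : ℤ) (hφ : Measurable φ)
    (hl : Measurable l) (hr : Measurable r) :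
    MeasurableSet {z | RC s A R K η k y (φ z) (l z) (r z)} := by
  have e : {z | RC s A R K η k y (φ z) (l z) (r z)} = {z | Ray (φ z) (l z) ∧ Ray (φ z) (r z) ∧
      (∀ i, X s (l z i) ≤ k) ∧ (∀ j, k + 1 ≤ X s (r z j)) ∧ Cone s A R k y (l z) ∧
      Cone s A R k y (r z) ∧ l z 0 ∈ Box s k y R ∧ r z 0 ∈ Box s k y R ∧
      (∀ i j, T (φ z) (l z i) (r z j) = W (φ z) (l z) i +
        TS (φ z) (Box s k y R) (l z 0) (r z 0) + W (φ z) (r z) j) ∧
      (∀ i j (p : Zd.Walk (l z i) (r z j)), (l z 0 ∉ p.support ∨ r z 0 ∉ p.support) →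
        T (φ z) (l z i) (r z j) + η ≤ wt (φ z) p) ∧
      ∀ u ∈ Box s k y R, ∀ u' ∈ Box s k y R, ∀ y' : ℤ, (K : ℤ) ≤ |y' - y| →
        T (φ z) u u' + η ≤ T (φ z) u (pt s k y') + T (φ z) (pt s k y') u'} := by
    ext z
    exact ⟨fun h => ⟨h.hl, h.hr, h.sl, h.sr, h.cl, h.cr, h.bl, h.br, h.add, h.rob, h.loc⟩,
      fun ⟨h1, h2, h3, h4, h5, h6, h7, h8, h9, h10, h11⟩ =>
        ⟨h1, h2, h3, h4, h5, h6, h7, h8, h9, h10, h11⟩⟩
  rw [e]
  refine and_Meas (measurableSet_Ray hφ hl) (and_Meas (measurableSet_Ray hφ hr) (and_Meas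
    (all_Meas fun i => set1_Meas (fun v => X s v ≤ k) (app_Meas hl i)) (and_Meas
    (all_Meas fun i => set1_Meas (fun v => k + 1 ≤ X s v) (app_Meas hr i)) (and_Meas
    (Cone_Meas s A R k y hl) (and_Meas (Cone_Meas s A R k y hr) (and_Meas
    (set1_Meas (fun v => v ∈ Box s k y R) (app_Meas hl 0)) (and_Meas
    (set1_Meas (fun v => v ∈ Box s k y R) (app_Meas hr 0)) (and_Meas
    (all_Meas fun i => all_Meas fun j => ?_) (and_Meas (all_Meas fun i => all_Meas fun j => ?_)
    (loc_Meas s _ K k y _ hφ))))))))))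
  · exact measurableSet_eq_fun (measurable_T' hφ (app_Meas hl i) (app_Meas hr j))
      (((measurable_W' hφ hl i).add (measurable_TS' hφ _ (app_Meas hl 0) (app_Meas hr 0))).add
        (measurable_W' hφ hr j))
  · refine set2_Meas (fun x w z => ∀ p : Zd.Walk x w,
        (l z 0 ∉ p.support ∨ r z 0 ∉ p.support) → T (φ z) x w + η ≤ wt (φ z) p)
      (fun x w => all_Meas fun p => imp2_Meas ?_ (measurableSet_le
        (((measurable_T x w).comp hφ).add measurable_const) ((measurable_wt p).comp hφ)))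
      (app_Meas hl i) (app_Meas hr j)
    exact set2_Meas (fun a b _ => a ∉ p.support ∨ b ∉ p.support)
      (fun _ _ => MeasurableSet.const _) (app_Meas hl 0) (app_Meas hr 0)
theorem measurableSet_NC (s : Stair) (A R K : ℕ) (η : ℝ) (k y : ℤ) {r' : Y → ℕ → V}
    (hφ : Measurable φ) (hl : Measurable l) (hr : Measurable r) (hr' : Measurable r') :
    MeasurableSet {z | NC s A R K η k y (φ z) (l z) (r z) (r' z)} := by
  have e : {z | NC s A R K η k y (φ z) (l z) (r z) (r' z)} =
      {z | RC s A R K η k y (φ z) (l z) (r z) ∧ RC s A R K η k y (φ z) (l z) (r' z) ∧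
      (∀ i j, T (φ z) (l z i) (r z j) + η ≤
        T (φ z) (l z i) (r' z 0) + T (φ z) (r' z 0) (r z j)) ∧
      ∀ i j, T (φ z) (l z i) (r' z j) + η ≤
        T (φ z) (l z i) (r z 0) + T (φ z) (r z 0) (r' z j)} := by
    ext z
    exact ⟨fun h => ⟨h.c1, h.c2, h.x1, h.x2⟩, fun h => ⟨h.1, h.2.1, h.2.2.1, h.2.2.2⟩⟩
  rw [e]
  refine and_Meas (measurableSet_RC s A R K η k y hφ hl hr) (and_Meas
    (measurableSet_RC s A R K η k y hφ hl hr') (and_Meas
    (all_Meas fun i => all_Meas fun j => ?_) (all_Meas fun i => all_Meas fun j => ?_)))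
  · exact measurableSet_le ((measurable_T' hφ (app_Meas hl i) (app_Meas hr j)).add
      measurable_const) ((measurable_T' hφ (app_Meas hl i) (app_Meas hr' 0)).add
      (measurable_T' hφ (app_Meas hr' 0) (app_Meas hr j)))
  · exact measurableSet_le ((measurable_T' hφ (app_Meas hl i) (app_Meas hr' j)).add
      measurable_const) ((measurable_T' hφ (app_Meas hl i) (app_Meas hr 0)).add
      (measurable_T' hφ (app_Meas hr 0) (app_Meas hr' j)))

end P158
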