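import Vale.Agent.P158.Cap
import Vale.Agent.P158.Meas

open scoped NNReal ENNReal
open MeasureTheory Filter Topology

namespace P158

/-! The events of the proof are null measurable. -/

variable (μ : Measure Env) [IsFiniteMeasure μ]

theorem nm_two_NM {P : Env → (ℕ → V) → (ℕ → V) → Prop}
    (h : MeasurableSet {z : Env × ((ℕ → V) × (ℕ → V)) | P z.1 z.2.1 z.2.2}) :
    NullMeasurableSet {ω | ∃ l r, P ω l r} μ := by
  have := nullMeas_proj μ h
  convert this using 2 with ω
  simp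

theorem meas_int_NM {Y : Type} [MeasurableSpace Y] {l : Y → ℕ → V} (hl : Measurable l) (i : ℕ)
    (y : ℤ) : Measurable fun z => ((((l z i).2 - y : ℤ)) : ℝ) :=
  (measurable_of_countable fun v : V => ((v.2 - y : ℤ) : ℝ)).comp
    ((measurable_pi_apply i).comp hl)

theorem nm_NEv (s : Stair) (A R K : ℕ) (η : ℝ) (k y : ℤ) :
    NullMeasurableSet (NEv s A R K η k y) μ := by
  have h := nullMeas_proj μ (Y := (ℕ → V) × (ℕ → V) × (ℕ → V))
    (measurableSet_NC s A R K η k y (φ := fun z => z.1) (l := fun z => z.2.1)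
      (r := fun z => z.2.2.1) (r' := fun z => z.2.2.2) measurable_fst
      (by fun_prop) (by fun_prop) (by fun_prop))
  convert h using 2 with ω
  simp [NEv]
theorem nm_KinkD (s : Stair) (A R K : ℕ) (η γ : ℝ) (n₁ n₂ : ℕ) (k y : ℤ) :
    NullMeasurableSet (KinkD s A R K η γ n₁ n₂ k y) μ := by
  refine nm_two_NM μ (P := fun ω l r => ∃ i j, RC s A R K η k y ω l r ∧
    FirstHit s l (k - n₁) i ∧ FirstHit s r (k + n₂) j ∧
    γ * n₁ * n₂ ≤ -((((l i).2 - y : ℤ) : ℝ) * n₂ + (((r j).2 - y : ℤ) : ℝ) * n₁)) ?_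
  simp only [Set.setOf_exists]
  refine MeasurableSet.iUnion fun i => MeasurableSet.iUnion fun j => ?_
  have hl : Measurable fun z : Env × ((ℕ → V) × (ℕ → V)) => z.2.1 := by fun_prop
  have hr : Measurable fun z : Env × ((ℕ → V) × (ℕ → V)) => z.2.2 := by fun_prop
  refine (measurableSet_RC s A R K η k y measurable_fst hl hr).inter
    ((measurableSet_FirstHit s hl _ i).inter ((measurableSet_FirstHit s hr _ j).inter ?_))
  exact measurableSet_le measurable_const
    (((meas_int_NM hl i y).mul_const _).add ((meas_int_NM hr j y).mul_const _)).neg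
theorem nm_Kink (s : Stair) (A R K : ℕ) (η γ : ℝ) (n₁ n₂ : ℕ) (k y : ℤ) :
    NullMeasurableSet (Kink s A R K η γ n₁ n₂ k y) μ := by
  refine nm_two_NM μ (P := fun ω l r => ∃ i j, RC s A R K η k y ω l r ∧
    FirstHit s l (k - n₁) i ∧ FirstHit s r (k + n₂) j ∧
    γ * n₁ * n₂ ≤ |(((l i).2 - y : ℤ) : ℝ) * n₂ + (((r j).2 - y : ℤ) : ℝ) * n₁|) ?_
  simp only [Set.setOf_exists]
  refine MeasurableSet.iUnion fun i => MeasurableSet.iUnion fun j => ?_
  have hl : Measurable fun z : Env × ((ℕ → V) × (ℕ → V)) => z.2.1 := by fun_prop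
  have hr : Measurable fun z : Env × ((ℕ → V) × (ℕ → V)) => z.2.2 := by fun_prop
  refine (measurableSet_RC s A R K η k y measurable_fst hl hr).inter
    ((measurableSet_FirstHit s hl _ i).inter ((measurableSet_FirstHit s hr _ j).inter ?_))
  exact measurableSet_le measurable_const
    (((meas_int_NM hl i y).mul_const _).add ((meas_int_NM hr j y).mul_const _)).abs
theorem nm_Rec (s : Stair) (A R Λ K : ℕ) (y : ℤ) :
    NullMeasurableSet {ω | ∃ l r, Rec s A R Λ K y ω l r} μ :=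
  nm_two_NM μ (P := fun ω l r => Rec s A R Λ K y ω l r)
    (measurableSet_Rec s A R Λ K y measurable_fst (by fun_prop) (by fun_prop))
theorem nm_NearE (s : Stair) (A R Λ K Λ₂ : ℕ) (n : ℤ) :
    NullMeasurableSet (NearE s A R Λ K Λ₂ n) μ := by
  refine nm_two_NM μ (P := fun ω l r => Rec s A R Λ K (n * (K + 1) * s.q) ω l r ∧
    WW s ω l r 0 ≤ WW s ω l r (n * (K + 1) * s.q) + Λ₂) ?_
  have hl : Measurable fun z : Env × ((ℕ → V) × (ℕ → V)) => z.2.1 := by fun_prop
  have hr : Measurable fun z : Env × ((ℕ → V) × (ℕ → V)) => z.2.2 := by fun_prop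
  exact (measurableSet_Rec s A R Λ K _ measurable_fst hl hr).inter
    (measurableSet_le (measurable_WW s measurable_fst hl hr _)
      ((measurable_WW s measurable_fst hl hr _).add_const _))
theorem nm_ChainL (s : Stair) (A R Λ K k : ℕ) (y a b : ℤ) :
    NullMeasurableSet {ω | ∃ l r : Fin k → ℕ → V, (∀ i, Rec s A R Λ K y ω (l i) (r i)) ∧
      ∀ i j, i < j → Prec (pr s ω (l i) (r i)) (pr s ω (l j) (r j)) ∧
        1 ≤ Dm (pr s ω (l i) (r i)) (pr s ω (l j) (r j)) a b} μ := by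
  have hl : ∀ i, Measurable fun z : Env × ((Fin k → ℕ → V) × (Fin k → ℕ → V)) => z.2.1 i :=
    fun i => by fun_prop
  have hr : ∀ i, Measurable fun z : Env × ((Fin k → ℕ → V) × (Fin k → ℕ → V)) => z.2.2 i :=
    fun i => by fun_prop
  have hp : ∀ i, Measurable fun z : Env × ((Fin k → ℕ → V) × (Fin k → ℕ → V)) =>
      pr s z.1 (z.2.1 i) (z.2.2 i) := fun i => measurable_pr s measurable_fst (hl i) (hr i)
  have h : MeasurableSet {z : Env × ((Fin k → ℕ → V) × (Fin k → ℕ → V)) |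
      (∀ i, Rec s A R Λ K y z.1 (z.2.1 i) (z.2.2 i)) ∧
      ∀ i j, i < j → Prec (pr s z.1 (z.2.1 i) (z.2.2 i)) (pr s z.1 (z.2.1 j) (z.2.2 j)) ∧
        1 ≤ Dm (pr s z.1 (z.2.1 i) (z.2.2 i)) (pr s z.1 (z.2.1 j) (z.2.2 j)) a b} := by
    refine MeasurableSet.inter ?_ ?_
    · change MeasurableSet {z : Env × ((Fin k → ℕ → V) × (Fin k → ℕ → V)) |
        ∀ i, Rec s A R Λ K y z.1 (z.2.1 i) (z.2.2 i)}
      simp only [Set.setOf_forall]
      exact MeasurableSet.iInter fun i =>
        measurableSet_Rec s A R Λ K y measurable_fst (hl i) (hr i)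
    · change MeasurableSet {z : Env × ((Fin k → ℕ → V) × (Fin k → ℕ → V)) |
        ∀ i j, i < j → Prec (pr s z.1 (z.2.1 i) (z.2.2 i)) (pr s z.1 (z.2.1 j) (z.2.2 j)) ∧
        1 ≤ Dm (pr s z.1 (z.2.1 i) (z.2.2 i)) (pr s z.1 (z.2.1 j) (z.2.2 j)) a b}
      simp only [Set.setOf_forall]
      exact MeasurableSet.iInter fun i => MeasurableSet.iInter fun j =>
        MeasurableSet.iInter fun _ => (measurableSet_Prec (hp i) (hp j)).inter
          (measurableSet_le measurable_const (measurable_Dm (hp i) (hp j) a b))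
  have h2 := nullMeas_proj μ h
  convert h2 using 2 with ω
  simp only [Set.mem_setOf_eq, Prod.exists]

end P158
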