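import Vale.Agent.P158.Sym

open scoped NNReal ENNReal
open MeasureTheory Filter Topology

namespace P158

/-! Translation covariance of the events. -/

section gen
variable {σ : Zd ≃g Zd} {s s' : Stair} {k y k' y' : ℤ}

theorem box_Sym2 (hX : ∀ v, X s (σ v) - k = X s' v - k') (hY : ∀ v, |(σ v).2 - y| = |v.2 - y'|)
    (R : ℕ) (v : V) : v ∈ Box s' k' y' R ↔ σ v ∈ Box s k y R := by
  show _ ∧ _ ↔ _ ∧ _
  rw [hX, hY]

theorem loc_Sym2 (hX : ∀ v, X s (σ v) - k = X s' v - k') (hY : ∀ v, |(σ v).2 - y| = |v.2 - y'|)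
    (R K : ℕ) (η : ℝ) (ω : Env) :
    (∀ u ∈ Box s' k' y' R, ∀ u' ∈ Box s' k' y' R, ∀ z : ℤ, (K : ℤ) ≤ |z - y'| →
      T (act σ ω) u u' + η ≤ T (act σ ω) u (pt s' k' z) + T (act σ ω) (pt s' k' z) u') ↔
    (∀ u ∈ Box s k y R, ∀ u' ∈ Box s k y R, ∀ z : ℤ, (K : ℤ) ≤ |z - y| →
      T ω u u' + η ≤ T ω u (pt s k z) + T ω (pt s k z) u') := by
  constructor
  · intro h u hu u' hu' z hz
    obtain ⟨u, rfl⟩ := σ.surjective u
    obtain ⟨u', rfl⟩ := σ.surjective u'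
    obtain ⟨v, hv⟩ := σ.surjective (pt s k z)
    have h1 := hX v
    have h2 := hY v
    rw [hv] at h1 h2
    have h3 : v = pt s' k' v.2 := by
      have := eq_pt s' v
      rwa [show X s' v = k' by simp at h1; omega] at this
    have := h u ((box_Sym2 hX hY R u).2 hu) u' ((box_Sym2 hX hY R u').2 hu') v.2
      (by rw [← h2]; exact hz)
    rwa [← h3, T_act, T_act, T_act, hv] at this
  · intro h u hu u' hu' z hz
    have h1 := hX (pt s' k' z)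
    have h2 := hY (pt s' k' z)
    have h3 := eq_pt s (σ (pt s' k' z))
    rw [show X s (σ (pt s' k' z)) = k by simp at h1; omega] at h3
    have := h _ ((box_Sym2 hX hY R u).1 hu) _ ((box_Sym2 hX hY R u').1 hu') (σ (pt s' k' z)).2
      (by rw [h2]; exact hz)
    rw [T_act, T_act, T_act, h3]
    exact this

theorem cone_Sym2 (hX : ∀ v, X s (σ v) - k = X s' v - k') (hY : ∀ v, |(σ v).2 - y| = |v.2 - y'|)
    (A R : ℕ) (f : ℕ → V) : Cone s' A R k' y' f ↔ Cone s A R k y fun i => σ (f i) := by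
  simp only [Cone, hX, hY]

theorem RC_Sym2 (hX : ∀ v, X s (σ v) - k = X s' v - k') (hY : ∀ v, |(σ v).2 - y| = |v.2 - y'|)
    (A R K : ℕ) (η : ℝ) (ω : Env) (l r : ℕ → V) : RC s' A R K η k' y' (act σ ω) l r ↔
      RC s A R K η k y ω (fun i => σ (l i)) (fun i => σ (r i)) := by
  have rob : ∀ i j, (∀ p : Zd.Walk (l i) (r j), (l 0 ∉ p.support ∨ r 0 ∉ p.support) →
      T (act σ ω) (l i) (r j) + η ≤ wt (act σ ω) p) ↔ ∀ p : Zd.Walk (σ (l i)) (σ (r j)),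
      (σ (l 0) ∉ p.support ∨ σ (r 0) ∉ p.support) → T ω (σ (l i)) (σ (r j)) + η ≤ wt ω p := by
    intro i j
    rw [← forall_walk_act σ ω _ _ (fun L => σ (l 0) ∉ L ∨ σ (r 0) ∉ L), T_act]
    simp only [List.mem_map_of_injective σ.injective]
  have add : ∀ i j, T (act σ ω) (l i) (r j) = W (act σ ω) l i +
      TS (act σ ω) (Box s' k' y' R) (l 0) (r 0) + W (act σ ω) r j ↔
      T ω (σ (l i)) (σ (r j)) = W ω (fun i => σ (l i)) i +
        TS ω (Box s k y R) (σ (l 0)) (σ (r 0)) + W ω (fun i => σ (r i)) j := by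
    intro i j
    rw [T_act, W_act, W_act, TS_act σ ω (box_Sym2 hX hY R)]
  constructor
  · rintro ⟨a1, a2, a3, a4, a5, a6, a7, a8, a9, a10, a11⟩
    exact ⟨(Ray_act _ _ _).1 a1, (Ray_act _ _ _).1 a2,
      fun i => by have := hX (l i); have := a3 i; omega,
      fun i => by have := hX (r i); have := a4 i; omega,
      (cone_Sym2 hX hY _ _ _).1 a5, (cone_Sym2 hX hY _ _ _).1 a6, (box_Sym2 hX hY _ _).1 a7,
      (box_Sym2 hX hY _ _).1 a8, fun i j => (add i j).1 (a9 i j), fun i j => (rob i j).1 (a10 i j),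
      (loc_Sym2 hX hY _ _ _ _).1 a11⟩
  · rintro ⟨a1, a2, a3, a4, a5, a6, a7, a8, a9, a10, a11⟩
    exact ⟨(Ray_act _ _ _).2 a1, (Ray_act _ _ _).2 a2,
      fun i => by have := hX (l i); have := a3 i; omega,
      fun i => by have := hX (r i); have := a4 i; omega,
      (cone_Sym2 hX hY _ _ _).2 a5, (cone_Sym2 hX hY _ _ _).2 a6, (box_Sym2 hX hY _ _).2 a7,
      (box_Sym2 hX hY _ _).2 a8, fun i j => (add i j).2 (a9 i j), fun i j => (rob i j).2 (a10 i j),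
      (loc_Sym2 hX hY _ _ _ _).2 a11⟩

theorem NC_Sym2 (hX : ∀ v, X s (σ v) - k = X s' v - k') (hY : ∀ v, |(σ v).2 - y| = |v.2 - y'|)
    (A R K : ℕ) (η : ℝ) (ω : Env) (l r₁ r₂ : ℕ → V) : NC s' A R K η k' y' (act σ ω) l r₁ r₂ ↔
      NC s A R K η k y ω (fun i => σ (l i)) (fun i => σ (r₁ i)) (fun i => σ (r₂ i)) := by
  constructor
  · rintro ⟨a1, a2, a3, a4⟩
    exact ⟨(RC_Sym2 hX hY _ _ _ _ _ _ _).1 a1, (RC_Sym2 hX hY _ _ _ _ _ _ _).1 a2,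
      by simpa only [T_act] using a3, by simpa only [T_act] using a4⟩
  · rintro ⟨a1, a2, a3, a4⟩
    exact ⟨(RC_Sym2 hX hY _ _ _ _ _ _ _).2 a1, (RC_Sym2 hX hY _ _ _ _ _ _ _).2 a2,
      by simpa only [T_act] using a3, by simpa only [T_act] using a4⟩

theorem hit_Sym2 (hX : ∀ v, X s (σ v) - k = X s' v - k') (f : ℕ → V) (a : ℤ) (i : ℕ) :
    FirstHit s' f (k' + a) i ↔ FirstHit s (fun i => σ (f i)) (k + a) i := by
  have e : ∀ v, X s' v = k' + a ↔ X s (σ v) = k + a := fun v => by have := hX v; omega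
  simp only [FirstHit, ne_eq, e]

theorem ex_Sym2 (σ : Zd ≃g Zd) (f : ℕ → V) : ∃ g : ℕ → V, f = fun i => σ (g i) :=
  ⟨fun i => σ.symm (f i), by simp⟩

end gen

theorem hX_Sym2 (s : Stair) (k j k' : ℤ) (v : V) :
    X s (tr (sh s k j) v) - (k' + k) = X s v - k' := by rw [tr_apply, X_sh]; ring
theorem snd_Sym2 (s : Stair) (k j y : ℤ) (v : V) :
    (tr (sh s k j) v).2 - (y + j * s.q) = v.2 - y := by
  simp only [tr_apply, sh, Prod.snd_add]; ring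
theorem hY_Sym2 (s : Stair) (k j y : ℤ) (v : V) :
    |(tr (sh s k j) v).2 - (y + j * s.q)| = |v.2 - y| := by rw [snd_Sym2]
theorem pt_Sym2 (s : Stair) (j k y : ℤ) : tr (sh s 0 j) (pt s k y) = pt s k (y + j * s.q) := by
  rw [tr_apply, pt_sh, add_zero]
theorem X0_Sym2 (s : Stair) (j : ℤ) (v : V) : X s (v + sh s 0 j) = X s v := by
  rw [X_sh, add_zero]
theorem cone0_Sym2 (s : Stair) (A : ℕ) (j : ℤ) (f : ℕ → V) : (∃ R, Cone s A R 0 0 f) ↔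
    ∃ R, Cone s A R 0 0 fun i => f i + sh s 0 j := by
  constructor
  all_goals
    rintro ⟨R, h⟩
    refine ⟨R + (j * s.q).natAbs, fun i => ?_⟩
    have h1 := h i
    simp only [X0_Sym2, sub_zero] at h1 ⊢
    simp only [sh, Prod.snd_add] at h1 ⊢
    rw [Nat.cast_add, Int.natCast_natAbs]
    generalize j * (s.q : ℤ) = t at *
    generalize (A : ℤ) * |X s (f i)| = w at *
    generalize (f i).2 = z at *
    rw [abs_le] at *
    constructor <;> linarith [neg_abs_le t, le_abs_self t, h1.1, h1.2]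
theorem bL_sh (s : Stair) (ω : Env) (j : ℤ) (l : ℕ → V) (y : ℤ) :
    bL s (act (tr (sh s 0 j)) ω) l y = bL s ω (fun i => l i + sh s 0 j) (y + j * s.q) := by
  unfold bL
  refine iInf_congr fun i => ?_
  rw [TS_act _ ω (S' := HLe s 0) (fun v => by
    simp only [HLe, HGe, Set.mem_ofPred_eq, tr_apply, X0_Sym2]), W_act, pt_Sym2]
  rfl
theorem bR_sh (s : Stair) (ω : Env) (j : ℤ) (r : ℕ → V) (y : ℤ) :
    bR s (act (tr (sh s 0 j)) ω) r y = bR s ω (fun i => r i + sh s 0 j) (y + j * s.q) := by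
  unfold bR
  refine iInf_congr fun i => ?_
  rw [TS_act _ ω (S' := HGe s 1) (fun v => by
    simp only [HLe, HGe, Set.mem_ofPred_eq, tr_apply, X0_Sym2]), W_act, pt_Sym2]
  rfl
theorem WW_sh (s : Stair) (ω : Env) (j : ℤ) (l r : ℕ → V) (y : ℤ) :
    WW s (act (tr (sh s 0 j)) ω) l r y =
      WW s ω (fun i => l i + sh s 0 j) (fun i => r i + sh s 0 j) (y + j * s.q) := by
  unfold WW
  rw [bL_sh, bR_sh, tau_act, pt_Sym2, pt_Sym2]
theorem Rec_sh (s : Stair) (A R Λ K : ℕ) (ω : Env) (j y : ℤ) (l r : ℕ → V) :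
    Rec s A R Λ K y (act (tr (sh s 0 j)) ω) l r ↔
      Rec s A R Λ K (y + j * s.q) ω (fun i => l i + sh s 0 j) (fun i => r i + sh s 0 j) := by
  have hX : ∀ v, X s (tr (sh s 0 j) v) - 0 = X s v - 0 := fun v => by rw [tr_apply, X0_Sym2]
  have hY := hY_Sym2 s 0 j y
  have hL : RayL s A (act (tr (sh s 0 j)) ω) l ↔ RayL s A ω fun i => l i + sh s 0 j :=
    ⟨fun ⟨a, b, c⟩ => ⟨(Ray_act _ _ _).1 a, by simpa only [X0_Sym2] using b,
      (cone0_Sym2 s A j l).1 c⟩, fun ⟨a, b, c⟩ => ⟨(Ray_act _ _ _).2 a,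
      by simpa only [X0_Sym2] using b, (cone0_Sym2 s A j l).2 c⟩⟩
  have hR : RayR s A (act (tr (sh s 0 j)) ω) r ↔ RayR s A ω fun i => r i + sh s 0 j :=
    ⟨fun ⟨a, b, c⟩ => ⟨(Ray_act _ _ _).1 a, by simpa only [X0_Sym2] using b,
      (cone0_Sym2 s A j r).1 c⟩, fun ⟨a, b, c⟩ => ⟨(Ray_act _ _ _).2 a,
      by simpa only [X0_Sym2] using b, (cone0_Sym2 s A j r).2 c⟩⟩
  have hW : ∀ (f : ℕ → V) n, W (act (tr (sh s 0 j)) ω) f n = W ω (fun i => f i + sh s 0 j) n :=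
    fun f n => W_act _ _ _ _
  have hT : ∀ u v, T (act (tr (sh s 0 j)) ω) u v = T ω (u + sh s 0 j) (v + sh s 0 j) :=
    fun u v => T_act _ _ _ _
  have rob : ∀ i i' (a : ℝ), (∀ p : Zd.Walk (l i) (r i'),
      (In (Box s 0 y R ∩ HLe s 0)ᶜ p ∨ In (Box s 0 y R ∩ HGe s 1)ᶜ p) →
        a ≤ wt (act (tr (sh s 0 j)) ω) p) ↔
      ∀ p : Zd.Walk (l i + sh s 0 j) (r i' + sh s 0 j),
      (In (Box s 0 (y + j * s.q) R ∩ HLe s 0)ᶜ p ∨ In (Box s 0 (y + j * s.q) R ∩ HGe s 1)ᶜ p) →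
        a ≤ wt ω p := by
    intro i i' a
    refine Iff.trans ?_ (forall_walk_act (tr (sh s 0 j)) ω (l i) (r i') (fun L =>
      (∀ v ∈ L, v ∈ (Box s 0 (y + j * s.q) R ∩ HLe s 0)ᶜ) ∨
        ∀ v ∈ L, v ∈ (Box s 0 (y + j * s.q) R ∩ HGe s 1)ᶜ) a)
    have e1 : ∀ v, tr (sh s 0 j) v ∈ HLe s 0 ↔ v ∈ HLe s 0 := fun v => by
      simp only [HLe, HGe, Set.mem_ofPred_eq, tr_apply, X0_Sym2]
    have e2 : ∀ v, tr (sh s 0 j) v ∈ HGe s 1 ↔ v ∈ HGe s 1 := fun v => by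
      simp only [HLe, HGe, Set.mem_ofPred_eq, tr_apply, X0_Sym2]
    simp only [In, List.forall_mem_map, Set.mem_compl_iff, Set.mem_inter_iff, e1, e2,
      ← box_Sym2 hX hY]
  have loc := loc_Sym2 hX hY R K (Λ + 2) ω
  simp only [← add_assoc] at loc
  constructor
  · rintro ⟨a1, a2, a3, a4, a5⟩
    exact ⟨hL.1 a1, hR.1 a2, by simpa only [hW, hT, WW_sh] using a3,
      fun i i' => (rob i i' _).1 (by simpa only [hW, WW_sh] using a4 i i'), loc.1 a5⟩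
  · rintro ⟨a1, a2, a3, a4, a5⟩
    exact ⟨hL.2 a1, hR.2 a2, by simpa only [hW, hT, WW_sh] using a3,
      fun i i' => (rob i i' _).2 (by simpa only [hW, WW_sh] using a4 i i'), loc.2 a5⟩
theorem RC_sh (s : Stair) (A R K : ℕ) (η : ℝ) (ω : Env) (k j k' y : ℤ) (l r : ℕ → V) :
    RC s A R K η k' y (act (tr (sh s k j)) ω) l r ↔
      RC s A R K η (k' + k) (y + j * s.q) ω (fun i => l i + sh s k j)
        (fun i => r i + sh s k j) := RC_Sym2 (hX_Sym2 s k j k') (hY_Sym2 s k j y) A R K η ω l r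
theorem NEv_sh (s : Stair) (A R K : ℕ) (η : ℝ) (k j : ℤ) :
    NEv s A R K η k (j * s.q) = act (tr (sh s k j)) ⁻¹' NEv s A R K η 0 0 := by
  ext ω
  have h := NC_Sym2 (hX_Sym2 s k j 0) (hY_Sym2 s k j 0) A R K η ω
  simp only [zero_add] at h
  constructor
  · rintro ⟨l, r₁, r₂, hh⟩
    obtain ⟨l, rfl⟩ := ex_Sym2 (tr (sh s k j)) l
    obtain ⟨r₁, rfl⟩ := ex_Sym2 (tr (sh s k j)) r₁
    obtain ⟨r₂, rfl⟩ := ex_Sym2 (tr (sh s k j)) r₂
    exact ⟨l, r₁, r₂, (h _ _ _).2 hh⟩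
  · rintro ⟨l, r₁, r₂, hh⟩
    exact ⟨_, _, _, (h _ _ _).1 hh⟩
theorem KinkD_sh (s : Stair) (A R K : ℕ) (η γ : ℝ) (n₁ n₂ : ℕ) (k j : ℤ) :
    KinkD s A R K η γ n₁ n₂ k (j * s.q) =
      act (tr (sh s k j)) ⁻¹' KinkD s A R K η γ n₁ n₂ 0 0 := by
  ext ω
  have h := RC_Sym2 (hX_Sym2 s k j 0) (hY_Sym2 s k j 0) A R K η ω
  have h1 := fun f => hit_Sym2 (hX_Sym2 s k j 0) f (-n₁)
  have h2 := fun f => hit_Sym2 (hX_Sym2 s k j 0) f n₂
  have h3 := snd_Sym2 s k j 0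
  rw [zero_add k] at h h1 h2
  rw [zero_add (j * (s.q : ℤ))] at h h3
  simp only [← sub_eq_add_neg] at h1
  constructor
  · rintro ⟨l, r, i, i', a1, a2, a3, a4⟩
    obtain ⟨l, rfl⟩ := ex_Sym2 (tr (sh s k j)) l
    obtain ⟨r, rfl⟩ := ex_Sym2 (tr (sh s k j)) r
    exact ⟨l, r, i, i', (h _ _).2 a1, (h1 _ _).2 a2, (h2 _ _).2 a3, by simpa only [h3] using a4⟩
  · rintro ⟨l, r, i, i', a1, a2, a3, a4⟩
    exact ⟨_, _, i, i', (h _ _).1 a1, (h1 _ _).1 a2, (h2 _ _).1 a3, by simpa only [h3] using a4⟩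
theorem Kink_sh (s : Stair) (A R K : ℕ) (η γ : ℝ) (n₁ n₂ : ℕ) (k j : ℤ) :
    Kink s A R K η γ n₁ n₂ k (j * s.q) =
      act (tr (sh s k j)) ⁻¹' Kink s A R K η γ n₁ n₂ 0 0 := by
  ext ω
  have h := RC_Sym2 (hX_Sym2 s k j 0) (hY_Sym2 s k j 0) A R K η ω
  have h1 := fun f => hit_Sym2 (hX_Sym2 s k j 0) f (-n₁)
  have h2 := fun f => hit_Sym2 (hX_Sym2 s k j 0) f n₂
  have h3 := snd_Sym2 s k j 0
  rw [zero_add k] at h h1 h2
  rw [zero_add (j * (s.q : ℤ))] at h h3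
  simp only [← sub_eq_add_neg] at h1
  constructor
  · rintro ⟨l, r, i, i', a1, a2, a3, a4⟩
    obtain ⟨l, rfl⟩ := ex_Sym2 (tr (sh s k j)) l
    obtain ⟨r, rfl⟩ := ex_Sym2 (tr (sh s k j)) r
    exact ⟨l, r, i, i', (h _ _).2 a1, (h1 _ _).2 a2, (h2 _ _).2 a3, by simpa only [h3] using a4⟩
  · rintro ⟨l, r, i, i', a1, a2, a3, a4⟩
    exact ⟨_, _, i, i', (h _ _).1 a1, (h1 _ _).1 a2, (h2 _ _).1 a3, by simpa only [h3] using a4⟩
/-- An upward kink is a downward kink of the reflected picture. -/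
theorem Kink_subset (s : Stair) (A R K : ℕ) (η γ : ℝ) (n₁ n₂ : ℕ) :
    Kink s A R K η γ n₁ n₂ 0 0 ⊆
      KinkD s A R K η γ n₁ n₂ 0 0 ∪ act ry ⁻¹' KinkD s.negy A R K η γ n₁ n₂ 0 0 := by
  rintro ω ⟨l, r, i, i', a1, a2, a3, a4⟩
  rcases le_abs'.1 a4 with h | h
  · exact Or.inl ⟨l, r, i, i', a1, a2, a3, by linarith⟩
  · obtain ⟨l, rfl⟩ := ex_Sym2 ry l
    obtain ⟨r, rfl⟩ := ex_Sym2 ry r
    have hX : ∀ v, X s (ry v) - 0 = X s.negy v - 0 := fun v => by rw [X_ry]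
    have hY : ∀ v : V, |(ry v).2 - 0| = |v.2 - 0| := fun v => by simp
    have h1 := hit_Sym2 hX l (-n₁) i
    simp only [← sub_eq_add_neg] at h1
    refine Or.inr ⟨l, r, i, i', (RC_Sym2 hX hY _ _ _ _ _ _ _).2 a1, h1.2 a2,
      (hit_Sym2 hX r n₂ i').2 a3, ?_⟩
    simp only [ry_apply] at h
    push_cast at h ⊢
    linarith

end P158
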