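import Vale.Agent.P158.ColA
import Vale.Agent.P158.ColD
import Vale.Agent.P158.Sym2
import Vale.Agent.P158.NM

open scoped NNReal ENNReal
open MeasureTheory Filter Topology

namespace P158

/-! Robust curves are straight in probability. -/

theorem pick_ColP {h q n n₁ n₂ A R : ℕ} {γ : ℝ} {u v y : ℤ} (hq : 0 < q) (hn : 1 ≤ n)
    (h₁ : n ≤ n₁) (h₂ : n ≤ n₂) (hR : R ≤ n) (hy0 : 0 ≤ y) (hy1 : y ≤ n) (hγ : 0 < γ)
    (hy : (y : ℝ) ≤ γ * n / 4) (hh : (q : ℝ) ≤ h * γ / 2) (hv : |v| ≤ A * n₂ + R)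
    (hk : γ * n₁ * n₂ ≤ -((u : ℝ) * n₂ + (v : ℝ) * n₁)) :
    ∃ j : ℤ, |j| ≤ h * (A + 2) + 1 ∧ h * (u + y) ≤ -(j * q * n₁) ∧ h * (v + y) ≤ j * q * n₂ := by
  have hn2 : (0 : ℤ) < n₂ := by omega
  have hq' : (1 : ℤ) ≤ q := by omega
  have hd : (0 : ℤ) < q * n₂ := by positivity
  obtain ⟨j, r, hr0, hr1, hj⟩ : ∃ j r : ℤ, 0 ≤ r ∧ r < q * n₂ ∧ j * q * n₂ = h * (v + y) + r := by
    refine ⟨-((-(h * (v + y))) / (q * n₂)), (-(h * (v + y))) % (q * n₂),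
      Int.emod_nonneg _ hd.ne', Int.emod_lt_of_pos _ hd, ?_⟩
    have := Int.mul_ediv_add_emod (-(h * (v + y))) (q * n₂)
    linarith
  refine ⟨j, ?_, ?_, by linarith⟩
  · have h3 : |v + y| ≤ (A + 2) * n₂ := by
      have := abs_add_le v y
      rw [abs_of_nonneg hy0] at this
      have e : ((A : ℤ) + 2) * n₂ = A * n₂ + 2 * n₂ := by ring
      omega
    have h4 : |j| * (q * n₂) ≤ (h * (A + 2) + 1) * (q * n₂) := by
      calc |j| * (q * n₂) = |j * q * n₂| := by rw [mul_assoc, abs_mul, abs_of_pos hd]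
        _ ≤ |h * (v + y)| + |r| := by rw [hj]; exact abs_add_le _ _
        _ ≤ h * ((A + 2) * n₂) + q * n₂ := by
            rw [abs_mul, abs_of_nonneg hr0, Nat.abs_cast]
            gcongr
        _ ≤ h * ((A + 2) * (q * n₂)) + q * n₂ := by
            gcongr
            exact le_mul_of_one_le_left hn2.le hq'
        _ = (h * (A + 2) + 1) * (q * n₂) := by ring
    exact le_of_mul_le_mul_right h4 hd
  · have r1 : (r : ℝ) ≤ q * n₂ := by exact_mod_cast hr1.le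
    have r2 : (j : ℝ) * q * n₂ = h * (v + y) + r := by exact_mod_cast hj
    have r3 : (n : ℝ) ≤ n₁ := by exact_mod_cast h₁
    have r4 : (n : ℝ) ≤ n₂ := by exact_mod_cast h₂
    have r5 : (1 : ℝ) ≤ n := by exact_mod_cast hn
    have r6 : (0 : ℝ) ≤ h := Nat.cast_nonneg _
    have r7 : (0 : ℝ) < n₁ := by linarith
    have r8 : (0 : ℝ) < n₂ := by linarith
    have t1 : (y : ℝ) * (n₁ + n₂) ≤ γ * n₁ * n₂ / 2 := by
      have a1 : (n : ℝ) * n₁ ≤ n₂ * n₁ := by gcongr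
      have a2 : (n : ℝ) * n₂ ≤ n₁ * n₂ := by gcongr
      calc (y : ℝ) * (n₁ + n₂) ≤ γ * n / 4 * (n₁ + n₂) := by gcongr
        _ = γ / 4 * (n * n₁ + n * n₂) := by ring
        _ ≤ γ / 4 * (n₂ * n₁ + n₁ * n₂) := by gcongr
        _ = γ * n₁ * n₂ / 2 := by ring
    have t2 : (r : ℝ) * n₁ ≤ h * γ / 2 * n₂ * n₁ := by
      calc (r : ℝ) * n₁ ≤ q * n₂ * n₁ := by gcongr
        _ ≤ h * γ / 2 * n₂ * n₁ := by gcongr
    have t3 := mul_le_mul_of_nonneg_left hk r6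
    have t4 := mul_le_mul_of_nonneg_left t1 r6
    have t5 : ((h : ℝ) * (u + y)) * n₂ ≤ (-(j * q * n₁)) * n₂ := by
      have e : (-((j : ℝ) * q * n₁)) * n₂ = -((h * (v + y) + r) * n₁) := by rw [← r2]; ring
      rw [e]; nlinarith
    have t6 := le_of_mul_le_mul_right t5 r8
    exact_mod_cast t6

theorem round_ColP {h : ℕ} (hh : 1 ≤ h) (t : ℤ) :
    |h * (t / h + 1) - t| ≤ h ∧ ∀ w : ℤ, h * w ≤ t → w ≤ t / h + 1 := by
  have hd : (0 : ℤ) < h := by omega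
  have h1 := Int.mul_ediv_add_emod t h
  have h2 := Int.emod_nonneg t hd.ne'
  have h3 := Int.emod_lt_of_pos t hd
  refine ⟨?_, fun w hw => ?_⟩
  · rw [abs_le]; constructor <;> linarith
  · have := (Int.le_ediv_iff_mul_le hd (a := w) (b := t)).2 (by linarith)
    omega

theorem count_ColP (s : Stair) {A R K h n n₁ n₂ M : ℕ} {η γ : ℝ} (hγ : 0 < γ) (hh1 : 1 ≤ h)
    (hh : (s.q : ℝ) ≤ h * γ / 2) (hR : R + 2 ≤ n) (h₁ : n ≤ n₁) (h₂ : n ≤ n₂)
    (hM1 : M * (K + 2 * R + 1) * s.q ≤ n) (hM : (M * (K + 2 * R + 1) * s.q : ℝ) ≤ γ * n / 4)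
    (ω : Env) (J : Finset ℕ) (hJ : J ⊆ Finset.Icc 1 M)
    (hω : ∀ m ∈ J, ω ∈ KinkD s A R K η γ n₁ n₂ 0 ((m * (K + 2 * R + 1) : ℕ) * s.q)) :
    η * J.card ≤ ∑ j ∈ Finset.Icc (-(h * (A + 2) + 1 : ℤ)) (h * (A + 2) + 1),
      defect s n₁ n₂ ((-(j * s.q * n₁)) / h + 1) ((j * s.q * n₂) / h + 1) ω := by
  classical
  have hq := s.hq
  have key : ∀ m : ℕ, ∃ j : ℤ, m ∈ J → |j| ≤ h * (A + 2) + 1 ∧ ∃ l r i i',
      RC s A R K η 0 ((m * (K + 2 * R + 1) : ℕ) * s.q) ω l r ∧ FirstHit s l (-n₁) i ∧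
      FirstHit s r n₂ i' ∧ (l i).2 ≤ (-(j * s.q * n₁)) / h + 1 ∧
      (r i').2 ≤ (j * s.q * n₂) / h + 1 := by
    intro m
    by_cases hm : m ∈ J
    · obtain ⟨l, r, i, i', hrc, hl, hr, hk⟩ := hω m hm
      rw [zero_sub] at hl
      rw [zero_add] at hr
      have hmM := (Finset.mem_Icc.1 (hJ hm)).2
      have hle : m * (K + 2 * R + 1) * s.q ≤ M * (K + 2 * R + 1) * s.q := by gcongr
      have hc := hrc.cr i'
      rw [hr.1, sub_zero, Nat.abs_cast] at hc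
      obtain ⟨j, j1, j2, j3⟩ := pick_ColP (h := h) (n := n) (y := (m * (K + 2 * R + 1) : ℕ) * s.q)
        hq (by omega) h₁ h₂ (by omega : R ≤ n)
        (by positivity) (by exact_mod_cast hle.trans hM1) hγ
        (le_trans (by exact_mod_cast hle) hM) hh hc hk
      rw [sub_add_cancel] at j2 j3
      exact ⟨j, fun _ => ⟨j1, l, r, i, i', hrc, hl, hr, (round_ColP hh1 _).2 _ j2,
        (round_ColP hh1 _).2 _ j3⟩⟩
    · exact ⟨0, fun h => absurd h hm⟩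
  choose g hg using key
  have hmap : Set.MapsTo g (J : Set ℕ)
      ((Finset.Icc (-(h * (A + 2) + 1 : ℤ)) (h * (A + 2) + 1) : Finset ℤ) : Set ℤ) := by
    intro m hm
    rw [Finset.mem_coe, Finset.mem_Icc]
    exact abs_le.1 (hg m hm).1
  rw [Finset.card_eq_sum_card_fiberwise hmap]
  push_cast
  rw [Finset.mul_sum]
  refine Finset.sum_le_sum fun j _ => ?_
  have hD : (0 : ℤ) < (K + 2 * R + 1) := by positivity
  have hq' : (1 : ℤ) ≤ s.q := by omega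
  have hinj : Function.Injective fun m : ℕ => (((m * (K + 2 * R + 1) : ℕ) : ℤ) * s.q) := by
    intro m m' hmm
    simp only at hmm
    have h1 : m * (K + 2 * R + 1) * s.q = m' * (K + 2 * R + 1) * s.q := by exact_mod_cast hmm
    exact Nat.eq_of_mul_eq_mul_right (by omega) (Nat.eq_of_mul_eq_mul_right hq h1)
  rw [← Finset.card_image_of_injective _ hinj]
  have hbig : ∀ t : ℤ, 1 ≤ t → (K + 2 * R + 1 : ℤ) ≤ t * (K + 2 * R + 1) * s.q := by
    intro t ht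
    calc (K + 2 * R + 1 : ℤ) = 1 * (K + 2 * R + 1) * 1 := by ring
      _ ≤ t * (K + 2 * R + 1) * s.q := by gcongr
  refine colD (A := A) (R := R) (K := K) (by omega) (by omega) _ ?_ ?_ ?_
  · intro y hy
    obtain ⟨m, hm, rfl⟩ := Finset.mem_image.1 hy
    have hm1 := (Finset.mem_Icc.1 (hJ (Finset.mem_filter.1 hm).1)).1
    push_cast
    exact hbig m (by omega)
  · intro y hy y' hy' hne
    obtain ⟨m, -, rfl⟩ := Finset.mem_image.1 hy
    obtain ⟨m', -, rfl⟩ := Finset.mem_image.1 hy'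
    have hmm : m ≠ m' := fun h => hne (by rw [h])
    push_cast
    rw [show (m : ℤ) * (K + 2 * R + 1) * s.q - m' * (K + 2 * R + 1) * s.q =
      (m - m') * (K + 2 * R + 1) * s.q by ring, abs_mul, abs_mul, abs_of_pos hD, Nat.abs_cast]
    exact hbig _ (Int.one_le_abs (by omega))
  · intro y hy
    obtain ⟨m, hm, rfl⟩ := Finset.mem_image.1 hy
    obtain ⟨hm1, hm2⟩ := Finset.mem_filter.1 hm
    rw [← hm2]
    exact (hg m hm1).2

theorem colP_down {G : Measure ℝ≥0} (hG : Law G) (s : Stair) (A R K : ℕ) {η γ ε : ℝ}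
    (hη : 0 < η) (hγ : 0 < γ) (hε : 0 < ε) : ∃ n₀ : ℕ, ∀ n n₁ n₂ : ℕ, n₀ ≤ n → n ≤ n₁ →
      n₁ ≤ 4 * n → n ≤ n₂ → n₂ ≤ 4 * n →
      (PP G).real (KinkD s A R K η γ n₁ n₂ 0 0) ≤ ε := by
  classical
  haveI := hG.prob
  have hq := s.hq
  have hqR : (0 : ℝ) < s.q := by exact_mod_cast hq
  obtain ⟨h, hh⟩ := exists_nat_ge (2 * s.q / γ)
  rw [div_le_iff₀ hγ] at hh
  have hh1 : 1 ≤ h := by
    rcases Nat.eq_zero_or_pos h with rfl | h0
    · simp only [Nat.cast_zero, zero_mul] at hh; linarith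
    · exact h0
  set I : Finset ℤ := Finset.Icc (-(h * (A + 2) + 1 : ℤ)) (h * (A + 2) + 1) with hI
  set γ' : ℝ := min γ 1 with hγ'
  have g0 : 0 < γ' := lt_min hγ one_pos
  set d : ℝ := (K + 2 * R + 1) * s.q with hd
  have d0 : 0 < d := by positivity
  set ε' : ℝ := ε * η * γ' / (64 * (I.card + 1) * d) with hε'
  have e0 : 0 < ε' := by positivity
  choose N hN using fun j : ℤ => colA hG s h hh1 j e0
  obtain ⟨N₁, hN₁⟩ := exists_nat_ge (8 * d / γ')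
  refine ⟨I.sup N + (R + 2) + N₁, fun n n₁ n₂ hn h₁ h₁' h₂ h₂' => ?_⟩
  set M : ℕ := ⌊γ' * n / (4 * d)⌋₊ with hM
  have n0 : (0 : ℝ) < n := by exact_mod_cast (by omega : 0 < n)
  have m1 : (M : ℝ) ≤ γ' * n / (4 * d) := Nat.floor_le (by positivity)
  have m2 : γ' * n / (4 * d) < M + 1 := Nat.lt_floor_add_one _
  have m3 : (N₁ : ℝ) ≤ n := by exact_mod_cast (by omega : N₁ ≤ n)
  have m4 : 8 * d ≤ γ' * n := by
    have := hN₁.trans m3
    rw [div_le_iff₀ g0] at this; linarith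
  rw [le_div_iff₀ (by positivity)] at m1
  rw [div_lt_iff₀ (by positivity)] at m2
  have m5 : (M * (K + 2 * R + 1) * s.q : ℝ) ≤ γ' * n / 4 := by
    rw [mul_assoc, ← hd]; linarith
  have m6 : γ' * n ≤ γ * n := by gcongr; exact min_le_left _ _
  have m7 : γ' * n ≤ 1 * n := by gcongr; exact min_le_right _ _
  have hM1 : M * (K + 2 * R + 1) * s.q ≤ n := by
    have : (M * (K + 2 * R + 1) * s.q : ℝ) ≤ n := by linarith
    exact_mod_cast this
  have hint : ∀ j ∈ I, Integrable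
      (defect s n₁ n₂ ((-(j * s.q * n₁)) / h + 1) ((j * s.q * n₂) / h + 1)) (PP G) :=
    fun j _ => integrable_defect hG s (by omega) (by omega) _ _
  have hcount := sum_le_of_count (PP G) (Finset.Icc 1 M)
    (fun m => KinkD s A R K η γ n₁ n₂ 0 ((m * (K + 2 * R + 1) : ℕ) * s.q))
    (fun m _ => nm_KinkD _ _ _ _ _ _ _ _ _ _ _)
    (fun ω => (∑ j ∈ I, defect s n₁ n₂ ((-(j * s.q * n₁)) / h + 1) ((j * s.q * n₂) / h + 1) ω) / η)
    ((integrable_finset_sum I hint).div_const η)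
    (Eventually.of_forall fun ω J hJ hω => by
      rw [le_div_iff₀ hη, mul_comm]
      exact count_ColP s hγ hh1 (by linarith) (by omega) h₁ h₂ hM1 (by linarith) ω J hJ hω)
  have hshift : ∀ m ∈ Finset.Icc 1 M,
      (PP G).real (KinkD s A R K η γ n₁ n₂ 0 ((m * (K + 2 * R + 1) : ℕ) * s.q)) =
        (PP G).real (KinkD s A R K η γ n₁ n₂ 0 0) := by
    intro m _
    rw [KinkD_sh, measureReal_def, PP_act, ← measureReal_def]
  rw [Finset.sum_congr rfl hshift, Finset.sum_const, Nat.card_Icc, nsmul_eq_mul, integral_div,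
    integral_finset_sum I hint, le_div_iff₀ hη, Nat.add_sub_cancel] at hcount
  have hsum : ∑ j ∈ I, ∫ ω, defect s n₁ n₂ ((-(j * s.q * n₁)) / h + 1)
      ((j * s.q * n₂) / h + 1) ω ∂PP G ≤ ∑ _j ∈ I, ε' * (8 * n) := by
    refine Finset.sum_le_sum fun j hj => ?_
    have hNj : N j ≤ I.sup N := Finset.le_sup hj
    have r1 := (round_ColP hh1 (-(j * s.q * n₁))).1
    rw [sub_neg_eq_add] at r1
    refine (hN j n₁ n₂ (by omega) (by omega) _ _ r1 (round_ColP hh1 _).1).trans ?_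
    have : (n₁ + n₂ : ℝ) ≤ 8 * n := by exact_mod_cast (by omega : n₁ + n₂ ≤ 8 * n)
    gcongr
  rw [Finset.sum_const, nsmul_eq_mul] at hsum
  have f1 : (I.card : ℝ) * (ε' * (8 * n)) ≤ (I.card + 1) * (ε' * (8 * n)) := by
    gcongr; linarith
  have f2 : ((I.card : ℝ) + 1) * (ε' * (8 * n)) = ε * η * (γ' * n / (8 * d)) := by
    rw [hε']; field_simp; ring
  have f3 : γ' * n / (8 * d) ≤ M := by
    rw [div_le_iff₀ (by positivity)]; nlinarith
  have f4 : (0 : ℝ) < M := lt_of_lt_of_le (by positivity) f3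
  have f5 : ε * η * (γ' * n / (8 * d)) ≤ ε * η * M := by gcongr
  have f6 : (M * η) * (PP G).real (KinkD s A R K η γ n₁ n₂ 0 0) ≤ (M * η) * ε := by
    nlinarith
  exact le_of_mul_le_mul_left f6 (by positivity)

theorem colP {G : Measure ℝ≥0} (hG : Law G) (s : Stair) (A R K : ℕ) {η γ ε : ℝ}
    (hη : 0 < η) (hγ : 0 < γ) (hε : 0 < ε) : ∃ n₀ : ℕ, ∀ n n₁ n₂ : ℕ, n₀ ≤ n → n ≤ n₁ →
      n₁ ≤ 4 * n → n ≤ n₂ → n₂ ≤ 4 * n →
      (PP G).real (Kink s A R K η γ n₁ n₂ 0 0) ≤ ε := by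
  haveI := hG.prob
  obtain ⟨N₁, h1⟩ := colP_down hG s A R K hη hγ (half_pos hε)
  obtain ⟨N₂, h2⟩ := colP_down hG s.negy A R K hη hγ (half_pos hε)
  refine ⟨N₁ + N₂, fun n n₁ n₂ hn a1 a2 a3 a4 => ?_⟩
  have b1 := h1 n n₁ n₂ (by omega) a1 a2 a3 a4
  have b2 := h2 n n₁ n₂ (by omega) a1 a2 a3 a4
  have b3 := measureReal_mono (μ := PP G) (Kink_subset s A R K η γ n₁ n₂)
  have b4 := measureReal_union_le (μ := PP G) (KinkD s A R K η γ n₁ n₂ 0 0)
    (act ry ⁻¹' KinkD s.negy A R K η γ n₁ n₂ 0 0)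
  have b5 : (PP G).real (act ry ⁻¹' KinkD s.negy A R K η γ n₁ n₂ 0 0) =
      (PP G).real (KinkD s.negy A R K η γ n₁ n₂ 0 0) := by
    rw [measureReal_def, PP_act, ← measureReal_def]
  linarith

end P158
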