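import Mathlib

/-! Planar first-passage percolation: the objects in the statement. -/

open scoped NNReal

namespace P158

/-- Vertices of the square lattice. -/
abbrev V := ℤ × ℤ

/-- The nearest-neighbour graph on the square lattice. -/
def Zd : SimpleGraph V where
  Adj x y := |x.1 - y.1| + |x.2 - y.2| = 1
  symm := ⟨fun x y h => by rw [abs_sub_comm y.1, abs_sub_comm y.2]; exact h⟩
  loopless := ⟨fun x h => by simp at h⟩

/-- Unoriented nearest-neighbour edges. -/
abbrev E := Zd.edgeSet

/-- An environment: a nonnegative weight for every edge. -/
abbrev Env := E → ℝ≥0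

open Classical in
/-- The weight of an unordered pair of vertices (only used on edges). -/
noncomputable def tau (ω : Env) (e : Sym2 V) : ℝ :=
  if h : e ∈ Zd.edgeSet then (ω ⟨e, h⟩ : ℝ) else 0

/-- The passage time of a finite nearest-neighbour walk: the sum over the traversed edges. -/
noncomputable def wt (ω : Env) {x y : V} (p : Zd.Walk x y) : ℝ := (p.edges.map (tau ω)).sum

/-- The passage time between two vertices. -/
noncomputable def T (ω : Env) (x y : V) : ℝ := ⨅ p : Zd.Walk x y, wt ω p

/-- A bigeodesic: pairwise distinct vertices, consecutive ones adjacent, every finite piece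
realizes the passage time between its ends. -/
def IsBigeodesic (ω : Env) (v : ℤ → V) : Prop :=
  Function.Injective v ∧ (∀ i, Zd.Adj (v i) (v (i + 1))) ∧
    ∀ i j, i < j → ∑ k ∈ Finset.Ico i j, tau ω s(v k, v (k + 1)) = T ω (v i) (v j)

end P158
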