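import Vale.Agent.P158.Basic

open scoped NNReal ENNReal
open MeasureTheory Filter Topology

namespace P158

/-! Full-plane consequence: far targets on the column are approached at linear speed. -/

theorem first_ret_F0 (s : Stair) (ω : Env) {v : V} {w' : ℤ} (p : Zd.Walk v (pt s 0 w')) :
    ∃ (z : ℤ) (H : Set V) (q₁ : Zd.Walk v (pt s 0 z)) (q₂ : Zd.Walk (pt s 0 z) (pt s 0 w')),
      (H = HGe s 0 ∨ H = HLe s 0) ∧ In H q₁ ∧ wt ω p = wt ω q₁ + wt ω q₂ ∧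
        q₂.length ≤ p.length := by
  rcases le_total (X s v) 0 with h | h
  · obtain ⟨z, p₁, p₂, h1, h2⟩ := split_first s p h (by simp)
    refine ⟨z, HLe s 0, p₁, p₂, Or.inr rfl, h2, by rw [h1, wt_append], ?_⟩
    rw [h1, SimpleGraph.Walk.length_append]; omega
  · obtain ⟨z, p₁, p₂, h1, h2⟩ := split_last s p.reverse (k := 0) (by simp) h
    refine ⟨z, HGe s 0, p₂.reverse, p₁.reverse, Or.inl rfl, h2.reverse, ?_, ?_⟩
    · rw [← wt_reverse ω p, h1, wt_append, wt_reverse, wt_reverse, add_comm]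
    · rw [← SimpleGraph.Walk.length_reverse p, h1, SimpleGraph.Walk.length_append,
        SimpleGraph.Walk.length_reverse]
      omega

theorem pt_mem_F0 (s : Stair) {H : Set V} (hH : H = HGe s 0 ∨ H = HLe s 0) (y : ℤ) :
    pt s 0 y ∈ H := by
  rcases hH with rfl | rfl
  · simp [HGe]
  · simp [HLe]

theorem conn_F0 (s : Stair) {H : Set V} (hH : H = HGe s 0 ∨ H = HLe s 0) (y y' : ℤ) :
    Conn H (pt s 0 y) (pt s 0 y') := by
  rcases hH with rfl | rfl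
  · exact conn_HGe s (by simp) (by simp)
  · exact conn_HLe s (by simp) (by simp)

theorem straddle_aux_F0 (s : Stair) (ω : Env) {u w' : ℤ} (h' : u ≤ w') (n : ℕ) :
    ∀ (w : ℤ), w ≤ u → ∀ p : Zd.Walk (pt s 0 w) (pt s 0 w'), p.length ≤ n →
      ∃ (a b : ℤ) (H : Set V), a ≤ u ∧ u ≤ b ∧ (H = HGe s 0 ∨ H = HLe s 0) ∧
      T ω (pt s 0 w) (pt s 0 a) + TS ω H (pt s 0 a) (pt s 0 b) + T ω (pt s 0 b) (pt s 0 w') ≤
        wt ω p := by
  have base : ∀ p : Zd.Walk (pt s 0 u) (pt s 0 w'),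
      ∃ (a b : ℤ) (H : Set V), a ≤ u ∧ u ≤ b ∧ (H = HGe s 0 ∨ H = HLe s 0) ∧
      T ω (pt s 0 u) (pt s 0 a) + TS ω H (pt s 0 a) (pt s 0 b) + T ω (pt s 0 b) (pt s 0 w') ≤
        wt ω p := by
    intro p
    refine ⟨u, u, HGe s 0, le_rfl, le_rfl, Or.inl rfl, ?_⟩
    rw [T_self, TS_self ω (pt_mem_F0 s (Or.inl rfl) u)]
    simpa using T_le ω p
  induction n with
  | zero =>
    intro w h p hp
    have e := SimpleGraph.Walk.eq_of_length_eq_zero (Nat.le_zero.1 hp)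
    have e2 : w = w' := congrArg Prod.snd e
    obtain rfl : w = u := by omega
    exact base p
  | succ n ih =>
    intro w h p hp
    rcases eq_or_lt_of_le h with rfl | hlt
    · exact base p
    have hne : pt s 0 w ≠ pt s 0 w' := fun e => by
      have e2 : w = w' := congrArg Prod.snd e
      omega
    obtain ⟨v, hadj, p', rfl⟩ := SimpleGraph.Walk.exists_eq_cons_of_ne hne p
    obtain ⟨z, H, q₁, q₂, hH, hq, hw, hl⟩ := first_ret_F0 s ω p'
    have hin : In H (SimpleGraph.Walk.cons hadj q₁) := by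
      intro a ha
      simp only [SimpleGraph.Walk.support_cons, List.mem_cons] at ha
      rcases ha with rfl | ha
      exacts [pt_mem_F0 s hH _, hq a ha]
    have e1 : wt ω (SimpleGraph.Walk.cons hadj p') =
        wt ω (SimpleGraph.Walk.cons hadj q₁) + wt ω q₂ := by
      rw [wt_cons, wt_cons, hw]; ring
    rcases le_or_gt u z with hz | hz
    · refine ⟨w, z, H, h, hz, hH, ?_⟩
      rw [T_self, e1]
      linarith [TS_le ω _ hin, T_le ω q₂]
    · simp only [SimpleGraph.Walk.length_cons] at hp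
      obtain ⟨a, b, H', h1, h2, h3, h4⟩ := ih z hz.le q₂ (by omega)
      refine ⟨a, b, H', h1, h2, h3, ?_⟩
      rw [e1]
      linarith [T_le ω (SimpleGraph.Walk.cons hadj q₁), T_tri ω (pt s 0 w) (pt s 0 z) (pt s 0 a)]

/-- A walk between two points of column `0` has an excursion straddling every row between. -/
theorem straddle (s : Stair) (ω : Env) {w u w' : ℤ} (h : w ≤ u) (h' : u ≤ w')
    (p : Zd.Walk (pt s 0 w) (pt s 0 w')) : ∃ (a b : ℤ) (H : Set V), a ≤ u ∧ u ≤ b ∧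
      (H = HGe s 0 ∨ H = HLe s 0) ∧
      T ω (pt s 0 w) (pt s 0 a) + TS ω H (pt s 0 a) (pt s 0 b) + T ω (pt s 0 b) (pt s 0 w') ≤
        wt ω p := straddle_aux_F0 s ω h' p.length w h p le_rfl

theorem f0 {s : Stair} {ω : Env} {c : ℝ} (hc : 0 < c) (hL : ∀ ε : ℝ, 0 < ε → ∃ Q, LowP c ε Q ω)
    (h₁ : SP s (HGe s 0) ω) (h₂ : SP s (HLe s 0) ω) : ∃ Q : ℝ,
      (∀ u w' : ℤ, 0 ≤ u → u ≤ w' →
        T ω (pt s 0 u) (pt s 0 w') + c / 4 * u - Q ≤ T ω (pt s 0 0) (pt s 0 w')) ∧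
      (∀ w w' : ℤ, w ≤ 0 → 0 ≤ w' →
        T ω (pt s 0 0) (pt s 0 w') + c / 4 * (-w) - Q ≤ T ω (pt s 0 w) (pt s 0 w')) := by
  obtain ⟨Q₀, hQ₀⟩ := hL 1 one_pos
  obtain ⟨Q₁, hQ₁⟩ := h₁ (c / 4) (by positivity)
  obtain ⟨Q₂, hQ₂⟩ := h₂ (c / 4) (by positivity)
  have low : ∀ y : ℤ, c * ((|y| : ℤ) : ℝ) - Q₀ ≤ T ω (pt s 0 0) (pt s 0 y) := by
    intro y
    have h := hQ₀ (pt s 0 0) (pt s 0 y)
    have e0 : pt s 0 0 = (0, 0) := by simp [pt, s.c0]
    have e1 : nrm (pt s 0 0) = 0 := by rw [e0]; simp [nrm]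
    have e2 : |y| ≤ nrm (pt s 0 y - pt s 0 0) := by
      rw [e0]
      simp only [nrm, Prod.snd_sub, pt_snd, sub_zero]
      linarith [abs_nonneg (pt s 0 y - (0, 0)).1]
    have e3 : ((|y| : ℤ) : ℝ) ≤ (nrm (pt s 0 y - pt s 0 0) : ℝ) := by exact_mod_cast e2
    rw [e1] at h
    have := mul_le_mul_of_nonneg_left e3 hc.le
    simp only [Int.cast_zero, mul_zero, sub_zero] at h
    linarith
  have sp : ∀ H : Set V, (H = HGe s 0 ∨ H = HLe s 0) → ∀ a u b : ℤ, a ≤ u → u ≤ b →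
      T ω (pt s 0 a) (pt s 0 u) - c / 4 * ((|a| + |u| : ℤ) : ℝ) - max Q₁ Q₂ +
        T ω (pt s 0 u) (pt s 0 b) ≤ TS ω H (pt s 0 a) (pt s 0 b) := by
    intro H hH a u b h1 h2
    have h3 := T_le_TS ω (conn_F0 s hH u b)
    rcases hH with rfl | rfl
    · linarith [hQ₁ a u b h1 h2, le_max_left Q₁ Q₂]
    · linarith [hQ₂ a u b h1 h2, le_max_right Q₁ Q₂]
  refine ⟨Q₀ + max Q₁ Q₂, fun u w' h1 h2 => le_T ω fun p _ => ?_,
    fun w w' h1 h2 => le_T ω fun p _ => ?_⟩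
  · obtain ⟨a, b, H, h3, h4, hH, h5⟩ := straddle s ω h1 h2 p
    have h6 := sp H hH a u b h3 h4
    have h7 := low a
    have h8 := low u
    have h9 := T_tri ω (pt s 0 0) (pt s 0 a) (pt s 0 u)
    have h10 := T_tri ω (pt s 0 u) (pt s 0 b) (pt s 0 w')
    have h11 := T_nonneg ω (pt s 0 a) (pt s 0 u)
    rw [abs_of_nonneg h1] at h6 h8
    push_cast at h6 h7 h8
    have h12 : 0 ≤ c * |(a : ℝ)| := by positivity
    linarith
  · obtain ⟨a, b, H, h3, h4, hH, h5⟩ := straddle s ω h1 h2 p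
    have h6 := sp H hH a 0 b h3 h4
    have h7 := low a
    have h8 := low w
    have h9 := T_tri ω (pt s 0 w) (pt s 0 a) (pt s 0 0)
    have h10 := T_tri ω (pt s 0 0) (pt s 0 b) (pt s 0 w')
    have h11 := T_nonneg ω (pt s 0 w) (pt s 0 a)
    rw [T_comm] at h7 h8
    rw [abs_of_nonpos h1] at h8
    push_cast at h6 h7 h8
    have h12 : 0 ≤ c * |(a : ℝ)| := by positivity
    have h13 : (w : ℝ) ≤ 0 := by exact_mod_cast h1
    have h14 : 0 ≤ c * -(w : ℝ) := mul_nonneg hc.le (by linarith)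
    simp only [abs_zero, add_zero] at h6
    linarith

end P158
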