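import Vale.Agent.P158.Basic

open scoped NNReal ENNReal
open MeasureTheory Filter Topology

namespace P158

/-! A sequence moving by king steps cannot jump over the boundary of a rectangle. -/

theorem hit_RB_out {f : ℕ → V}
    (step : ∀ i, |(f (i + 1)).1 - (f i).1| ≤ 1 ∧ |(f (i + 1)).2 - (f i).2| ≤ 1)
    {x₁ x₂ y₁ y₂ : ℤ} {i j : ℕ} (hij : i ≤ j)
    (hi : x₁ < (f i).1 ∧ (f i).1 < x₂ ∧ y₁ < (f i).2 ∧ (f i).2 < y₂)
    (hj : ¬ (x₁ < (f j).1 ∧ (f j).1 < x₂ ∧ y₁ < (f j).2 ∧ (f j).2 < y₂)) :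
    ∃ k, i ≤ k ∧ k ≤ j ∧ f k ∈ RB x₁ x₂ y₁ y₂ := by
  induction j, hij using Nat.le_induction with
  | base => exact absurd hi hj
  | succ j hij ih =>
    by_cases hc : x₁ < (f j).1 ∧ (f j).1 < x₂ ∧ y₁ < (f j).2 ∧ (f j).2 < y₂
    · refine ⟨j + 1, by omega, le_rfl, ?_⟩
      have h1 := abs_le.1 (step j).1
      have h2 := abs_le.1 (step j).2
      simp only [RB, Set.mem_ofPred_eq]
      omega
    · obtain ⟨k, a, b, c⟩ := ih hc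
      exact ⟨k, a, by omega, c⟩

theorem hit_RB_in {f : ℕ → V}
    (step : ∀ i, |(f (i + 1)).1 - (f i).1| ≤ 1 ∧ |(f (i + 1)).2 - (f i).2| ≤ 1)
    {x₁ x₂ y₁ y₂ : ℤ} {i j : ℕ} (hij : i ≤ j)
    (hi : ¬ (x₁ < (f i).1 ∧ (f i).1 < x₂ ∧ y₁ < (f i).2 ∧ (f i).2 < y₂))
    (hj : x₁ < (f j).1 ∧ (f j).1 < x₂ ∧ y₁ < (f j).2 ∧ (f j).2 < y₂) :
    ∃ k, i ≤ k ∧ k ≤ j ∧ f k ∈ RB x₁ x₂ y₁ y₂ := by
  induction j, hij using Nat.le_induction with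
  | base => exact absurd hj hi
  | succ j hij ih =>
    by_cases hc : x₁ < (f j).1 ∧ (f j).1 < x₂ ∧ y₁ < (f j).2 ∧ (f j).2 < y₂
    · obtain ⟨k, a, b, c⟩ := ih hc
      exact ⟨k, a, by omega, c⟩
    · refine ⟨j, hij, by omega, ?_⟩
      have h1 := abs_le.1 (step j).1
      have h2 := abs_le.1 (step j).2
      simp only [RB, Set.mem_ofPred_eq]
      omega

/-- An injective king-step sequence eventually leaves the rectangle through its boundary. -/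
theorem hit_RB_inj {f : ℕ → V} (inj : Function.Injective f)
    (step : ∀ i, |(f (i + 1)).1 - (f i).1| ≤ 1 ∧ |(f (i + 1)).2 - (f i).2| ≤ 1)
    {x₁ x₂ y₁ y₂ : ℤ} {i : ℕ}
    (hi : x₁ < (f i).1 ∧ (f i).1 < x₂ ∧ y₁ < (f i).2 ∧ (f i).2 < y₂) :
    ∃ k, i ≤ k ∧ f k ∈ RB x₁ x₂ y₁ y₂ := by
  have hex : ∃ j, i ≤ j ∧ ¬ (x₁ < (f j).1 ∧ (f j).1 < x₂ ∧ y₁ < (f j).2 ∧ (f j).2 < y₂) := by
    by_contra hc
    push Not at hc
    have hfin : ((Set.Ioo x₁ x₂) ×ˢ (Set.Ioo y₁ y₂)).Finite :=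
      (Set.finite_Ioo _ _).prod (Set.finite_Ioo _ _)
    refine Set.infinite_of_injective_forall_mem (f := fun n : ℕ => f (i + n)) ?_ ?_ hfin
    · intro a b hab
      have := inj hab
      omega
    · intro n
      have := hc (i + n) (by omega)
      exact ⟨⟨this.1, this.2.1⟩, this.2.2.1, this.2.2.2⟩
  obtain ⟨j, hij, hj⟩ := hex
  obtain ⟨k, a, -, c⟩ := hit_RB_out step hij hi hj
  exact ⟨k, a, c⟩

end P158
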