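import Vale.Agent.P158.F0
import Vale.Agent.P158.King

open scoped NNReal ENNReal
open MeasureTheory Filter Topology

namespace P158

/-! Cone avoidance. -/

theorem ev_F1 {f : ℕ → V} (hf : Function.Injective f) {a : ℝ} (ha : 0 < a) (B : ℝ) :
    ∀ᶠ i in atTop, B < a * (nrm (f i) : ℝ) :=
  ((tendsto_intCast_atTop_atTop.comp (tendsto_nrm hf)).const_mul_atTop ha).eventually_gt_atTop B

theorem king_F1 {ω : Env} {f : ℕ → V} (h : Ray ω f) (i : ℕ) :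
    |(f (i + 1)).1 - (f i).1| ≤ 1 ∧ |(f (i + 1)).2 - (f i).2| ≤ 1 :=
  ⟨fst_adj (h.adj i).symm, snd_adj (h.adj i).symm⟩

theorem rect_F1 {ω : Env} {C δ : ℝ} {Q : ℕ} (h : LoopP C δ Q ω) {f g : ℕ → V}
    (hf : Function.Injective f) (hg : Function.Injective g)
    (sf : ∀ i, |(f (i + 1)).1 - (f i).1| ≤ 1 ∧ |(f (i + 1)).2 - (f i).2| ≤ 1)
    (sg : ∀ i, |(g (i + 1)).1 - (g i).1| ≤ 1 ∧ |(g (i + 1)).2 - (g i).2| ≤ 1) (i j : ℕ) {n : ℕ}
    (hn : δ * (nrm (f i) : ℝ) + Q ≤ n) (hj : (nrm (f i - g j) : ℝ) ≤ n) :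
    ∃ k k', i ≤ k ∧ j ≤ k' ∧ T ω (f k) (g k') ≤ C * n := by
  obtain ⟨x₁, x₂, y₁, y₂, -, a1, a2, -, -, a3, a4, -, H⟩ := h (f i) n hn
  have h1 : nrm (f i - g j) ≤ n := by exact_mod_cast hj
  simp only [nrm, Prod.fst_sub, Prod.snd_sub] at h1
  have b1 := abs_nonneg ((f i).1 - (g j).1)
  have b2 := abs_nonneg ((f i).2 - (g j).2)
  have b3 := abs_le.1 (show |(f i).1 - (g j).1| ≤ n by omega)
  have b4 := abs_le.1 (show |(f i).2 - (g j).2| ≤ n by omega)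
  obtain ⟨k, hk, h2⟩ := hit_RB_inj hf sf (x₁ := x₁) (x₂ := x₂) (y₁ := y₁) (y₂ := y₂) (i := i)
    (by omega)
  obtain ⟨k', hk', h3⟩ := hit_RB_inj hg sg (x₁ := x₁) (x₂ := x₂) (y₁ := y₁) (y₂ := y₂) (i := j)
    (by omega)
  exact ⟨k, k', hk, hk', H _ h2 _ h3⟩

theorem near_F1 (s : Stair) (x : V) (t a : ℝ)
    (h : |(x.1 : ℝ) - t * s.p| + |(x.2 : ℝ) - t * s.q| ≤ a) :
    (nrm (x - pt s 0 x.2) : ℝ) ≤ a + 2 * s.q ∧ (nrm x : ℝ) ≤ 2 * |t * s.q| + a := by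
  have hq : (0 : ℝ) < s.q := by exact_mod_cast s.hq
  have h1 : |(s.q : ℝ) * s.c x.2 - s.p * x.2| ≤ 2 * s.q * s.q := by exact_mod_cast c_line s x.2
  have h2 : |(s.p : ℝ)| ≤ s.q := by exact_mod_cast p_le_q s
  constructor
  · have e : (nrm (x - pt s 0 x.2) : ℝ) = |(x.1 : ℝ) - s.c x.2| := by simp [nrm, pt]
    rw [e]
    refine le_of_mul_le_mul_left ?_ hq
    have e2 : (s.q : ℝ) * ((x.1 : ℝ) - s.c x.2) = s.q * (x.1 - t * s.p) - s.p * (x.2 - t * s.q) -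
        (s.q * s.c x.2 - s.p * x.2) := by ring
    have h3 := abs_sub ((s.q : ℝ) * (x.1 - t * s.p) - s.p * (x.2 - t * s.q))
      (s.q * s.c x.2 - s.p * x.2)
    have h4 := abs_sub ((s.q : ℝ) * (x.1 - t * s.p)) (s.p * (x.2 - t * s.q))
    rw [← e2, abs_mul, abs_of_pos hq] at h3
    rw [abs_mul, abs_mul, abs_of_pos hq] at h4
    have h5 := mul_le_mul_of_nonneg_right h2 (abs_nonneg ((x.2 : ℝ) - t * s.q))
    have h6 := mul_le_mul_of_nonneg_left h hq.le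
    linarith
  · have e : (nrm x : ℝ) = |(x.1 : ℝ)| + |(x.2 : ℝ)| := by simp [nrm]
    have h3 := abs_sub_abs_le_abs_sub (x.1 : ℝ) (t * s.p)
    have h4 := abs_sub_abs_le_abs_sub (x.2 : ℝ) (t * s.q)
    have h5 : |t * s.p| ≤ |t * s.q| := by
      rw [abs_mul, abs_mul, abs_of_pos hq]; gcongr
    linarith

theorem far_F1 {s : Stair} {r : ℕ → V} (hr : Function.Injective r)
    (h : ∃ᶠ j in atTop, X s (r j) = 0 ∧ 0 < (r j).2) (k : ℕ) (N : ℤ) :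
    ∃ j w, k ≤ j ∧ 0 ≤ w ∧ N ≤ w ∧ r j = pt s 0 w := by
  obtain ⟨j, ⟨h1, h2⟩, h3, h4⟩ := (h.and_eventually ((eventually_ge_atTop k).and
    (eventually_notMem hr ((Set.finite_Icc 0 N).image (pt s 0))))).exists
  have e := eq_pt s (r j)
  rw [h1] at e
  refine ⟨j, _, h3, h2.le, ?_, e⟩
  by_contra h5
  exact h4 ⟨_, ⟨h2.le, (not_le.1 h5).le⟩, e.symm⟩

theorem col_F1 (s : Stair) (u a : ℤ) (ha : |a| = 1) :
    (Function.Injective fun i : ℕ => pt s 0 (u + a * i)) ∧ ∀ i : ℕ,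
      |(pt s 0 (u + a * (i + 1 : ℕ))).1 - (pt s 0 (u + a * i)).1| ≤ 1 ∧
      |(pt s 0 (u + a * (i + 1 : ℕ))).2 - (pt s 0 (u + a * i)).2| ≤ 1 := by
  constructor
  · intro i j h
    have h1 : u + a * i = u + a * j := congrArg Prod.snd h
    have h2 : a ≠ 0 := by rintro rfl; simp at ha
    exact_mod_cast mul_left_cancel₀ h2 (add_left_cancel h1)
  · intro i
    have e : u + a * (i + 1 : ℕ) - (u + a * i) = a := by push_cast; ring
    have := c_lip s (u + a * (i + 1 : ℕ)) (u + a * i)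
    rw [e, ha] at this
    simp only [pt, zero_add]
    exact ⟨this, by rw [e, ha]⟩

theorem f1 {c C : ℝ} (hc : 0 < c) (hC : 0 < C) : ∃ δ : ℝ, 0 < δ ∧ ∀ ω : Env,
    (∀ ε : ℝ, 0 < ε → ∃ Q, LowP c ε Q ω) → (∀ ε : ℝ, 0 < ε → ∃ Q, LoopP C ε Q ω) →
    (∀ s : Stair, SP s (HGe s 0) ω ∧ SP s (HLe s 0) ω) → Good δ ω := by
  have hδ : 0 < min (1 / 10) (c / (100 * C)) := by positivity
  refine ⟨_, hδ, fun ω hL hP hS l r hB => ?_⟩
  have d1 := min_le_left (1 / 10) (c / (100 * C))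
  have d2 : C * min (1 / 10) (c / (100 * C)) ≤ c / 100 := by
    refine (mul_le_mul_of_nonneg_left (min_le_right _ _) hC.le).trans (le_of_eq ?_)
    field_simp
  generalize min (1 / 10) (c / (100 * C)) = δ at hδ d1 d2
  obtain ⟨Q₀, h0⟩ := hL 1 one_pos
  obtain ⟨Q, hQ⟩ := hP δ hδ
  have low : ∀ {f : ℕ → V}, Ray ω f → f 0 = (0, 0) → ∀ i k, i ≤ k →
      c * (nrm (f i) : ℝ) - Q₀ ≤ W ω f k := fun {f} hf f0 i k hik => by
    have h1 := h0 (f 0) (f i)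
    rw [hf.geo 0 i (Nat.zero_le _), W_zero, f0] at h1
    have e1 : f i - (0, 0) = f i := sub_zero _
    have e2 : nrm (0, 0) = 0 := rfl
    rw [e1, e2] at h1
    have := W_mono ω f hik
    push_cast at h1
    linarith
  have W0 : ∀ (f : ℕ → V) k, 0 ≤ W ω f k := fun f k => W_zero ω f ▸ W_mono ω f (Nat.zero_le k)
  have nb : ∀ x : V, 0 < δ * (nrm x : ℝ) → 2 * (δ * (nrm x : ℝ)) ≤ ⌈2 * (δ * (nrm x : ℝ))⌉₊ ∧
      C * ⌈2 * (δ * (nrm x : ℝ))⌉₊ ≤ c / 50 * nrm x + C := fun x hx => by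
    refine ⟨Nat.le_ceil _, ?_⟩
    have h1 := (Nat.ceil_lt_add_one (show 0 ≤ 2 * (δ * (nrm x : ℝ)) by linarith)).le
    have h2 := mul_le_mul_of_nonneg_left h1 hC.le
    have h3 := mul_le_mul_of_nonneg_right d2 ((mul_pos_iff_of_pos_left hδ).1 hx).le
    linarith
  have p0 : ∀ s : Stair, pt s 0 0 = (0, 0) := fun s => by simp [pt, s.c0]
  have q0 : (0 : ℝ) ≤ Q := Nat.cast_nonneg _
  refine ⟨?_, fun s hs => ?_⟩
  · filter_upwards [ev_F1 hB.hr.inj hδ Q, ev_F1 hB.hr.inj (half_pos hc) (Q₀ + C)] with i h1 h2 j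
    by_contra h3
    obtain ⟨n1, n2⟩ := nb (r i) (by linarith)
    obtain ⟨k, k', hk, -, h4⟩ := rect_F1 hQ hB.hr.inj hB.hl.inj (king_F1 hB.hr) (king_F1 hB.hl) i j
      (n := ⌈2 * (δ * (nrm (r i) : ℝ))⌉₊) (by linarith) (by linarith)
    rw [T_comm, hB.add] at h4
    have : (0 : ℝ) ≤ Q₀ := Nat.cast_nonneg _
    linarith [low hB.hr hB.r0 i k hk, W0 l k']
  obtain ⟨Q₁, g1, g2⟩ := f0 hc hL (hS s).1 (hS s).2
  have hq : (0 : ℝ) < s.q := by exact_mod_cast s.hq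
  constructor
  · filter_upwards [ev_F1 hB.hl.inj hδ (Q + 2 * s.q),
      ev_F1 hB.hl.inj (half_pos hc) (Q₀ + C + |Q₁|)] with i h1 h2 t ht
    by_contra h3
    have h3' : |((l i).1 : ℝ) - t * s.p| + |((l i).2 : ℝ) - t * s.q| ≤ δ * nrm (l i) := by
      simpa using h3
    obtain ⟨m1, m2⟩ := near_F1 s (l i) t _ h3'
    obtain ⟨n1, n2⟩ := nb (l i) (by linarith)
    obtain ⟨c1, c2⟩ := col_F1 s (l i).2 1 abs_one
    obtain ⟨k, k', hk, -, h4⟩ := rect_F1 hQ hB.hl.inj c1 (king_F1 hB.hl) c2 i 0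
      (n := ⌈2 * (δ * (nrm (l i) : ℝ))⌉₊) (by linarith) (by simp only [Nat.cast_zero, mul_zero, add_zero]; linarith)
    have hN : (0 : ℝ) < nrm (l i) := (mul_pos_iff_of_pos_left hδ).1 (by linarith)
    have hu : (0 : ℝ) ≤ (l i).2 := by
      rw [abs_of_nonneg (mul_nonneg ht hq.le)] at m2
      have := neg_abs_le (((l i).2 : ℝ) - t * s.q)
      have := abs_nonneg (((l i).1 : ℝ) - t * s.p)
      have := mul_le_mul_of_nonneg_right d1 hN.le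
      linarith
    have hu' : 0 ≤ (l i).2 + 1 * (k' : ℤ) := by
      have : 0 ≤ (l i).2 := by exact_mod_cast hu
      positivity
    obtain ⟨j, w, -, -, w2, e⟩ := far_F1 hB.hr.inj hs 0 ((l i).2 + 1 * k')
    have h5 := g1 _ w hu' w2
    have h6 := T_tri ω (l k) (pt s 0 ((l i).2 + 1 * k')) (r j)
    rw [p0, ← hB.r0, ← e, hB.hr.geo 0 j (Nat.zero_le _), W_zero] at h5
    rw [hB.add] at h6
    have h7 : (0 : ℝ) ≤ c / 4 * (((l i).2 + 1 * (k' : ℤ) : ℤ) : ℝ) :=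
      mul_nonneg (by linarith) (by exact_mod_cast hu')
    have : (0 : ℝ) ≤ Q₀ := Nat.cast_nonneg _
    linarith [low hB.hl hB.l0 i k hk, le_abs_self Q₁, abs_nonneg Q₁]
  · filter_upwards [ev_F1 hB.hr.inj hδ (Q + 2 * s.q),
      ev_F1 hB.hr.inj (show 0 < c / 50 by positivity) (C + |Q₁|)] with i h1 h2 t ht
    by_contra h3
    have h3' : |((r i).1 : ℝ) - -t * s.p| + |((r i).2 : ℝ) - -t * s.q| ≤ δ * nrm (r i) := by
      simpa using h3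
    obtain ⟨m1, m2⟩ := near_F1 s (r i) (-t) _ h3'
    obtain ⟨n1, n2⟩ := nb (r i) (by linarith)
    obtain ⟨c1, c2⟩ := col_F1 s (r i).2 (-1) (by simp)
    obtain ⟨k, k', hk, -, h4⟩ := rect_F1 hQ hB.hr.inj c1 (king_F1 hB.hr) c2 i 0
      (n := ⌈2 * (δ * (nrm (r i) : ℝ))⌉₊) (by linarith) (by simp only [Nat.cast_zero, mul_zero, add_zero]; linarith)
    have hN : (0 : ℝ) < nrm (r i) := (mul_pos_iff_of_pos_left hδ).1 (by linarith)
    have hu : ((r i).2 : ℝ) ≤ -(nrm (r i) / 4) := by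
      rw [neg_mul, abs_neg, abs_of_nonneg (mul_nonneg ht hq.le)] at m2
      have := le_abs_self (((r i).2 : ℝ) - -t * s.q)
      have := abs_nonneg (((r i).1 : ℝ) - -t * s.p)
      have := mul_le_mul_of_nonneg_right d1 hN.le
      linarith
    have hu1 : ((((r i).2 + -1 * (k' : ℤ) : ℤ)) : ℝ) ≤ -(nrm (r i) / 4) := by
      push_cast
      linarith [Nat.cast_nonneg (α := ℝ) k']
    have hu' : (r i).2 + -1 * (k' : ℤ) ≤ 0 := by
      have : ((((r i).2 + -1 * (k' : ℤ) : ℤ)) : ℝ) ≤ 0 := by linarith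
      exact_mod_cast this
    obtain ⟨j, w, hj, w1, -, e⟩ := far_F1 hB.hr.inj hs k 0
    have h5 := g2 _ w hu' w1
    have h6 := T_tri ω (pt s 0 ((r i).2 + -1 * k')) (r k) (r j)
    rw [p0, ← hB.r0, ← e, hB.hr.geo 0 j (Nat.zero_le _), W_zero] at h5
    rw [hB.hr.geo k j hj, T_comm ω _ (r k)] at h6
    have h7 := mul_le_mul_of_nonneg_left hu1 (show 0 ≤ c / 4 by linarith)
    have h8 := mul_pos hc hN
    linarith [le_abs_self Q₁, W0 r k]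

end P158
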