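import Vale.Agent.P158.FinA

open scoped NNReal ENNReal
open MeasureTheory Filter Topology

namespace P158

/-! A separated bigeodesic crosses a staircase cut inside cones, after a symmetry. -/

theorem X_FinB {p : ℤ} {q : ℕ} (hq : 0 < q) (hp : |p| ≤ q) (v : V) :
    q * v.1 - p * v.2 ≤ q * X (mkStair p q hq hp) v ∧
      q * X (mkStair p q hq hp) v < q * v.1 - p * v.2 + q := by
  have hq' : (0 : ℤ) < q := by exact_mod_cast hq
  have h1 := Int.mul_ediv_add_emod (p * v.2) q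
  have h3 := Int.emod_nonneg (p * v.2) hq'.ne'
  have h4 := Int.emod_lt_of_pos (p * v.2) hq'
  have : X (mkStair p q hq hp) v = v.1 - p * v.2 / q := rfl
  rw [this]
  constructor <;> linarith

theorem core_FinB {ω : Env} {l r : ℕ → V} (hB : Bi ω l r) {α β : ℤ} {a : ℝ} (ha : 0 < a)
    (h : ∀ᶠ i in atTop,
      a * (nrm (r i) : ℝ) ≤ ((α * (r i).1 + β * (r i).2 : ℤ) : ℝ) ∧
      ((α * (l i).1 + β * (l i).2 : ℤ) : ℝ) ≤ -(a * (nrm (l i) : ℝ))) (h0 : 0 < α) (h1 : |β| ≤ α) :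
    ∃ (p : ℤ) (q : ℕ) (hq : 0 < q) (hp : |p| ≤ q) (A : ℕ) (l' r' : ℕ → V),
      RayL (mkStair p q hq hp) A ω l' ∧ RayR (mkStair p q hq hp) A ω r' ∧ Quasi ω l' r' := by
  obtain ⟨q, rfl⟩ := Int.eq_ofNat_of_zero_le h0.le
  have hq : 0 < q := by exact_mod_cast h0
  have hp : |-β| ≤ q := by rwa [abs_neg]
  obtain ⟨A, hA⟩ := exists_nat_ge (q / a)
  rw [div_le_iff₀ ha] at hA
  obtain ⟨N, hN⟩ := eventually_atTop.1 (h.and (((tendsto_nrm hB.hl.inj).eventually_ge_atTop A).and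
    ((tendsto_nrm hB.hr.inj).eventually_ge_atTop 1)))
  have hy : ∀ v : V, ((|v.2| : ℤ) : ℝ) ≤ nrm v := fun v =>
    Int.cast_le.2 (le_add_of_nonneg_left (abs_nonneg _))
  have kl : ∀ i, N ≤ i → X (mkStair (-β) q hq hp) (l i) ≤ 0 ∧
      |(l i).2 - 0| ≤ A * |X (mkStair (-β) q hq hp) (l i) - 0| + A := fun i hi => by
    obtain ⟨⟨_, e1⟩, e2, _⟩ := hN i hi
    have e3 := (X_FinB hq hp (l i)).2
    generalize X (mkStair (-β) q hq hp) (l i) = x at e3 ⊢
    have e4 : (q : ℝ) * x < -(a * nrm (l i)) + q := by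
      refine lt_of_lt_of_le ?_ (add_le_add_left e1 _)
      exact_mod_cast (by linarith)
    have e5 : (A : ℝ) ≤ nrm (l i) := by exact_mod_cast e2
    have e6 : (0 : ℝ) < q := by exact_mod_cast hq
    have e7 : x ≤ 0 := by
      by_contra hc
      have : (0 : ℝ) ≤ x := by exact_mod_cast (not_le.1 hc).le
      nlinarith
    refine ⟨e7, ?_⟩
    rw [sub_zero, sub_zero, abs_of_nonpos e7]
    have e8 : (x : ℝ) ≤ 0 := by exact_mod_cast e7
    have e9 : ((|(l i).2| : ℤ) : ℝ) ≤ A * -x + A :=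
      le_of_mul_le_mul_left (by nlinarith [hy (l i)]) ha
    exact_mod_cast e9
  have kr : ∀ i, N ≤ i → 1 ≤ X (mkStair (-β) q hq hp) (r i) ∧
      |(r i).2 - 0| ≤ A * |X (mkStair (-β) q hq hp) (r i) - 0| + (0 : ℕ) := fun i hi => by
    obtain ⟨⟨e1, _⟩, _, e2⟩ := hN i hi
    have e3 := (X_FinB hq hp (r i)).1
    generalize X (mkStair (-β) q hq hp) (r i) = x at e3 ⊢
    have e4 : a * nrm (r i) ≤ (q : ℝ) * x := by
      refine e1.trans ?_
      exact_mod_cast (by linarith)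
    have e5 : (1 : ℝ) ≤ nrm (r i) := by exact_mod_cast e2
    have e6 : (0 : ℝ) < q := by exact_mod_cast hq
    have e7 : 0 < x := by
      by_contra hc
      have : (x : ℝ) ≤ 0 := by exact_mod_cast not_lt.1 hc
      nlinarith
    refine ⟨e7, ?_⟩
    rw [sub_zero, sub_zero, abs_of_pos e7]
    have e8 : (0 : ℝ) < x := by exact_mod_cast e7
    have e9 : ((|(r i).2| : ℤ) : ℝ) ≤ A * x + (0 : ℕ) :=
      le_of_mul_le_mul_left (by push_cast at *; nlinarith [hy (r i)]) ha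
    exact_mod_cast e9
  refine ⟨-β, q, hq, hp, A, fun k => l (k + N), fun k => r (k + N),
    ⟨hB.hl.tail N, fun i => (kl _ (by omega)).1, A, fun i => (kl _ (by omega)).2⟩,
    ⟨hB.hr.tail N, fun i => (kr _ (by omega)).1, 0, fun i => (kr _ (by omega)).2⟩,
    W ω l N + W ω r N, fun i j => ?_⟩
  rw [W_tail, W_tail, hB.add]
  linarith

theorem core2_FinB {ω : Env} {l r : ℕ → V} (hB : Bi ω l r) {α β : ℤ} {a : ℝ} (ha : 0 < a)
    (h : ∀ᶠ i in atTop,
      a * (nrm (r i) : ℝ) ≤ ((α * (r i).1 + β * (r i).2 : ℤ) : ℝ) ∧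
      ((α * (l i).1 + β * (l i).2 : ℤ) : ℝ) ≤ -(a * (nrm (l i) : ℝ))) (h0 : α ≠ 0)
    (h1 : |β| ≤ |α|) :
    ∃ (p : ℤ) (q : ℕ) (hq : 0 < q) (hp : |p| ≤ q) (A : ℕ) (l' r' : ℕ → V),
      RayL (mkStair p q hq hp) A ω l' ∧ RayR (mkStair p q hq hp) A ω r' ∧ Quasi ω l' r' := by
  rcases h0.lt_or_gt with c | c
  · refine core_FinB hB.symm (α := -α) (β := -β) ha (h.mono fun i hi => ?_) (neg_pos.2 c)
      (by rwa [abs_neg, ← abs_of_neg c])
    push_cast at hi ⊢
    constructor <;> linarith [hi.1, hi.2]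
  · exact core_FinB hB ha h c (by rwa [abs_of_pos c] at h1)
theorem finB {ω : Env} {l r : ℕ → V} (hB : Bi ω l r) {α β : ℤ} {a : ℝ} (ha : 0 < a)
    (h : ∀ᶠ i in atTop,
      a * (nrm (r i) : ℝ) ≤ ((α * (r i).1 + β * (r i).2 : ℤ) : ℝ) ∧
      ((α * (l i).1 + β * (l i).2 : ℤ) : ℝ) ≤ -(a * (nrm (l i) : ℝ))) :
    ∃ (σ : Zd ≃g Zd) (p : ℤ) (q : ℕ) (hq : 0 < q) (hp : |p| ≤ q) (A : ℕ) (l' r' : ℕ → V),
      (σ = SimpleGraph.Iso.refl ∨ σ = sw) ∧ RayL (mkStair p q hq hp) A (act σ ω) l' ∧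
      RayR (mkStair p q hq hp) A (act σ ω) r' ∧ Quasi (act σ ω) l' r' :=   by
  have h0 : α ≠ 0 ∨ β ≠ 0 := by
    by_contra hc
    push Not at hc
    obtain ⟨i, ⟨e1, _⟩, e2⟩ := (h.and ((tendsto_nrm hB.hr.inj).eventually_ge_atTop 1)).exists
    have e5 : (1 : ℝ) ≤ nrm (r i) := by exact_mod_cast e2
    rw [hc.1, hc.2] at e1
    push_cast at e1
    nlinarith
  rcases le_total |β| |α| with c | c
  · obtain ⟨p, q, hq, hp, A, l', r', e⟩ := core2_FinB
      (bi_act_FinA hB SimpleGraph.Iso.refl id (fun _ => rfl) rfl) ha h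
      (fun e => by simp [e] at c h0; exact h0 c) c
    exact ⟨_, p, q, hq, hp, A, l', r', Or.inl rfl, e⟩
  · obtain ⟨p, q, hq, hp, A, l', r', e⟩ := core2_FinB
      (bi_act_FinA hB sw (fun v => (v.2, v.1)) (fun _ => rfl) rfl) (α := β) (β := α) ha
      (h.mono fun i hi => by simpa only [nrm, add_comm] using hi)
      (fun e => by simp [e] at c h0; exact h0 c) c
    exact ⟨_, p, q, hq, hp, A, l', r', Or.inr rfl, e⟩

/-- A bigeodesic, seen from its vertex of index `0`. -/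
theorem bi_of_bigeodesic {ω : Env} {v : ℤ → V} (h : IsBigeodesic ω v) :
    Bi (act (tr (v 0)) ω) (fun i => v (-i) - v 0) (fun i => v i - v 0) :=   by
  obtain ⟨h1, h2, h3⟩ := h
  have e0 : ∀ i j, i ≤ j → ∑ k ∈ Finset.Ico i j, tau ω s(v k, v (k + 1)) = T ω (v i) (v j) :=
    fun i j e => by
      rcases e.eq_or_lt with rfl | e
      · simp
      · exact h3 i j e
  have e1 : ∀ i j k, i ≤ j → j ≤ k → T ω (v i) (v j) + T ω (v j) (v k) = T ω (v i) (v k) :=
    fun i j k a b => by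
      rw [← e0 i j a, ← e0 j k b, ← e0 i k (a.trans b), ← Finset.Ico_union_Ico_eq_Ico a b,
        Finset.sum_union (Finset.Ico_disjoint_Ico_consecutive i j k)]
  have e2 : ∀ i, T ω (v i) (v (i + 1)) = tau ω s(v i, v (i + 1)) := fun i => by
    rw [← h3 i (i + 1) (lt_add_one i), show Finset.Ico i (i + 1) = {i} by
      ext; simp only [Finset.mem_Ico, Finset.mem_singleton]; omega, Finset.sum_singleton]
  have e3 : ∀ n : ℕ, W ω (fun i => v i) n = T ω (v 0) (v n) := fun n => by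
    induction n with
    | zero => simp [W_zero]
    | succ n ih => rw [W_succ, ih, Nat.cast_succ, ← e2, e1 _ _ _ (by omega) (by omega)]
  have e4 : ∀ n : ℕ, W ω (fun i => v (-i)) n = T ω (v (-n)) (v 0) := fun n => by
    induction n with
    | zero => simp [W_zero]
    | succ n ih =>
      have := e2 (-(n + 1 : ℕ))
      rw [show -((n + 1 : ℕ) : ℤ) + 1 = -n by push_cast; ring] at this
      rw [W_succ, ih, Sym2.eq_swap, ← this, add_comm, e1 _ _ _ (by omega) (by omega)]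
  refine ⟨(Ray_act _ _ _).2 ?_, (Ray_act _ _ _).2 ?_, sub_self _, sub_self _, fun i j => ?_⟩
  · simp only [tr_apply, sub_add_cancel]
    refine ⟨fun i j e => by have := h1 e; omega, fun i => ?_, fun i j e => ?_⟩
    · have := h2 (-(i + 1 : ℕ))
      rw [show -((i + 1 : ℕ) : ℤ) + 1 = -i by push_cast; ring] at this
      exact this.symm
    · rw [e4, e4, ← e1 (-j) (-i) 0 (by omega) (by omega), T_comm]; ring
  · simp only [tr_apply, sub_add_cancel]
    refine ⟨fun i j e => by have := h1 e; omega, fun i => h2 i, fun i j e => ?_⟩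
    rw [e3, e3, ← e1 0 i j (by omega) (by omega)]; ring
  · simp only [T_act, W_act, tr_apply, sub_add_cancel]
    rw [e3, e4, e1 _ _ _ (by omega) (by omega)]

/-- There are countably many staircases. -/
instance : Countable Stair := by
  refine Function.Injective.countable
    (f := fun s : Stair => (s.p, s.q, (List.range s.q).map fun i : ℕ => s.c i)) fun s t e => ?_
  obtain ⟨e1, e⟩ := Prod.mk.inj e
  obtain ⟨e2, e3⟩ := Prod.mk.inj e
  rw [← e2, List.map_inj_left] at e3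
  have e4 : s.c = t.c := funext fun y => by
    have hq : (0 : ℤ) < s.q := by exact_mod_cast s.hq
    have h1 := Int.emod_add_ediv_mul y s.q
    have h3 := Int.emod_nonneg y hq.ne'
    have h4 := Int.emod_lt_of_pos y hq
    obtain ⟨m, hm⟩ := Int.eq_ofNat_of_zero_le h3
    rw [← h1, c_per, e1, hm, e3 m (List.mem_range.2 (by omega)), ← c_per, e2]
  obtain ⟨c, p, q, _⟩ := s
  obtain ⟨c', p', q', _⟩ := t
  simp only at e1 e2 e4
  subst e1 e2 e4
  rfl

end P158
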