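import Vale.Agent.P158.Basic

open scoped NNReal ENNReal
open MeasureTheory Filter Topology

namespace P158

/-! Plane geometry: the two ends are strictly separated by a rational line. -/

def nnGeo (w : ℝ × ℝ) : ℝ := |w.1| + |w.2|
def detGeo (u v : ℝ × ℝ) : ℝ := u.1 * v.2 - u.2 * v.1
def cvGeo (v : V) : ℝ × ℝ := (v.1, v.2)
def coneGeo (B : Set (ℝ × ℝ)) : Set (ℝ × ℝ) := {x | ∃ b ∈ B, ∃ t : ℝ, 0 ≤ t ∧ x = t • b}
noncomputable def dirGeo (g : ℕ → V) (i : ℕ) : ℝ × ℝ := ((nrm (g i) : ℝ))⁻¹ • cvGeo (g i)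
def limGeo (g : ℕ → V) : Set (ℝ × ℝ) := {u | MapClusterPt u atTop (dirGeo g)}

/-- The crossing property of the two cones. -/
def HGeo (C C' : Set (ℝ × ℝ)) : Prop :=
  ∀ u ∈ C, ∀ v ∈ C, ∀ z w, w ≠ 0 → detGeo z u < 0 → 0 < detGeo z v → detGeo w u ≤ 0 →
    0 ≤ detGeo w v → (w ∈ C ∧ w ∉ C' ∧ -w ∉ C) ∨ (-w ∈ C ∧ -w ∉ C' ∧ w ∉ C)

@[fun_prop] theorem cont_nnGeo : Continuous nnGeo := by unfold nnGeo; fun_prop

theorem nn_smul_geo {t : ℝ} (ht : 0 ≤ t) (w : ℝ × ℝ) : nnGeo (t • w) = t * nnGeo w := by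
  simp [nnGeo, abs_mul, abs_of_nonneg ht, mul_add]

theorem nn_pos_geo {w : ℝ × ℝ} (h : w ≠ 0) : 0 < nnGeo w := by
  by_contra! h1
  unfold nnGeo at h1
  exact h (Prod.ext (abs_nonpos_iff.1 (by linarith [abs_nonneg w.2]))
    (abs_nonpos_iff.1 (by linarith [abs_nonneg w.1])))

theorem nn_cv_geo (v : V) : nnGeo (cvGeo v) = nrm v := by simp [nnGeo, cvGeo, nrm]

theorem sub_cone_geo {B : Set (ℝ × ℝ)} {b : ℝ × ℝ} (h : b ∈ B) : b ∈ coneGeo B :=
  ⟨b, h, 1, zero_le_one, (one_smul _ _).symm⟩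

theorem smul_cone_geo {B : Set (ℝ × ℝ)} {x : ℝ × ℝ} (h : x ∈ coneGeo B) {t : ℝ} (ht : 0 ≤ t) :
    t • x ∈ coneGeo B := by
  obtain ⟨b, hb, s, hs, rfl⟩ := h
  exact ⟨b, hb, t * s, mul_nonneg ht hs, smul_smul _ _ _⟩

theorem closed_cone_geo {B : Set (ℝ × ℝ)} (hB : IsCompact B) (h0 : (0 : ℝ × ℝ) ∉ B) :
    IsClosed (coneGeo B) := by
  have := isCompact_iff_compactSpace.1 hB
  have h : IsClosed {p : (ℝ × ℝ) × B | nnGeo p.2 • p.1 = nnGeo p.1 • (p.2 : ℝ × ℝ)} :=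
    isClosed_eq (by fun_prop) (by fun_prop)
  convert isClosedMap_fst_of_compactSpace _ h using 1
  ext x
  constructor
  · rintro ⟨b, hb, t, ht, rfl⟩
    exact ⟨(t • b, ⟨b, hb⟩), by simp [nn_smul_geo ht, smul_smul, mul_comm], rfl⟩
  · rintro ⟨⟨x, b, hb⟩, e, rfl⟩
    have hp := nn_pos_geo (w := b) fun h => h0 (h ▸ hb)
    refine ⟨b, hb, nnGeo x / nnGeo b, div_nonneg (by unfold nnGeo; positivity) hp.le, ?_⟩
    have e' : nnGeo b • x = nnGeo x • b := e
    rw [div_eq_inv_mul, ← smul_smul, ← e', inv_smul_smul₀ hp.ne']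

theorem par_geo {u v : ℝ × ℝ} (hu : u ≠ 0) (h : detGeo u v = 0) : ∃ c : ℝ, v = c • u := by
  unfold detGeo at h
  by_cases h1 : u.1 = 0
  · have h2 : u.2 ≠ 0 := fun h2 => hu (Prod.ext h1 h2)
    refine ⟨v.2 / u.2, Prod.ext ?_ (by simp [h2])⟩
    rw [h1] at h
    simpa [h1, h2] using h
  · refine ⟨v.1 / u.1, Prod.ext (by simp [h1]) ?_⟩
    simp only [Prod.smul_snd, smul_eq_mul]
    field_simp
    linarith

theorem HGeo.neg {C C' : Set (ℝ × ℝ)} (H : HGeo C C') {u : ℝ × ℝ} (hu : u ∈ C) (h0 : u ≠ 0) :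
    -u ∉ C := fun h => by
  have hp : 0 < u.1 * u.1 + u.2 * u.2 := by
    by_contra! h1
    exact h0 (Prod.ext (mul_self_eq_zero.1 (by nlinarith [mul_self_nonneg u.1, mul_self_nonneg u.2]))
      (mul_self_eq_zero.1 (by nlinarith [mul_self_nonneg u.1, mul_self_nonneg u.2])))
  rcases H u hu (-u) h (-u.2, u.1) u h0 (by simp [detGeo]; linarith) (by simp [detGeo]; linarith)
    (by simp [detGeo, mul_comm]) (by simp [detGeo, mul_comm]) with g | g
  · exact g.2.2 h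
  · exact g.2.2 hu

theorem HGeo.par {B C' : Set (ℝ × ℝ)} (H : HGeo (coneGeo B) C') {u v : ℝ × ℝ} (hu : u ∈ coneGeo B)
    (hv : v ∈ coneGeo B) (h0 : u ≠ 0) (h : detGeo u v = 0) : ∃ c : ℝ, 0 ≤ c ∧ v = c • u := by
  obtain ⟨c, rfl⟩ := par_geo h0 h
  refine ⟨c, ?_, rfl⟩
  by_contra! hc
  have := smul_cone_geo hv (t := -c⁻¹) (by simpa using hc.le)
  rw [neg_smul, inv_smul_smul₀ hc.ne] at this
  exact H.neg hu h0 this

theorem HGeo.add_pos {C C' : Set (ℝ × ℝ)} (H : HGeo C C') (hC : IsClosed C) {u v : ℝ × ℝ}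
    (hu : u ∈ C) (hv : v ∈ C) (h : 0 < detGeo u v) : segment ℝ u v ⊆ C := by
  have k : ∀ w ∈ segment ℝ u v, w ≠ 0 ∧ detGeo w u ≤ 0 ∧ 0 ≤ detGeo w v := by
    rintro _ ⟨a, b, ha, hb, hab, rfl⟩
    have e1 : detGeo (a • u + b • v) u = -(b * detGeo u v) := by simp [detGeo]; ring
    have e2 : detGeo (a • u + b • v) v = a * detGeo u v := by simp [detGeo]; ring
    refine ⟨fun h0 => ?_, by rw [e1]; simpa using mul_nonneg hb h.le, by rw [e2]; positivity⟩
    rw [h0] at e1 e2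
    simp only [detGeo, Prod.fst_zero, Prod.snd_zero, zero_mul, sub_zero] at e1 e2 h
    nlinarith
  refine (isPreconnected_iff_subset_of_disjoint_closed.1 (convex_segment u v).isPreconnected C (-C)
    hC hC.neg (fun w hw => ?_) ?_).elim id fun g =>
      absurd (g (left_mem_segment ℝ u v)) (H.neg hu (k _ (left_mem_segment ℝ u v)).1)
  · rcases H u hu v hv (u + v) w (k w hw).1 (by simp [detGeo] at h ⊢; linarith)
      (by simp [detGeo] at h ⊢; linarith) (k w hw).2.1 (k w hw).2.2 with g | g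
    · exact Or.inl g.1
    · exact Or.inr g.1
  · exact Set.eq_empty_of_forall_notMem fun w hw => H.neg hw.2.1 (k w hw.1).1 hw.2.2

theorem HGeo.add {B C' : Set (ℝ × ℝ)} (H : HGeo (coneGeo B) C') (hC : IsClosed (coneGeo B))
    {u v : ℝ × ℝ} (hu : u ∈ coneGeo B) (hv : v ∈ coneGeo B) : u + v ∈ coneGeo B := by
  have key : ∀ u v, u ∈ coneGeo B → v ∈ coneGeo B → 0 < detGeo u v → u + v ∈ coneGeo B := by
    intro u v hu hv h
    have := smul_cone_geo (H.add_pos hC hu hv h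
      ⟨1 / 2, 1 / 2, by norm_num, by norm_num, by norm_num, rfl⟩) (t := 2) zero_le_two
    simpa [smul_smul] using this
  rcases lt_trichotomy 0 (detGeo u v) with h | h | h
  · exact key u v hu hv h
  · by_cases h0 : u = 0
    · simpa [h0] using hv
    obtain ⟨c, hc, rfl⟩ := H.par hu hv h0 h.symm
    simpa [add_smul] using smul_cone_geo hu (t := 1 + c) (by linarith)
  · rw [add_comm]
    exact key v u hv hu (by simp [detGeo] at h ⊢; linarith)

theorem HGeo.single {B C' : Set (ℝ × ℝ)} (H : HGeo (coneGeo B) C') {u v : ℝ × ℝ}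
    (hu : u ∈ coneGeo B) (hu' : u ∈ C') (h0 : u ≠ 0) (hv : v ∈ coneGeo B) :
    ∃ c : ℝ, 0 ≤ c ∧ v = c • u := by
  refine H.par hu hv h0 ?_
  rcases lt_trichotomy 0 (detGeo u v) with h | h | h
  · rcases H u hu v hv (u + v) u h0 (by simp [detGeo] at h ⊢; linarith)
      (by simp [detGeo] at h ⊢; linarith) (by simp [detGeo, mul_comm]) h.le with g | g
    · exact absurd hu' g.2.1
    · exact absurd hu g.2.2
  · exact h.symm
  · rcases H v hv u hu (u + v) u h0 (by simp [detGeo] at h ⊢; linarith)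
      (by simp [detGeo] at h ⊢; linarith) h.le (by simp [detGeo, mul_comm]) with g | g
    · exact absurd hu' g.2.1
    · exact absurd hu g.2.2

/-- A closed pointed convex cone has a functional which is positive on a compact base. -/
theorem pos_geo {S C : Set (ℝ × ℝ)} (hS : IsCompact S) (hC : IsClosed C) (hc : Convex ℝ C)
    (h0 : (0 : ℝ × ℝ) ∈ C) (hm : ∀ x ∈ C, ∀ t : ℝ, 0 ≤ t → t • x ∈ C) (hSC : S ⊆ C)
    (hp : ∀ x ∈ S, -x ∉ C) : ∃ α β : ℝ, ∀ x ∈ S, 0 < α * x.1 + β * x.2 := by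
  have key : ∀ x ∈ S, ∃ f : StrongDual ℝ (ℝ × ℝ), 0 < f x ∧ ∀ y ∈ C, 0 ≤ f y := by
    intro x hx
    obtain ⟨f, u, h1, h2⟩ := geometric_hahn_banach_point_closed hc hC (hp x hx)
    have h3 : u < 0 := by simpa using h2 0 h0
    refine ⟨f, by rw [map_neg] at h1; linarith, fun y hy => ?_⟩
    by_contra! h4
    have := h2 _ (hm y hy (u / f y) (div_nonneg_of_nonpos h3.le h4.le))
    simp [h4.ne] at this
  choose! f hf using key
  obtain ⟨t, ht, hU⟩ := hS.elim_nhds_subcover (fun x => {y | 0 < f x y}) fun x hx =>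
    (isOpen_lt continuous_const (f x).continuous).mem_nhds (hf x hx).1
  refine ⟨∑ x ∈ t, f x (1, 0), ∑ x ∈ t, f x (0, 1), fun y hy => ?_⟩
  obtain ⟨x, hx, h1⟩ := Set.mem_iUnion₂.1 (hU hy)
  rw [Finset.sum_mul, Finset.sum_mul, ← Finset.sum_add_distrib]
  have e : ∀ x, f x (1, 0) * y.1 + f x (0, 1) * y.2 = f x y := fun x => by
    rw [mul_comm _ y.1, mul_comm _ y.2, ← smul_eq_mul, ← smul_eq_mul, ← map_smul, ← map_smul,
      ← map_add]
    simp
  simp only [e]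
  exact Finset.sum_pos' (fun x hx => (hf x (ht x hx)).2 y (hSC hy)) ⟨x, hx, h1⟩

theorem sep_geo {D D' : Set (ℝ × ℝ)} (c : IsCompact D) (c' : IsCompact D') (n : D.Nonempty)
    (n' : D'.Nonempty) (z : (0 : ℝ × ℝ) ∉ D) (z' : (0 : ℝ × ℝ) ∉ D')
    (H : HGeo (coneGeo D) (coneGeo D')) (H' : HGeo (coneGeo D') (coneGeo D))
    (hd : ∀ u ∈ coneGeo D, u ∈ coneGeo D' → u = 0) :
    ∃ α β : ℝ, (∀ x ∈ D, 0 < α * x.1 + β * x.2) ∧ ∀ x ∈ D', α * x.1 + β * x.2 < 0 := by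
  have k := closed_cone_geo c z
  have k' := closed_cone_geo c' z'
  set B := (fun p : (ℝ × ℝ) × (ℝ × ℝ) × ℝ => p.2.2 • p.1 - (1 - p.2.2) • p.2.1) ''
    (D ×ˢ D' ×ˢ Set.Icc 0 1) with hB
  obtain ⟨u0, hu0⟩ := n
  obtain ⟨v0, hv0⟩ := n'
  have o : (0 : ℝ × ℝ) ∈ coneGeo D := ⟨u0, hu0, 0, le_rfl, by simp⟩
  have o' : (0 : ℝ × ℝ) ∈ coneGeo D' := ⟨v0, hv0, 0, le_rfl, by simp⟩
  have e : ∀ x, x ∈ coneGeo B ↔ ∃ a ∈ coneGeo D, ∃ b ∈ coneGeo D', x = a - b := by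
    intro x
    constructor
    · rintro ⟨_, ⟨⟨u, v, s⟩, ⟨hu, hv, hs⟩, rfl⟩, t, ht, rfl⟩
      exact ⟨_, smul_cone_geo (smul_cone_geo (sub_cone_geo hu) hs.1) ht, _,
        smul_cone_geo (smul_cone_geo (sub_cone_geo hv) (sub_nonneg.2 hs.2)) ht, smul_sub _ _ _⟩
    · rintro ⟨_, ⟨u, hu, s, hs, rfl⟩, _, ⟨v, hv, t, ht, rfl⟩, rfl⟩
      refine ⟨_, ⟨(u, v, s / (s + t)), ⟨hu, hv, by positivity,
        div_le_one_of_le₀ (by linarith) (by linarith)⟩, rfl⟩, s + t, by linarith, ?_⟩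
      rcases (add_nonneg hs ht).eq_or_lt with h | h
      · simp [show s = 0 by linarith, show t = 0 by linarith]
      · simp only [smul_sub, smul_smul]
        congr 2 <;> field_simp
        ring
  have hz : (0 : ℝ × ℝ) ∉ B := by
    rintro ⟨⟨u, v, s⟩, ⟨hu, hv, hs⟩, h⟩
    have h1 : s • u = (1 - s) • v := sub_eq_zero.1 h
    have h2 := hd _ (smul_cone_geo (sub_cone_geo hu) hs.1)
      (h1 ▸ smul_cone_geo (sub_cone_geo hv) (sub_nonneg.2 hs.2))
    have h3 : s = 0 := (smul_eq_zero.1 h2).resolve_right fun h => z (h ▸ hu)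
    rw [h2, h3, sub_zero, one_smul] at h1
    exact z' (h1 ▸ hv)
  suffices h : ∃ α β : ℝ, ∀ x ∈ D ∪ -D', 0 < α * x.1 + β * x.2 by
    obtain ⟨α, β, h⟩ := h
    refine ⟨α, β, fun x hx => h x (Or.inl hx), fun x hx => ?_⟩
    have := h (-x) (Or.inr (by simpa using hx))
    simp only [Prod.fst_neg, Prod.snd_neg] at this
    linarith
  refine pos_geo (C := coneGeo B) (c.union c'.neg)
    (closed_cone_geo ((c.prod (c'.prod isCompact_Icc)).image (by fun_prop)) hz) ?_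
    ((e 0).2 ⟨0, o, 0, o', by simp⟩) (fun x hx t ht => smul_cone_geo hx ht) ?_ ?_
  · intro x hx y hy s t hs ht _
    obtain ⟨a, ha, b, hb, rfl⟩ := (e x).1 hx
    obtain ⟨a', ha', b', hb', rfl⟩ := (e y).1 hy
    exact (e _).2 ⟨_, H.add k (smul_cone_geo ha hs) (smul_cone_geo ha' ht), _,
      H'.add k' (smul_cone_geo hb hs) (smul_cone_geo hb' ht), by module⟩
  · rintro x (hx | hx)
    · exact (e x).2 ⟨x, sub_cone_geo hx, 0, o', by simp⟩
    · exact (e x).2 ⟨0, o, -x, sub_cone_geo hx, by simp⟩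
  · intro x hx h
    obtain ⟨a, ha, b, hb, h⟩ := (e _).1 h
    rcases hx with hx | hx
    · have h1 : a + x = b := by rw [neg_eq_iff_eq_neg.1 h]; abel
      have h2 := hd _ (H.add k ha (sub_cone_geo hx)) (h1 ▸ hb)
      exact H.neg (sub_cone_geo hx) (fun h => z (h ▸ hx)) (eq_neg_of_add_eq_zero_left h2 ▸ ha)
    · have h1 : b + -x = a := by rw [h]; abel
      have h2 := hd _ ha (h1 ▸ H'.add k' hb (sub_cone_geo hx))
      rw [h2] at h1
      exact H'.neg (sub_cone_geo hx) (fun h => z' (h ▸ hx)) (eq_neg_of_add_eq_zero_left h1 ▸ hb)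

theorem sph_geo : IsCompact {u : ℝ × ℝ | nnGeo u = 1} := by
  refine (isCompact_Icc (a := ((-1, -1) : ℝ × ℝ)) (b := (1, 1))).of_isClosed_subset
    (isClosed_eq cont_nnGeo continuous_const) fun u hu => ?_
  have h : |u.1| + |u.2| = 1 := hu
  have h1 := abs_le.1 (show |u.1| ≤ 1 by linarith [abs_nonneg u.2])
  have h2 := abs_le.1 (show |u.2| ≤ 1 by linarith [abs_nonneg u.1])
  exact ⟨⟨h1.1, h2.1⟩, h1.2, h2.2⟩

theorem big_geo {g : ℕ → V} (hg : Function.Injective g) (M : ℝ) :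
    ∀ᶠ i in atTop, M < (nrm (g i) : ℝ) :=
  (tendsto_intCast_atTop_atTop.comp (tendsto_nrm hg)).eventually_gt_atTop M

theorem ev_sph_geo {g : ℕ → V} (hg : Function.Injective g) :
    ∀ᶠ i in atTop, dirGeo g i ∈ {u : ℝ × ℝ | nnGeo u = 1} :=
  (big_geo hg 0).mono fun i hi => by
    show nnGeo _ = 1
    rw [dirGeo, nn_smul_geo (inv_nonneg.2 hi.le), nn_cv_geo, inv_mul_cancel₀ hi.ne']

theorem lim_sph_geo {g : ℕ → V} (hg : Function.Injective g) {u : ℝ × ℝ} (hu : u ∈ limGeo g) :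
    nnGeo u = 1 := sph_geo.isClosed.mem_of_mapClusterPt hu (ev_sph_geo hg)

theorem lim_cpt_geo {g : ℕ → V} (hg : Function.Injective g) : IsCompact (limGeo g) :=
  sph_geo.of_isClosed_subset isClosed_setOf_clusterPt fun _ => lim_sph_geo hg

theorem lim_freq_geo {g : ℕ → V} (hg : Function.Injective g) {F : Set (ℝ × ℝ)} (hF : IsClosed F)
    (h : ∃ᶠ i in atTop, dirGeo g i ∈ F) : ∃ u ∈ limGeo g, u ∈ F := by
  obtain ⟨u, hu, h1⟩ := (sph_geo.inter_right hF).exists_mapClusterPt_of_frequently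
    ((h.and_eventually (ev_sph_geo hg)).mono fun i hi => ⟨hi.2, hi.1⟩)
  exact ⟨u, h1, hu.2⟩

theorem zero_lim_geo {g : ℕ → V} (hg : Function.Injective g) : (0 : ℝ × ℝ) ∉ limGeo g :=
  fun h => by simpa [nnGeo] using lim_sph_geo hg h

theorem dense_geo {O : Set (ℝ × ℝ)} (hO : IsOpen O) (hn : O.Nonempty) :
    ∃ (e : V) (t : ℝ), 0 < t ∧ t • cvGeo e ∈ O := by
  obtain ⟨⟨a, b⟩, h⟩ := ((Rat.denseRange_cast (𝕜 := ℝ)).prodMap
    (Rat.denseRange_cast (𝕜 := ℝ))).exists_mem_open hO hn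
  have ha : (0 : ℝ) < a.den := Nat.cast_pos.2 a.pos
  have hb : (0 : ℝ) < b.den := Nat.cast_pos.2 b.pos
  refine ⟨(a.num * b.den, b.num * a.den), ((a.den : ℝ) * b.den)⁻¹, by positivity, ?_⟩
  convert h using 1
  ext <;> simp [cvGeo, Rat.cast_def] <;> field_simp

theorem sign_geo {f : ℕ → ℤ} (h1 : ∃ᶠ i in atTop, f i < 0) (h2 : ∃ᶠ i in atTop, 0 < f i) :
    ∃ᶠ i in atTop, f i * f (i + 1) ≤ 0 := by
  intro h
  obtain ⟨N, hN⟩ := eventually_atTop.1 h
  have k : ∀ i, N ≤ i → 0 < f N * f i := by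
    intro i hi
    induction i, hi using Nat.le_induction with
    | base => exact mul_self_pos.2 fun h0 => hN N le_rfl (by simp [h0])
    | succ i hi ih =>
      have := not_le.1 (hN i hi)
      by_contra! h3
      nlinarith [mul_pos ih this, mul_nonneg_of_nonpos_of_nonpos h3 h3, mul_self_nonneg (f i)]
  obtain ⟨i, a, b⟩ := (h1.and_eventually (eventually_ge_atTop N)).exists
  obtain ⟨j, c, d⟩ := (h2.and_eventually (eventually_ge_atTop N)).exists
  nlinarith [k i b, k j d]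

theorem det_bd_geo (e : V) {x y : V} (h : Zd.Adj x y)
    (h1 : (e.1 * x.2 - e.2 * x.1) * (e.1 * y.2 - e.2 * y.1) ≤ 0) :
    |e.1 * x.2 - e.2 * x.1| ≤ nrm e := by
  have a1 : |e.1 * (x.2 - y.2)| ≤ |e.1| := by
    rw [abs_mul]; exact mul_le_of_le_one_right (abs_nonneg _) (snd_adj h)
  have a2 : |e.2 * (x.1 - y.1)| ≤ |e.2| := by
    rw [abs_mul]; exact mul_le_of_le_one_right (abs_nonneg _) (fst_adj h)
  have a3 := abs_le.1 a1
  have a4 := abs_le.1 a2
  unfold nrm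
  rw [abs_le]
  constructor <;> by_contra! h2 <;> nlinarith [abs_nonneg e.1, abs_nonneg e.2]

theorem det_dir_geo (e : V) (g : ℕ → V) (i : ℕ) : detGeo (cvGeo e) (dirGeo g i) =
    (nrm (g i) : ℝ)⁻¹ * ((e.1 * (g i).2 - e.2 * (g i).1 : ℤ) : ℝ) := by
  simp [detGeo, dirGeo, cvGeo]; ring

theorem vis_geo {g : ℕ → V} (hg : Function.Injective g) (ag : ∀ i, Zd.Adj (g i) (g (i + 1)))
    {e : V} {u v : ℝ × ℝ} (hu : u ∈ limGeo g) (hv : v ∈ limGeo g)
    (h1 : detGeo (cvGeo e) u < 0) (h2 : 0 < detGeo (cvGeo e) v) : Vis e g ∨ Vis (-e) g := by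
  have c : Continuous (detGeo (cvGeo e)) := by unfold detGeo; fun_prop
  have f1 := MapClusterPt.frequently hu ((isOpen_lt c continuous_const).mem_nhds h1)
  have f2 := MapClusterPt.frequently hv ((isOpen_lt continuous_const c).mem_nhds h2)
  have he : 1 ≤ e.1 * e.1 + e.2 * e.2 := by
    by_contra! h
    have a : e.1 = 0 := by nlinarith [mul_self_nonneg e.1, mul_self_nonneg e.2]
    have b : e.2 = 0 := by nlinarith [mul_self_nonneg e.1, mul_self_nonneg e.2]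
    simp [detGeo, cvGeo, a, b] at h1
  have := sign_geo (f := fun i => e.1 * (g i).2 - e.2 * (g i).1)
    ((f1.and_eventually (big_geo hg 0)).mono fun i hi => by
      have := hi.1
      rw [det_dir_geo] at this
      exact_mod_cast neg_of_mul_neg_right this (inv_nonneg.2 hi.2.le))
    ((f2.and_eventually (big_geo hg 0)).mono fun i hi => by
      have := hi.1
      rw [det_dir_geo] at this
      exact_mod_cast pos_of_mul_pos_right this (inv_nonneg.2 hi.2.le))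
  refine frequently_or_distrib.1 ((this.and_eventually
    ((tendsto_nrm hg).eventually_gt_atTop (2 * nrm e))).mono fun i hi => ?_)
  have b := det_bd_geo e (ag i) hi.1
  rcases lt_trichotomy 0 (e.1 * (g i).1 + e.2 * (g i).2) with h | h | h
  · exact Or.inl ⟨hi.1, h⟩
  · exfalso
    have b1 := sq_le_sq' (abs_le.1 b).1 (abs_le.1 b).2
    have b2 : (g i).1 ^ 2 + (g i).2 ^ 2 ≤ nrm e ^ 2 := by
      nlinarith [sq_nonneg (g i).1, sq_nonneg (g i).2,
        mul_le_mul_of_nonneg_right he (add_nonneg (sq_nonneg (g i).1) (sq_nonneg (g i).2))]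
    have b0 := (abs_nonneg _).trans b
    have b3 := abs_le_of_sq_le_sq' (a := (g i).1) (by nlinarith [sq_nonneg (g i).2]) b0
    have b4 := abs_le_of_sq_le_sq' (a := (g i).2) (by nlinarith [sq_nonneg (g i).1]) b0
    have : 2 * nrm e < |(g i).1| + |(g i).2| := hi.2
    linarith [abs_le.2 b3, abs_le.2 b4]
  · refine Or.inr ⟨?_, ?_⟩ <;> simp only [Prod.fst_neg, Prod.snd_neg] <;> nlinarith [hi.1]

theorem vis_mem_geo {g : ℕ → V} (hg : Function.Injective g) (ag : ∀ i, Zd.Adj (g i) (g (i + 1)))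
    {e : V} (he : cvGeo e ≠ 0) (h : Vis e g) : cvGeo e ∈ coneGeo (limGeo g) := by
  have hK := lim_cpt_geo hg
  have c : Continuous (detGeo (cvGeo e)) := by unfold detGeo; fun_prop
  have hF : IsClosed {u : ℝ × ℝ | 0 ≤ e.1 * u.1 + e.2 * u.2} :=
    isClosed_le continuous_const (by fun_prop)
  have k : ∀ ε : ℝ, 0 < ε → ∃ u ∈ limGeo g, u ∈ {u : ℝ × ℝ | 0 ≤ e.1 * u.1 + e.2 * u.2} ∩
      {u | |detGeo (cvGeo e) u| ≤ ε} := fun ε hε =>
    lim_freq_geo hg (hF.inter (isClosed_le c.abs continuous_const))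
      ((h.and_eventually ((big_geo hg 0).and (big_geo hg (nrm e / ε)))).mono fun i hi => by
        have b : |((e.1 * (g i).2 - e.2 * (g i).1 : ℤ) : ℝ)| ≤ nrm e := by
          exact_mod_cast det_bd_geo e (ag i) hi.1.1
        have b1 : (0 : ℝ) < e.1 * (g i).1 + e.2 * (g i).2 := by exact_mod_cast hi.1.2
        have b2 := inv_pos.2 hi.2.1
        constructor
        · simp only [dirGeo, cvGeo, Set.mem_ofPred_eq, Prod.smul_mk, smul_eq_mul]
          nlinarith [mul_pos b1 b2]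
        · show |_| ≤ ε
          rw [det_dir_geo, abs_mul, abs_of_pos b2, inv_mul_le_iff₀ hi.2.1]
          linarith [(div_lt_iff₀ hε).1 hi.2.2])
  obtain ⟨u, hu, h1⟩ := (hK.inter_right hF).exists_isMinOn
    (let ⟨u, a, b⟩ := k 1 one_pos; ⟨u, a, b.1⟩) c.abs.continuousOn
  have h2 : detGeo (cvGeo e) u = 0 := abs_nonpos_iff.1 (le_of_forall_pos_le_add fun ε hε => by
    obtain ⟨v, a, b⟩ := k ε hε
    exact (h1 ⟨a, b.1⟩).trans (by simpa using b.2))
  obtain ⟨t, rfl⟩ := par_geo he h2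
  have h3 : t ≠ 0 := fun h0 => zero_lim_geo hg (by simpa [h0] using hu.1)
  refine ⟨_, hu.1, t⁻¹, inv_nonneg.2 ?_, (inv_smul_smul₀ h3 _).symm⟩
  by_contra! h4
  have h5 : (0 : ℝ) ≤ e.1 * (t * e.1) + e.2 * (t * e.2) := hu.2
  exact he (Prod.ext (mul_self_eq_zero.1 (show (e.1 : ℝ) * e.1 = 0 by
      nlinarith [mul_self_nonneg (e.1 : ℝ), mul_self_nonneg (e.2 : ℝ)]))
    (mul_self_eq_zero.1 (show (e.2 : ℝ) * e.2 = 0 by
      nlinarith [mul_self_nonneg (e.1 : ℝ), mul_self_nonneg (e.2 : ℝ)])))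

theorem avoid_geo {g : ℕ → V} (hg : Function.Injective g) {δ : ℝ} {e : V} (h : Avoid δ e g)
    {u : ℝ × ℝ} (hu : u ∈ limGeo g) {t : ℝ} (ht : 0 ≤ t) : δ ≤ nnGeo (u - t • cvGeo e) := by
  refine (isClosed_le (f := fun _ => δ) (g := fun u => nnGeo (u - t • cvGeo e)) continuous_const
    (by fun_prop)).mem_of_mapClusterPt hu ((h.and (big_geo hg 0)).mono fun i hi => ?_)
  have e1 : dirGeo g i - t • cvGeo e =
      (nrm (g i) : ℝ)⁻¹ • (cvGeo (g i) - (nrm (g i) * t) • cvGeo e) := by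
    rw [smul_sub, smul_smul, inv_mul_cancel_left₀ hi.2.ne', dirGeo]
  show δ ≤ nnGeo _
  rw [e1, nn_smul_geo (inv_nonneg.2 hi.2.le), le_inv_mul_iff₀ hi.2, mul_comm]
  exact (hi.1 _ (mul_nonneg hi.2.le ht)).le

theorem H_geo {l r : ℕ → V} (il : Function.Injective l) (ir : Function.Injective r)
    (ar : ∀ i, Zd.Adj (r i) (r (i + 1))) {δ : ℝ} (hδ : 0 < δ)
    (hr : ∀ e : V, e ≠ 0 → Vis e r → Avoid δ e l ∧ Avoid δ (-e) r) :
    HGeo (coneGeo (limGeo r)) (coneGeo (limGeo l)) := by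
  rintro _ ⟨u, hu, a, ha, rfl⟩ _ ⟨v, hv, b, hb, rfl⟩ z w h0 z1 z2 w1 w2
  set G : Set (ℝ × ℝ) := coneGeo (limGeo r) ∩ ((⋂ p ∈ limGeo l, ⋂ s ∈ Set.Ici (0 : ℝ),
    {y | δ ≤ nnGeo (p - s • y)}) ∩ ⋂ p ∈ limGeo r, ⋂ s ∈ Set.Ici (0 : ℝ),
      {y | δ ≤ nnGeo (p + s • y)}) with hG
  have cG : IsClosed G := (closed_cone_geo (lim_cpt_geo ir) (zero_lim_geo ir)).inter
    (IsClosed.inter (isClosed_biInter fun _ _ => isClosed_biInter fun _ _ =>
      isClosed_le continuous_const (by fun_prop)) (isClosed_biInter fun _ _ =>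
        isClosed_biInter fun _ _ => isClosed_le continuous_const (by fun_prop)))
  have mG : ∀ (e : V) (t : ℝ), 0 < t → cvGeo e ≠ 0 → Vis e r → t • cvGeo e ∈ G := by
    intro e t ht he h
    obtain ⟨a1, a2⟩ := hr e (fun h => he (by simp [h, cvGeo])) h
    simp only [hG, Set.mem_inter_iff, Set.mem_iInter, Set.mem_ofPred_eq, smul_smul]
    refine ⟨smul_cone_geo (vis_mem_geo ir ar he h) ht.le,
      fun p hp s hs => avoid_geo il a1 hp (mul_nonneg hs ht.le), fun p hp s hs => ?_⟩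
    convert avoid_geo ir a2 hp (mul_nonneg hs ht.le) using 2
    ext <;> simp [cvGeo]
  have oG : ∀ y ∈ G, y ≠ 0 →
      y ∈ coneGeo (limGeo r) ∧ y ∉ coneGeo (limGeo l) ∧ -y ∉ coneGeo (limGeo r) := by
    intro y hy y0
    simp only [hG, Set.mem_inter_iff, Set.mem_iInter, Set.mem_ofPred_eq] at hy
    refine ⟨hy.1, ?_, ?_⟩
    · rintro ⟨p, hp, t, ht, rfl⟩
      have := hy.2.1 p hp t⁻¹ (inv_nonneg.2 ht)
      rw [inv_smul_smul₀ (left_ne_zero_of_smul y0)] at this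
      simp [nnGeo] at this
      linarith
    · rintro ⟨p, hp, t, ht, e⟩
      have := hy.2.2 p hp t⁻¹ (inv_nonneg.2 ht)
      rw [neg_eq_iff_eq_neg.1 e, smul_neg,
        inv_smul_smul₀ (left_ne_zero_of_smul (e ▸ neg_ne_zero.2 y0))] at this
      simp [nnGeo] at this
      linarith
  have key : w ∈ closure (G ∪ -G) := by
    rw [mem_closure_iff]
    intro O hO hw
    have c1 : Continuous fun y => detGeo y (a • u) := by unfold detGeo; fun_prop
    have c2 : Continuous fun y => detGeo y (b • v) := by unfold detGeo; fun_prop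
    have c3 : Continuous fun t : ℝ => w + t • z := by fun_prop
    obtain ⟨τ, t1, t2⟩ := ((eventually_nhdsWithin_of_eventually_nhds (s := Set.Ioi (0 : ℝ))
      ((c3.continuousAt (x := 0)).eventually_mem (hO.mem_nhds (by simpa using hw)))).and
        self_mem_nhdsWithin).exists
    have t3 : 0 < τ := t2
    obtain ⟨e, t, ht, e1, e2, e3⟩ := dense_geo (hO.inter ((isOpen_lt c1 (continuous_const (y := 0))).inter
      (isOpen_lt (continuous_const (y := 0)) c2))) ⟨w + τ • z, t1, by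
        simp only [detGeo, Set.mem_ofPred_eq, Prod.fst_add, Prod.snd_add, Prod.smul_fst,
          Prod.smul_snd, smul_eq_mul] at *
        nlinarith [mul_pos t3 (neg_pos.2 z1)], by
        simp only [detGeo, Set.mem_ofPred_eq, Prod.fst_add, Prod.snd_add, Prod.smul_fst,
          Prod.smul_snd, smul_eq_mul] at *
        nlinarith [mul_pos t3 z2]⟩
    have d1 : ∀ (c : ℝ) x, detGeo (t • cvGeo e) (c • x) = t * c * detGeo (cvGeo e) x :=
      fun c x => by simp [detGeo]; ring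
    simp only [Set.mem_ofPred_eq, d1] at e2 e3
    have g1 := neg_of_mul_neg_right e2 (mul_nonneg ht.le ha)
    have g2 := pos_of_mul_pos_right e3 (mul_nonneg ht.le hb)
    have he : cvGeo e ≠ 0 := fun h => by simp [h, detGeo] at g1
    have ne : cvGeo (-e) = -cvGeo e := by ext <;> simp [cvGeo]
    refine ⟨_, e1, (vis_geo ir ar hu hv g1 g2).imp (mG e t ht he) fun h => ?_⟩
    simpa [ne] using mG (-e) t ht (by simpa [ne] using he) h
  rw [(cG.union cG.neg).closure_eq] at key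
  exact key.imp (fun h => oG w h h0) fun h => by simpa using oG (-w) h (neg_ne_zero.2 h0)

theorem ivt_geo {l : ℕ → V} (il : Function.Injective l) (al : ∀ i, Zd.Adj (l i) (l (i + 1)))
    (j0 : ℕ) {N : ℤ} (hN : nrm (l j0) ≤ N) : ∃ j, j0 ≤ j ∧ nrm (l j) = N := by
  by_contra! h
  have k : ∀ j, j0 ≤ j → nrm (l j) ≤ N := by
    intro j hj
    induction j, hj using Nat.le_induction with
    | base => exact hN
    | succ j hj ih =>
      have a : |(l j).1 - (l (j + 1)).1| + |(l j).2 - (l (j + 1)).2| = 1 := al j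
      have := Int.add_one_le_iff.2 (lt_of_le_of_ne ih (h j hj))
      unfold nrm at this ⊢
      linarith [abs_sub_abs_le_abs_sub (l (j + 1)).1 (l j).1, abs_sub_comm (l (j + 1)).1 (l j).1,
        abs_sub_abs_le_abs_sub (l (j + 1)).2 (l j).2, abs_sub_comm (l (j + 1)).2 (l j).2]
  obtain ⟨j, a, b⟩ := (((tendsto_nrm il).eventually_gt_atTop N).and (eventually_ge_atTop j0)).exists
  exact (k j b).not_gt a

theorem disj_geo {l r : ℕ → V} (il : Function.Injective l) (ir : Function.Injective r)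
    (al : ∀ i, Zd.Adj (l i) (l (i + 1))) {δ : ℝ} (hδ : 0 < δ) (hA : Apart δ l r)
    (H : HGeo (coneGeo (limGeo r)) (coneGeo (limGeo l)))
    (H' : HGeo (coneGeo (limGeo l)) (coneGeo (limGeo r))) :
    ∀ u ∈ coneGeo (limGeo r), u ∈ coneGeo (limGeo l) → u = 0 := by
  intro u hu hu'
  by_contra h0
  have key : ∀ {g : ℕ → V}, Function.Injective g → (∀ v ∈ coneGeo (limGeo g), ∃ c : ℝ, 0 ≤ c ∧
      v = c • u) → Tendsto (dirGeo g) atTop (𝓝 ((nnGeo u)⁻¹ • u)) := fun hg h =>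
    sph_geo.tendsto_nhds_of_unique_mapClusterPt (ev_sph_geo hg) fun v hv hv' => by
      obtain ⟨c, hc, rfl⟩ := h v (sub_cone_geo hv')
      have : c * nnGeo u = 1 := nn_smul_geo hc u ▸ hv
      rw [eq_inv_of_mul_eq_one_left this]
  have t1 := key ir fun v => H.single hu hu' h0
  have t2 := key il fun v => H'.single hu' hu h0
  have nb : {x | nnGeo (x - (nnGeo u)⁻¹ • u) < δ / 2} ∈ 𝓝 ((nnGeo u)⁻¹ • u) :=
    (isOpen_lt (by fun_prop) continuous_const).mem_nhds (by simpa [nnGeo] using hδ)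
  obtain ⟨j0, hj0⟩ := eventually_atTop.1 (t2.eventually_mem nb)
  obtain ⟨i, ⟨⟨a1, a2⟩, a3⟩, a4⟩ := (((hA.and (t1.eventually_mem nb)).and (big_geo ir 0)).and
    ((tendsto_nrm ir).eventually_ge_atTop (nrm (l j0)))).exists
  obtain ⟨j, b1, b2⟩ := ivt_geo il al j0 a4
  have b3 := hj0 j b1
  have b4 := a1 j
  have e : cvGeo (r i - l j) = (nrm (r i) : ℝ) • (dirGeo r i - dirGeo l j) := by
    rw [dirGeo, dirGeo, b2, ← smul_sub, smul_inv_smul₀ a3.ne']
    ext <;> simp [cvGeo]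
  rw [← nn_cv_geo (r i - l j), e, nn_smul_geo a3.le, mul_comm, mul_lt_mul_iff_right₀ a3] at b4
  simp only [nnGeo, Set.mem_ofPred_eq, Prod.fst_sub, Prod.snd_sub] at a2 b3 b4
  linarith [abs_sub_le (dirGeo r i).1 ((|u.1| + |u.2|)⁻¹ • u).1 (dirGeo l j).1,
    abs_sub_le (dirGeo r i).2 ((|u.1| + |u.2|)⁻¹ • u).2 (dirGeo l j).2,
    abs_sub_comm ((|u.1| + |u.2|)⁻¹ • u).1 (dirGeo l j).1,
    abs_sub_comm ((|u.1| + |u.2|)⁻¹ • u).2 (dirGeo l j).2]

theorem ev_pos_geo {g : ℕ → V} (hg : Function.Injective g) {α β : ℝ}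
    (h : ∀ x ∈ limGeo g, 0 < α * x.1 + β * x.2) : ∃ a : ℝ, 0 < a ∧ ∀ᶠ i in atTop,
      a * (nrm (g i) : ℝ) ≤ α * (g i).1 + β * (g i).2 := by
  have c : Continuous fun x : ℝ × ℝ => α * x.1 + β * x.2 := by fun_prop
  obtain ⟨a, ha, h1⟩ := (lim_cpt_geo hg).exists_forall_le' c.continuousOn h
  refine ⟨a / 2, half_pos ha, ?_⟩
  by_contra h2
  obtain ⟨u, hu, h3⟩ := lim_freq_geo hg (isClosed_le c (continuous_const (y := a / 2)))
    (((not_eventually.1 h2).and_eventually (big_geo hg 0)).mono fun i hi => by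
      have : α * (dirGeo g i).1 + β * (dirGeo g i).2 =
          (nrm (g i) : ℝ)⁻¹ * (α * (g i).1 + β * (g i).2) := by simp [dirGeo, cvGeo]; ring
      rw [Set.mem_ofPred_eq, this, inv_mul_le_iff₀ hi.2]
      linarith [not_le.1 hi.1])
  linarith [h1 u hu, show α * u.1 + β * u.2 ≤ a / 2 from h3]

theorem geo {l r : ℕ → V} (il : Function.Injective l) (ir : Function.Injective r)
    (al : ∀ i, Zd.Adj (l i) (l (i + 1))) (ar : ∀ i, Zd.Adj (r i) (r (i + 1))) {δ : ℝ}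
    (hδ : 0 < δ) (hr : ∀ e : V, e ≠ 0 → Vis e r → Avoid δ e l ∧ Avoid δ (-e) r)
    (hl : ∀ e : V, e ≠ 0 → Vis e l → Avoid δ e r ∧ Avoid δ (-e) l) (hA : Apart δ l r) :
    ∃ (α β : ℤ) (a : ℝ), 0 < a ∧ ∀ᶠ i in atTop,
      a * (nrm (r i) : ℝ) ≤ ((α * (r i).1 + β * (r i).2 : ℤ) : ℝ) ∧
      ((α * (l i).1 + β * (l i).2 : ℤ) : ℝ) ≤ -(a * (nrm (l i) : ℝ)) := by
  have H := H_geo il ir ar hδ hr
  have H' := H_geo ir il al hδ hl
  have ne : ∀ {g : ℕ → V}, Function.Injective g → (limGeo g).Nonempty := fun hg =>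
    let ⟨u, h, _⟩ := lim_freq_geo hg isClosed_univ (.of_forall fun _ => trivial); ⟨u, h⟩
  obtain ⟨α, β, h1, h2⟩ := sep_geo (lim_cpt_geo ir) (lim_cpt_geo il) (ne ir) (ne il)
    (zero_lim_geo ir) (zero_lim_geo il) H H' (disj_geo il ir al hδ hA H H')
  obtain ⟨a, ha, h3⟩ := ev_pos_geo ir h1
  obtain ⟨b, hb, h4⟩ := ev_pos_geo il (α := -α) (β := -β) fun x hx => by linarith [h2 x hx]
  have hm := half_pos (lt_min ha hb)
  obtain ⟨e, t, ht, he⟩ := dense_geo (Metric.isOpen_ball (x := (α, β)) (ε := min a b / 2))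
    (Metric.nonempty_ball.2 hm)
  rw [← ball_prod_same] at he
  have e1 : |t * e.1 - α| < min a b / 2 := he.1
  have e2 : |t * e.2 - β| < min a b / 2 := he.2
  have k : ∀ v : V, |t * (e.1 * v.1 + e.2 * v.2) - (α * v.1 + β * v.2)| ≤ min a b / 2 * nrm v := by
    intro v
    rw [show t * (e.1 * v.1 + e.2 * v.2) - (α * v.1 + β * v.2) =
      (t * e.1 - α) * v.1 + (t * e.2 - β) * v.2 by ring, ← nn_cv_geo, nnGeo, mul_add]
    refine (abs_add_le _ _).trans ?_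
    rw [abs_mul, abs_mul]
    exact add_le_add (mul_le_mul_of_nonneg_right e1.le (abs_nonneg _))
      (mul_le_mul_of_nonneg_right e2.le (abs_nonneg _))
  refine ⟨e.1, e.2, min a b / 2 / t, by positivity, ?_⟩
  filter_upwards [h3, h4, big_geo ir 0, big_geo il 0] with i i1 i2 i3 i4
  have k1 := abs_le.1 (k (r i))
  have k2 := abs_le.1 (k (l i))
  have m1 := mul_le_mul_of_nonneg_right (min_le_left a b) i3.le
  have m2 := mul_le_mul_of_nonneg_right (min_le_right a b) i4.le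
  push_cast
  rw [le_neg, div_mul_eq_mul_div _ t, div_mul_eq_mul_div _ t, div_le_iff₀ ht, div_le_iff₀ ht]
  constructor <;> linarith [k1.1, k2.2]

end P158
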