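import Vale.Agent.P158.Meas

open scoped NNReal ENNReal
open MeasureTheory Filter Topology

namespace P158

/-! Peierls estimate for self-avoiding paths and the linear lower bound. -/

variable {G : Measure ℝ≥0}

theorem nrm_nonneg_Pei (v : V) : 0 ≤ nrm v := by unfold nrm; positivity

theorem nrm_le_length_Pei {v w : V} (p : Zd.Walk v w) : nrm (w - v) ≤ p.length := by
  induction p with
  | nil => simp [nrm]
  | @cons a b c h q ih =>
    have h' : |a.1 - b.1| + |a.2 - b.2| = 1 := h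
    simp only [nrm, Prod.fst_sub, Prod.snd_sub, SimpleGraph.Walk.length_cons, Nat.cast_add,
      Nat.cast_one] at ih ⊢
    have h1 := abs_sub_le c.1 b.1 a.1
    have h2 := abs_sub_le c.2 b.2 a.2
    rw [abs_sub_comm b.1] at h1
    rw [abs_sub_comm b.2] at h2
    omega

theorem lists_Pei (n : ℕ) : ∀ v : V, ∃ F : Finset (List E), F.card ≤ 4 ^ n ∧
    (∀ L ∈ F, L.length = n) ∧
    ∀ w (p : Zd.Walk v w), p.length = n → ∃ L ∈ F, L.map Subtype.val = p.edges := by
  classical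
  induction n with
  | zero =>
    refine fun v => ⟨{[]}, by simp, by simp, fun w p hp => ⟨[], by simp, ?_⟩⟩
    cases p with
    | nil => simp
    | cons h q => simp at hp
  | succ n ih =>
    intro v
    choose F h1 h2 h3 using ih
    let nb : Finset V := {(v.1 + 1, v.2), (v.1 - 1, v.2), (v.1, v.2 + 1), (v.1, v.2 - 1)}
    refine ⟨nb.biUnion fun w =>
      if h : Zd.Adj v w then (F w).image (List.cons ⟨s(v, w), h⟩) else ∅, ?_, ?_, ?_⟩
    · refine (Finset.card_biUnion_le_card_mul _ _ (4 ^ n) fun w _ => ?_).trans ?_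
      · split_ifs
        · exact Finset.card_image_le.trans (h1 w)
        · simp
      · rw [pow_succ, mul_comm]
        exact Nat.mul_le_mul_left _ Finset.card_le_four
    · intro L hL
      obtain ⟨w, -, hw⟩ := Finset.mem_biUnion.1 hL
      split_ifs at hw with h
      · obtain ⟨L', hL', rfl⟩ := Finset.mem_image.1 hw
        simp [h2 w L' hL']
      · simp at hw
    · intro w p hp
      cases p with
      | nil => simp at hp
      | @cons _ u _ h q =>
        obtain ⟨L, hL, e⟩ := h3 u w q (by simpa using hp)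
        refine ⟨⟨s(v, u), h⟩ :: L, Finset.mem_biUnion.2 ⟨u, ?_, ?_⟩, by simp [e]⟩
        · have h' : |v.1 - u.1| + |v.2 - u.2| = 1 := h
          obtain ⟨a, b⟩ := u
          simp only [nb, Finset.mem_insert, Finset.mem_singleton, Prod.mk.injEq]
          simp only at h'
          rcases abs_cases (v.1 - a) with h4 | h4 <;> rcases abs_cases (v.2 - b) with h5 | h5 <;>
            omega
        · rw [dif_pos h]
          exact Finset.mem_image_of_mem _ hL

open Classical in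
theorem bad_Pei (hG : Law G) {D : Set ℝ} (hD : MeasurableSet D)
    (hGD : G {t | (t : ℝ) ∉ D} ≤ 1 / 256) (v : V) (n : ℕ) :
    ∃ B : Set Env, MeasurableSet B ∧ PP G B ≤ ENNReal.ofReal ((1 / 2) ^ n) ∧
      ∀ ω ∉ B, ∀ w (p : Zd.Walk v w), p.IsPath → p.length = n →
        p.length ≤ 2 * p.edges.countP (fun e => decide (tau ω e ∈ D)) := by
  have := hG.prob
  obtain ⟨F, h1, h2, h3⟩ := lists_Pei n v
  have hm : MeasurableSet {t : ℝ≥0 | (t : ℝ) ∉ D} := (measurable_coe_nnreal_real hD).compl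
  refine ⟨⋃ L ∈ F, ⋃ S ∈ L.toFinset.powerset.filter (fun S => n ≤ 2 * S.card),
    Set.pi (S : Set E) fun _ => {t : ℝ≥0 | (t : ℝ) ∉ D}, ?_, ?_, ?_⟩
  · exact Finset.measurableSet_biUnion _ fun L _ => Finset.measurableSet_biUnion _ fun S _ =>
      MeasurableSet.pi S.countable_toSet fun _ _ => hm
  · have k1 : ∀ S : Finset E, n ≤ 2 * S.card →
        PP G (Set.pi (S : Set E) fun _ => {t : ℝ≥0 | (t : ℝ) ∉ D}) ≤ (1 / 16) ^ n := by
      intro S hS
      rw [Measure.infinitePi_pi _ fun _ _ => hm, Finset.prod_const]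
      calc _ ≤ (1 / 256 : ℝ≥0∞) ^ S.card := by gcongr
        _ = (1 / 16) ^ (2 * S.card) := by
          rw [pow_mul, one_div, one_div, ← ENNReal.inv_pow (a := 16)]; norm_num
        _ ≤ _ := pow_le_pow_of_le_one (zero_le) (by simp) hS
    calc _ ≤ ∑ L ∈ F, ∑ S ∈ L.toFinset.powerset.filter (fun S => n ≤ 2 * S.card),
          PP G (Set.pi (S : Set E) fun _ => {t : ℝ≥0 | (t : ℝ) ∉ D}) :=
          (measure_biUnion_finset_le _ _).trans
            (Finset.sum_le_sum fun L _ => measure_biUnion_finset_le _ _)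
      _ ≤ ∑ _L ∈ F, (2 : ℝ≥0∞) ^ n * (1 / 16) ^ n := by
          refine Finset.sum_le_sum fun L hL => ?_
          refine (Finset.sum_le_card_nsmul _ _ _ fun S hS => k1 S (Finset.mem_filter.1 hS).2).trans ?_
          rw [nsmul_eq_mul]
          gcongr
          have : (L.toFinset.powerset.filter (fun S => n ≤ 2 * S.card)).card ≤ 2 ^ n :=
            (Finset.card_filter_le _ _).trans (by
              rw [Finset.card_powerset]
              exact Nat.pow_le_pow_right two_pos ((List.toFinset_card_le L).trans (h2 L hL).le))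
          exact_mod_cast this
      _ ≤ (4 : ℝ≥0∞) ^ n * (2 ^ n * (1 / 16) ^ n) := by
          rw [Finset.sum_const, nsmul_eq_mul]
          gcongr
          exact_mod_cast h1
      _ = _ := by
          rw [← mul_pow, ← mul_pow, ENNReal.ofReal_pow (by norm_num)]
          congr 1
          rw [← ENNReal.toReal_eq_toReal_iff' (by finiteness) (by finiteness)]
          norm_num
  · intro ω hω w p hp hn
    by_contra hlt
    apply hω
    obtain ⟨L, hL, e⟩ := h3 w p hn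
    have hnd : L.Nodup := List.Nodup.of_map Subtype.val (e ▸ hp.isTrail.edges_nodup)
    have e1 : p.edges.countP (fun e => decide (tau ω e ∈ D)) =
        L.countP (fun e => decide ((ω e : ℝ) ∈ D)) := by
      rw [← e, List.countP_map]
      congr 1
      funext x
      simp only [Function.comp, tau_edge]
    have e2 := List.length_eq_countP_add_countP (fun e : E => decide ((ω e : ℝ) ∈ D)) (l := L)
    refine Set.mem_biUnion hL (Set.mem_biUnion
      (x := (L.filter fun e => decide ¬ (decide ((ω e : ℝ) ∈ D)) = true).toFinset) ?_ ?_)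
    · refine Finset.mem_coe.2 (Finset.mem_filter.2 ⟨Finset.mem_powerset.2 fun x hx => ?_, ?_⟩)
      · rw [List.mem_toFinset] at hx ⊢
        exact (List.mem_filter.1 hx).1
      · rw [List.toFinset_card_of_nodup (hnd.filter _), ← List.countP_eq_length_filter]
        have := h2 L hL
        omega
    · intro x hx
      simpa using (List.mem_filter.1 (List.mem_toFinset.1 hx)).2

theorem pei (hG : Law G) {D : Set ℝ} (hD : MeasurableSet D)
    (hGD : G {t | (t : ℝ) ∉ D} ≤ 1 / 256) {ε : ℝ} (hε : 0 < ε) {δ : ℝ≥0∞} (hδ : 0 < δ) :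
    ∃ (Q : ℕ) (U : Set Env), MeasurableSet U ∧ PP G Uᶜ ≤ δ ∧ ∀ ω ∈ U, PeiP D ε Q ω := by
  choose B h1 h2 h3 using bad_Pei hG hD hGD
  obtain ⟨K, hK⟩ := exists_nat_ge (1 / ε)
  let bx : ℕ → Finset V := fun n => Finset.Icc (-(K * n : ℤ)) (K * n) ×ˢ Finset.Icc (-(K * n : ℤ)) (K * n)
  let B' : ℕ → Set Env := fun n => ⋃ v ∈ bx n, B v n
  let a : ℕ → ℝ := fun n => (2 * K * n + 1) ^ 2 * (1 / 2) ^ n
  have ha : Summable a := by
    have r : ‖(1 / 2 : ℝ)‖ < 1 := by norm_num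
    refine ((((summable_pow_mul_geometric_of_norm_lt_one 2 r).mul_left (4 * (K : ℝ) ^ 2)).add
      ((summable_pow_mul_geometric_of_norm_lt_one 1 r).mul_left (4 * (K : ℝ)))).add
      (summable_geometric_of_norm_lt_one r)).congr fun n => ?_
    simp only [a]; ring
  have hB : ∀ n, PP G (B' n) ≤ ENNReal.ofReal (a n) := fun n => by
    refine (measure_biUnion_finset_le _ _).trans
      ((Finset.sum_le_card_nsmul _ _ _ fun v _ => h2 v n).trans (le_of_eq ?_))
    have e : (bx n).card = (2 * K * n + 1) ^ 2 := by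
      have : ((K * n : ℤ) + 1 - -(K * n : ℤ)).toNat = 2 * K * n + 1 := by
        rw [show (K * n : ℤ) + 1 - -(K * n : ℤ) = ((2 * K * n + 1 : ℕ) : ℤ) by push_cast; ring,
          Int.toNat_natCast]
      simp only [bx, Finset.card_product, Int.card_Icc, this, sq]
    rw [e, nsmul_eq_mul, ENNReal.ofReal_mul (by positivity), ← ENNReal.ofReal_natCast]
    push_cast
    rfl
  have ht := ENNReal.tendsto_sum_nat_add (fun n => ENNReal.ofReal (a n)) ha.tsum_ofReal_ne_top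
  obtain ⟨Q, hQ⟩ := (ht.eventually (ge_mem_nhds hδ)).exists
  refine ⟨Q, (⋃ n, B' (n + Q))ᶜ, (MeasurableSet.iUnion fun n =>
    Finset.measurableSet_biUnion _ fun v _ => h1 v _).compl, ?_, fun ω hω v w p hp hn => ?_⟩
  · rw [compl_compl]
    exact (measure_iUnion_le _).trans ((ENNReal.tsum_le_tsum fun n => hB _).trans hQ)
  · refine h3 v p.length ω (fun hb => hω ?_) w p hp rfl
    have h0 : (0 : ℝ) ≤ nrm v := by exact_mod_cast nrm_nonneg_Pei v
    have h4 : (Q : ℝ) ≤ p.length := by nlinarith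
    obtain ⟨n, hn'⟩ := Nat.exists_eq_add_of_le' (Nat.cast_le.1 h4)
    refine Set.mem_iUnion.2 ⟨n, hn' ▸ Set.mem_biUnion (x := v) ?_ hb⟩
    have h5 : (nrm v : ℝ) ≤ K * p.length := by
      have : (0 : ℝ) ≤ Q := Nat.cast_nonneg _
      have h6 : (nrm v : ℝ) ≤ 1 / ε * p.length := by
        rw [one_div, ← div_eq_inv_mul, le_div_iff₀ hε]; linarith
      exact h6.trans (by gcongr)
    have h6 : nrm v ≤ K * p.length := by exact_mod_cast h5
    unfold nrm at h6
    have := abs_nonneg v.1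
    have := abs_nonneg v.2
    simp only [bx, Finset.coe_product, Finset.coe_Icc, Set.mem_prod, Set.mem_Icc, ← abs_le]
    constructor <;> linarith

theorem whp_Pei {Ω : Type} [MeasurableSpace Ω] (μ : Measure Ω) (P : ℝ → ℕ → Ω → Prop)
    (mono : ∀ ε ε' Q ω, ε ≤ ε' → P ε Q ω → P ε' Q ω)
    (h : ∀ ε : ℝ, 0 < ε → ∀ δ : ℝ≥0∞, 0 < δ →
      ∃ (Q : ℕ) (U : Set Ω), MeasurableSet U ∧ μ Uᶜ ≤ δ ∧ ∀ ω ∈ U, P ε Q ω) :
    ∀ᵐ ω ∂μ, ∀ ε : ℝ, 0 < ε → ∃ Q, P ε Q ω := by
  have h1 : ∀ k : ℕ, ∀ᵐ ω ∂μ, ∃ Q, P (1 / ((k : ℝ) + 1)) Q ω := fun k => by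
    rw [ae_iff]
    refine le_antisymm (le_of_forall_gt_imp_ge_of_dense fun δ hδ => ?_) zero_le
    obtain ⟨Q, U, -, h2, h3⟩ := h _ Nat.one_div_pos_of_nat δ hδ
    refine le_trans (measure_mono fun ω hω => ?_) h2
    exact fun hU => hω ⟨Q, h3 ω hU⟩
  filter_upwards [ae_all_iff.2 h1] with ω hω ε hε
  obtain ⟨k, hk⟩ := exists_nat_one_div_lt hε
  obtain ⟨Q, hQ⟩ := hω k
  exact ⟨Q, mono _ _ _ _ hk.le hQ⟩

theorem seg_Pei {f : ℕ → V} (hf : Function.Injective f) (adj : ∀ i, Zd.Adj (f i) (f (i + 1)))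
    (n : ℕ) : ∀ i, ∃ (w : V) (p : Zd.Walk (f i) w), p.IsPath ∧ p.length = n ∧
      (∀ v ∈ p.support, ∃ k, i ≤ k ∧ f k = v) ∧
      ∀ e ∈ p.edges, ∃ k, i ≤ k ∧ e = s(f k, f (k + 1)) := by
  induction n with
  | zero => exact fun i => ⟨_, .nil, .nil, rfl, fun v hv => ⟨i, le_rfl, by simp_all⟩, by simp⟩
  | succ n ih =>
    intro i
    obtain ⟨w, p, h1, h2, h3, h4⟩ := ih (i + 1)
    refine ⟨w, .cons (adj i) p, (SimpleGraph.Walk.cons_isPath_iff _ _).2 ⟨h1, fun h => ?_⟩,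
      by simp [h2], fun v hv => ?_, fun e he => ?_⟩
    · obtain ⟨k, hk, e⟩ := h3 _ h
      have := hf e
      omega
    · rcases List.mem_cons.1 hv with rfl | hv
      · exact ⟨i, le_rfl, rfl⟩
      · obtain ⟨k, hk, e⟩ := h3 _ hv
        exact ⟨k, by omega, e⟩
    · rcases List.mem_cons.1 he with rfl | he
      · exact ⟨i, le_rfl, rfl⟩
      · obtain ⟨k, hk, e⟩ := h4 _ he
        exact ⟨k, by omega, e⟩

theorem ae_pei (hG : Law G) {D : Set ℝ} (hD : MeasurableSet D)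
    (hGD : G {t | (t : ℝ) ∉ D} ≤ 1 / 256) :
    ∀ᵐ ω ∂PP G, ∀ ε : ℝ, 0 < ε → ∃ Q, PeiP D ε Q ω := by
  refine whp_Pei _ (fun ε Q ω => PeiP D ε Q ω) (fun ε ε' Q ω hε h v w p hp hn => h v w p hp ?_)
    fun ε hε δ hδ => pei hG hD hGD hε hδ
  have h0 : (0 : ℝ) ≤ nrm v := by exact_mod_cast nrm_nonneg_Pei v
  nlinarith

/-- Every ray has infinitely many steps with weight in `D`. -/
theorem ae_freq (hG : Law G) {D : Set ℝ} (hD : MeasurableSet D)
    (hGD : G {t | (t : ℝ) ∉ D} ≤ 1 / 256) :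
    ∀ᵐ ω ∂PP G, ∀ f : ℕ → V, Function.Injective f → (∀ i, Zd.Adj (f i) (f (i + 1))) →
      ∃ᶠ k in atTop, tau ω s(f k, f (k + 1)) ∈ D := by
  filter_upwards [ae_pei hG hD hGD] with ω hω f hf adj hc
  obtain ⟨Q, hQ⟩ := hω 1 one_pos
  obtain ⟨N, hN⟩ := eventually_atTop.1 hc
  obtain ⟨w, p, h1, h2, -, h4⟩ := seg_Pei hf adj ((nrm (f N)).toNat + Q + 1) N
  have h5 := hQ _ _ p h1 (by
    rw [h2]
    have : ((nrm (f N)).toNat : ℤ) = nrm (f N) := Int.toNat_of_nonneg (nrm_nonneg_Pei _)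
    have : (((nrm (f N)).toNat : ℕ) : ℝ) = nrm (f N) := by exact_mod_cast this
    push_cast
    linarith)
  rw [List.countP_eq_zero.2, h2] at h5
  · omega
  · intro e he
    obtain ⟨k, hk, rfl⟩ := h4 e he
    simpa using hN k hk

theorem exists_ab (hG : Law G) : ∃ a₀ b₀ : ℝ, 0 ≤ a₀ ∧ a₀ < b₀ ∧ 0 < G {t | (t : ℝ) ≤ a₀} ∧
    G {t | (t : ℝ) ∉ Set.Ici b₀} ≤ 1 / 512 := by
  have := hG.prob
  have : NullSingletonClass G := hG.noat
  set S : Set ℝ := {x | 0 < G {t | (t : ℝ) ≤ x}} with hS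
  have hm : ∀ x : ℝ, MeasurableSet {t : ℝ≥0 | (t : ℝ) ≤ x} := fun x =>
    measurableSet_le measurable_coe_nnreal_real measurable_const
  have h0 : ∀ x ∈ S, 0 ≤ x := fun x hx => by
    obtain ⟨t, ht⟩ := nonempty_of_measure_ne_zero (ne_of_gt hx)
    exact t.2.trans ht
  have hne : S.Nonempty := by
    by_contra hc
    have h1 : G (⋃ n : ℕ, {t : ℝ≥0 | (t : ℝ) ≤ n}) = 0 := measure_iUnion_null fun n => by
      by_contra h2
      exact hc ⟨n, pos_iff_ne_zero.2 h2⟩
    have h2 : (⋃ n : ℕ, {t : ℝ≥0 | (t : ℝ) ≤ n}) = Set.univ :=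
      Set.eq_univ_of_forall fun t => Set.mem_iUnion.2 (exists_nat_ge (t : ℝ))
    rw [h2, measure_univ] at h1
    exact one_ne_zero h1
  have hb : BddBelow S := ⟨0, h0⟩
  have h1 : G {t | (t : ℝ) ≤ sInf S} = 0 := by
    have h2 : G (⋃ n : ℕ, {t : ℝ≥0 | (t : ℝ) ≤ sInf S - 1 / ((n : ℝ) + 1)}) = 0 :=
      measure_iUnion_null fun n => by
        by_contra h2
        have := csInf_le hb (show sInf S - 1 / ((n : ℝ) + 1) ∈ S from pos_iff_ne_zero.2 h2)
        linarith [Nat.one_div_pos_of_nat (α := ℝ) (n := n)]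
    have h3 : G {t : ℝ≥0 | (t : ℝ) = sInf S} = 0 :=
      Set.Subsingleton.measure_zero (fun a ha b hb => NNReal.eq (ha.trans hb.symm)) _
    refine measure_mono_null (fun t ht => ?_) (measure_union_null h2 h3)
    rcases eq_or_lt_of_le (show (t : ℝ) ≤ sInf S from ht) with h | h
    · exact Or.inr h
    · obtain ⟨n, hn⟩ := exists_nat_one_div_lt (sub_pos.2 h)
      exact Or.inl (Set.mem_iUnion.2 ⟨n, by simp only [Set.mem_ofPred_eq]; linarith⟩)
  have h2 := tendsto_measure_iInter_atTop (μ := G)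
    (s := fun n : ℕ => {t : ℝ≥0 | (t : ℝ) ≤ sInf S + 1 / ((n : ℝ) + 1)})
    (fun n => (hm _).nullMeasurableSet) (fun a b hab t ht => by
      have : (1 : ℝ) / ((b : ℝ) + 1) ≤ 1 / ((a : ℝ) + 1) := Nat.one_div_le_one_div hab
      simp only [Set.mem_ofPred_eq] at ht ⊢
      linarith) ⟨0, measure_ne_top _ _⟩
  have h3 : G (⋂ n : ℕ, {t : ℝ≥0 | (t : ℝ) ≤ sInf S + 1 / ((n : ℝ) + 1)}) = 0 := by
    refine measure_mono_null (fun t ht => ?_) h1
    change (t : ℝ) ≤ sInf S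
    refine le_of_forall_pos_le_add fun ε hε => ?_
    obtain ⟨n, hn⟩ := exists_nat_one_div_lt hε
    have := Set.mem_iInter.1 ht n
    simp only [Set.mem_ofPred_eq] at this
    linarith
  rw [h3] at h2
  obtain ⟨n, hn⟩ := (h2.eventually (ge_mem_nhds (show (0 : ℝ≥0∞) < 1 / 512 by simp))).exists
  obtain ⟨a, ha, h4⟩ := exists_lt_of_csInf_lt hne
    (lt_add_of_pos_right _ (Nat.one_div_pos_of_nat (α := ℝ) (n := n)))
  refine ⟨a, _, h0 a ha, h4, ha, le_trans (measure_mono fun t ht => ?_) hn⟩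
  exact (not_le.1 (show ¬ _ ≤ (t : ℝ) from ht)).le

open Classical in
theorem count_le_Pei (ω : Env) {b : ℝ} {D : Set ℝ} (hD : D ⊆ Set.Ici b) (L : List (Sym2 V)) :
    b * L.countP (fun e => decide (tau ω e ∈ D)) ≤ (L.map (tau ω)).sum := by
  induction L with
  | nil => simp
  | cons e L ih =>
    rw [List.countP_cons, List.map_cons, List.sum_cons]
    split_ifs with h
    · have : b ≤ tau ω e := hD (by simpa using h)
      push_cast
      linarith
    · have := tau_nonneg ω e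
      push_cast
      linarith

theorem low (hG : Law G) : ∃ c : ℝ, 0 < c ∧ ∀ ε : ℝ, 0 < ε → ∀ δ : ℝ≥0∞, 0 < δ →
    ∃ (Q : ℕ) (U : Set Env), MeasurableSet U ∧ PP G Uᶜ ≤ δ ∧ ∀ ω ∈ U, LowP c ε Q ω := by
  obtain ⟨a, b, h0, h1, -, h2⟩ := exists_ab hG
  have hc : 0 < b / 2 := by linarith
  refine ⟨b / 2, hc, fun ε hε δ hδ => ?_⟩
  obtain ⟨Q, U, h3, h4, h5⟩ := pei hG (D := Set.Ici b) measurableSet_Ici
    (h2.trans (by gcongr; norm_num)) (div_pos hε hc) hδ
  refine ⟨⌈b / 2 * Q⌉₊, U, h3, h4, fun ω hω v w => le_T ω fun p hp => ?_⟩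
  have h6 : (nrm (w - v) : ℝ) ≤ p.length := by exact_mod_cast nrm_le_length_Pei p
  have h7 : (0 : ℝ) ≤ nrm v := by exact_mod_cast nrm_nonneg_Pei v
  have h8 := Nat.le_ceil (b / 2 * Q)
  have h9 : b / 2 * (nrm (w - v) : ℝ) ≤ b / 2 * p.length := by gcongr
  by_cases h : ε / (b / 2) * (nrm v : ℝ) + Q ≤ p.length
  · have k1 := h5 ω hω v w p hp h
    have k2 := count_le_Pei ω (b := b) subset_rfl p.edges
    have k3 := (Nat.cast_le (α := ℝ)).2 k1
    rw [Nat.cast_mul, Nat.cast_ofNat] at k3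
    have k5 := mul_le_mul_of_nonneg_left k3 hc.le
    have k6 := mul_nonneg hε.le h7
    have k4 : (0 : ℝ) ≤ ⌈b / 2 * Q⌉₊ := Nat.cast_nonneg _
    unfold wt
    linarith
  · have k1 : b / 2 * p.length ≤ b / 2 * (ε / (b / 2) * (nrm v : ℝ) + Q) := by
      gcongr; exact (not_le.1 h).le
    have k2 : b / 2 * (ε / (b / 2) * (nrm v : ℝ) + Q) = ε * nrm v + b / 2 * Q := by
      have : b ≠ 0 := by linarith
      field_simp
    linarith [wt_nonneg ω p]

/-- From high probability to almost sure statements. -/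
theorem ae_of_whp {Ω : Type} [MeasurableSpace Ω] (μ : Measure Ω) (P : ℝ → ℕ → Ω → Prop)
    (mono : ∀ ε ε' Q ω, ε ≤ ε' → P ε Q ω → P ε' Q ω)
    (h : ∀ ε : ℝ, 0 < ε → ∀ δ : ℝ≥0∞, 0 < δ →
      ∃ (Q : ℕ) (U : Set Ω), MeasurableSet U ∧ μ Uᶜ ≤ δ ∧ ∀ ω ∈ U, P ε Q ω) :
    ∀ᵐ ω ∂μ, ∀ ε : ℝ, 0 < ε → ∃ Q, P ε Q ω := by
  exact whp_Pei μ P mono h

end P158
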