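import Vale.Agent.P158.Int
import Vale.Agent.P158.Pei

open scoped NNReal ENNReal
open MeasureTheory Filter Topology

namespace P158

/-! Cheap rectangles around far points. -/

/-- All the `n` parallel segments are expensive. -/
def Bad_Loop (G : Measure ℝ≥0) (g : ℤ × ℤ → E) (y₀ a : ℤ) (n : ℕ) : Set Env :=
  {ω | ∀ y ∈ Finset.Ico y₀ (y₀ + n),
    8 * n * mean G + 1 ≤ ∑ k ∈ Finset.range (4 * n), (ω (g (y, a + k)) : ℝ)}

theorem measurableSet_Bad_Loop (G : Measure ℝ≥0) (g : ℤ × ℤ → E) (y₀ a : ℤ) (n : ℕ) :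
    MeasurableSet (Bad_Loop G g y₀ a n) := by
  have : Bad_Loop G g y₀ a n = ⋂ y ∈ Finset.Ico y₀ (y₀ + n),
      {ω : Env | 8 * n * mean G + 1 ≤ ∑ k ∈ Finset.range (4 * n), (ω (g (y, a + k)) : ℝ)} := by
    ext ω; simp only [Bad_Loop, Set.mem_setOf_eq, Set.mem_iInter]
  rw [this]
  refine Finset.measurableSet_biInter _ fun y _ => measurableSet_le measurable_const ?_
  fun_prop

theorem markov_Loop {G : Measure ℝ≥0} (hG : Law G) (a : ℤ) (n : ℕ) :
    Measure.infinitePi (fun _ : ℤ => G) {u : ℤ → ℝ≥0 | 8 * n * mean G + 1 ≤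
      ∑ k ∈ Finset.range (4 * n), (u (a + k) : ℝ)} ≤ 1 / 2 := by
  haveI := hG.prob
  have hm := mean_nonneg G
  have hmp : ∀ x : ℤ, MeasurePreserving (fun u : ℤ → ℝ≥0 => u x)
      (Measure.infinitePi (fun _ : ℤ => G)) G :=
    fun x => measurePreserving_eval_infinitePi (fun _ : ℤ => G) x
  have hi : ∀ x : ℤ, Integrable (fun u : ℤ → ℝ≥0 => (u x : ℝ))
      (Measure.infinitePi (fun _ : ℤ => G)) :=
    fun x => (hmp x).integrable_comp_of_integrable hG.int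
  have he : ∀ x : ℤ, ∫ u : ℤ → ℝ≥0, (u x : ℝ) ∂(Measure.infinitePi (fun _ : ℤ => G)) = mean G := by
    intro x
    unfold mean
    conv_rhs => rw [← (hmp x).map_eq]
    rw [integral_map (hmp x).measurable.aemeasurable (by fun_prop)]
  have h := mul_meas_ge_le_integral_of_nonneg (μ := Measure.infinitePi (fun _ : ℤ => G))
    (f := fun u : ℤ → ℝ≥0 => ∑ k ∈ Finset.range (4 * n), (u (a + k) : ℝ))
    (Eventually.of_forall fun u => Finset.sum_nonneg fun k _ => NNReal.coe_nonneg _)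
    (integrable_finset_sum _ fun k _ => hi _) (8 * n * mean G + 1)
  rw [integral_finset_sum _ fun k _ => hi _] at h
  simp only [he, Finset.sum_const, Finset.card_range, nsmul_eq_mul] at h
  push_cast at h
  have h2 : (Measure.infinitePi (fun _ : ℤ => G)).real {u : ℤ → ℝ≥0 | 8 * n * mean G + 1 ≤
      ∑ k ∈ Finset.range (4 * n), (u (a + k) : ℝ)} ≤ 1 / 2 := by
    by_contra hlt
    push Not at hlt
    have : (0 : ℝ) ≤ n * mean G := by positivity
    nlinarith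
  rw [← ofReal_measureReal]
  refine (ENNReal.ofReal_le_ofReal h2).trans ?_
  rw [ENNReal.ofReal_div_of_pos (by norm_num)]
  simp

theorem prob_Bad_Loop {G : Measure ℝ≥0} (hG : Law G) {g : ℤ × ℤ → E} (hg : Function.Injective g)
    (y₀ a : ℤ) (n : ℕ) : PP G (Bad_Loop G g y₀ a n) ≤ (1 / 2) ^ n := by
  haveI := hG.prob
  have h1 := Measure.map_infinitePi_infinitePi_of_inj (P := fun _ : E => G) hg
  have h2 := Measure.infinitePi_map_curry (ι := ℤ) (κ := ℤ) (fun _ _ => G)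
  have hB : MeasurableSet {u : ℤ → ℝ≥0 | 8 * n * mean G + 1 ≤
      ∑ k ∈ Finset.range (4 * n), (u (a + k) : ℝ)} :=
    measurableSet_le measurable_const (by fun_prop)
  have h3 := Measure.infinitePi_pi (μ := fun _ : ℤ => Measure.infinitePi (fun _ : ℤ => G))
    (s := Finset.Ico y₀ (y₀ + n)) (t := fun _ => {u : ℤ → ℝ≥0 | 8 * n * mean G + 1 ≤
      ∑ k ∈ Finset.range (4 * n), (u (a + k) : ℝ)}) (fun _ _ => hB)
  have hpi := MeasurableSet.pi (s := ((Finset.Ico y₀ (y₀ + n) : Finset ℤ) : Set ℤ))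
    (t := fun _ : ℤ => {u : ℤ → ℝ≥0 | 8 * n * mean G + 1 ≤
      ∑ k ∈ Finset.range (4 * n), (u (a + k) : ℝ)}) (Finset.countable_toSet _) (fun _ _ => hB)
  rw [← h2, ← h1, Measure.map_apply (MeasurableEquiv.measurable _) hpi,
    Measure.map_apply (by fun_prop) (MeasurableEquiv.measurable _ hpi)] at h3
  refine le_trans (le_of_eq ?_) (h3.le.trans ?_)
  · rfl
  · rw [Finset.prod_const]
    have : (Finset.Ico y₀ (y₀ + n)).card = n := by simp
    rw [this]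
    exact pow_le_pow_left' (markov_Loop hG a n) n

/-- Horizontal edges. -/
def hE_Loop (z : ℤ × ℤ) : E := ⟨s((z.2, z.1), (z.2 + 1, z.1)), by simp [Zd]⟩

/-- Vertical edges. -/
def vE_Loop (z : ℤ × ℤ) : E := ⟨s((z.1, z.2), (z.1, z.2 + 1)), by simp [Zd]⟩

theorem hE_inj_Loop : Function.Injective hE_Loop := by
  rintro ⟨a, b⟩ ⟨c, d⟩ h
  simp only [hE_Loop, Subtype.mk.injEq, Sym2.eq_iff, Prod.mk.injEq] at h
  ext <;> simp only <;> omega

theorem vE_inj_Loop : Function.Injective vE_Loop := by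
  rintro ⟨a, b⟩ ⟨c, d⟩ h
  simp only [vE_Loop, Subtype.mk.injEq, Sym2.eq_iff, Prod.mk.injEq] at h
  ext <;> simp only <;> omega

theorem T_le_W_Loop (ω : Env) {f : ℕ → V} (adj : ∀ i, Zd.Adj (f i) (f (i + 1))) {i j N : ℕ}
    (hi : i ≤ N) (hj : j ≤ N) : T ω (f i) (f j) ≤ W ω f N := by
  have key : ∀ i j : ℕ, i ≤ j → j ≤ N → T ω (f i) (f j) ≤ W ω f N := by
    intro i j hij hj
    obtain ⟨p, hp, -⟩ := exists_seg adj hij
    have h1 := T_le ω p
    have h2 := W_mono ω f hj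
    have h3 := W_mono ω f (Nat.zero_le i)
    rw [W_zero] at h3
    rw [hp] at h1
    linarith
  rcases le_total i j with h | h
  · exact key i j h hj
  · rw [T_comm]; exact key j i h hi

theorem T_hor_Loop (ω : Env) (y a : ℤ) (N : ℕ) {x x' : ℤ} (hx : a ≤ x ∧ x ≤ a + N)
    (hx' : a ≤ x' ∧ x' ≤ a + N) :
    T ω (x, y) (x', y) ≤ ∑ k ∈ Finset.range N, (ω (hE_Loop (y, a + k)) : ℝ) := by
  have h := T_le_W_Loop ω (f := fun k : ℕ => (a + k, y)) (fun i => by simp [Zd])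
    (i := (x - a).toNat) (j := (x' - a).toNat) (N := N) (by omega) (by omega)
  rw [show a + ((x - a).toNat : ℤ) = x by omega, show a + ((x' - a).toNat : ℤ) = x' by omega] at h
  refine h.trans (le_of_eq ?_)
  refine Finset.sum_congr rfl fun k _ => ?_
  rw [← tau_edge]
  simp [hE_Loop, add_assoc]

theorem T_ver_Loop (ω : Env) (x a : ℤ) (N : ℕ) {y y' : ℤ} (hy : a ≤ y ∧ y ≤ a + N)
    (hy' : a ≤ y' ∧ y' ≤ a + N) :
    T ω (x, y) (x, y') ≤ ∑ k ∈ Finset.range N, (ω (vE_Loop (x, a + k)) : ℝ) := by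
  have h := T_le_W_Loop ω (f := fun k : ℕ => (x, a + k)) (fun i => by simp [Zd])
    (i := (y - a).toNat) (j := (y' - a).toNat) (N := N) (by omega) (by omega)
  rw [show a + ((y - a).toNat : ℤ) = y by omega, show a + ((y' - a).toNat : ℤ) = y' by omega] at h
  refine h.trans (le_of_eq ?_)
  refine Finset.sum_congr rfl fun k _ => ?_
  rw [← tau_edge]
  simp [vE_Loop, add_assoc]

/-- One of the four sides is missing. -/
def All_Loop (G : Measure ℝ≥0) (v : V) (n : ℕ) : Set Env :=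
  (Bad_Loop G hE_Loop (v.2 - 2 * n) (v.1 - 2 * n) n ∪
    Bad_Loop G hE_Loop (v.2 + n + 1) (v.1 - 2 * n) n) ∪
  (Bad_Loop G vE_Loop (v.1 - 2 * n) (v.2 - 2 * n) n ∪
    Bad_Loop G vE_Loop (v.1 + n + 1) (v.2 - 2 * n) n)

theorem measurableSet_All_Loop (G : Measure ℝ≥0) (v : V) (n : ℕ) :
    MeasurableSet (All_Loop G v n) :=
  ((measurableSet_Bad_Loop _ _ _ _ _).union (measurableSet_Bad_Loop _ _ _ _ _)).union
    ((measurableSet_Bad_Loop _ _ _ _ _).union (measurableSet_Bad_Loop _ _ _ _ _))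

theorem prob_All_Loop {G : Measure ℝ≥0} (hG : Law G) (v : V) (n : ℕ) :
    PP G (All_Loop G v n) ≤ ENNReal.ofReal (4 * (1 / 2) ^ n) := by
  have e : ENNReal.ofReal (4 * (1 / 2) ^ n) =
      ((1 / 2) ^ n + (1 / 2) ^ n) + ((1 / 2) ^ n + (1 / 2) ^ n) := by
    rw [ENNReal.ofReal_mul (by norm_num), ENNReal.ofReal_pow (by norm_num),
      ENNReal.ofReal_div_of_pos (by norm_num)]
    simp only [ENNReal.ofReal_ofNat, ENNReal.ofReal_one]
    ring
  rw [e]
  refine (measure_union_le _ _).trans (add_le_add ?_ ?_)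
  · exact (measure_union_le _ _).trans
      (add_le_add (prob_Bad_Loop hG hE_inj_Loop _ _ _) (prob_Bad_Loop hG hE_inj_Loop _ _ _))
  · exact (measure_union_le _ _).trans
      (add_le_add (prob_Bad_Loop hG vE_inj_Loop _ _ _) (prob_Bad_Loop hG vE_inj_Loop _ _ _))

theorem rect_Loop {G : Measure ℝ≥0} {ω : Env} {v : V} {n : ℕ} (h : ω ∉ All_Loop G v n) :
    ∃ x₁ x₂ y₁ y₂ : ℤ,
    v.1 - 2 * n ≤ x₁ ∧ x₁ < v.1 - n ∧ v.1 + n < x₂ ∧ x₂ ≤ v.1 + 2 * n ∧
    v.2 - 2 * n ≤ y₁ ∧ y₁ < v.2 - n ∧ v.2 + n < y₂ ∧ y₂ ≤ v.2 + 2 * n ∧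
    ∀ b ∈ RB x₁ x₂ y₁ y₂, ∀ b' ∈ RB x₁ x₂ y₁ y₂, T ω b b' ≤ (32 * mean G + 4) * n := by
  simp only [All_Loop, Bad_Loop, Set.mem_union, Set.mem_setOf_eq, not_or, not_forall,
    Finset.mem_Ico, not_le] at h
  obtain ⟨⟨⟨y₁, hy₁, s₁⟩, ⟨y₂, hy₂, s₂⟩⟩, ⟨x₁, hx₁, t₁⟩, ⟨x₂, hx₂, t₂⟩⟩ := h
  refine ⟨x₁, x₂, y₁, y₂, by omega, by omega, by omega, by omega, by omega, by omega, by omega,
    by omega, ?_⟩
  have hm := mean_nonneg G
  have hn : (1 : ℝ) ≤ n := by
    have : 1 ≤ n := by omega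
    exact_mod_cast this
  have hM : (0 : ℝ) ≤ 8 * n * mean G + 1 := by positivity
  have key : ∀ b ∈ RB x₁ x₂ y₁ y₂, T ω b (x₁, y₁) ≤ 2 * (8 * n * mean G + 1) := by
    rintro ⟨b₁, b₂⟩ ⟨h1, h2, h3, h4, h5⟩
    simp only at h1 h2 h3 h4 h5
    rcases h5 with rfl | rfl | rfl | rfl
    · have := T_ver_Loop ω b₁ (v.2 - 2 * n) (4 * n) (y := b₂) (y' := y₁)
        (by push_cast; omega) (by push_cast; omega)
      linarith
    · have a1 := T_ver_Loop ω b₁ (v.2 - 2 * n) (4 * n) (y := b₂) (y' := y₁)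
        (by push_cast; omega) (by push_cast; omega)
      have a2 := T_hor_Loop ω y₁ (v.1 - 2 * n) (4 * n) (x := b₁) (x' := x₁)
        (by push_cast; omega) (by push_cast; omega)
      have a3 := T_tri ω (b₁, b₂) (b₁, y₁) (x₁, y₁)
      linarith
    · have := T_hor_Loop ω b₂ (v.1 - 2 * n) (4 * n) (x := b₁) (x' := x₁)
        (by push_cast; omega) (by push_cast; omega)
      linarith
    · have a1 := T_hor_Loop ω b₂ (v.1 - 2 * n) (4 * n) (x := b₁) (x' := x₁)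
        (by push_cast; omega) (by push_cast; omega)
      have a2 := T_ver_Loop ω x₁ (v.2 - 2 * n) (4 * n) (y := b₂) (y' := y₁)
        (by push_cast; omega) (by push_cast; omega)
      have a3 := T_tri ω (b₁, b₂) (x₁, b₂) (x₁, y₁)
      linarith
  intro b hb b' hb'
  have a1 := key b hb
  have a2 := key b' hb'
  have a3 := T_tri ω b (x₁, y₁) b'
  rw [T_comm ω (x₁, y₁) b'] at a3
  nlinarith

theorem loop {G : Measure ℝ≥0} (hG : Law G) : ∃ C : ℝ, 0 < C ∧ ∀ ε : ℝ, 0 < ε →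
    ∀ δ : ℝ≥0∞, 0 < δ → ∃ (Q : ℕ) (U : Set Env), MeasurableSet U ∧ PP G Uᶜ ≤ δ ∧
      ∀ ω ∈ U, LoopP C ε Q ω := by
  have hm := mean_nonneg G
  refine ⟨32 * mean G + 4, by positivity, fun ε hε δ hδ => ?_⟩
  obtain ⟨c, hc⟩ := exists_nat_ge (1 / ε)
  rw [div_le_iff₀ hε] at hc
  obtain ⟨S, hS⟩ : ∃ S : ℕ → Finset V, S = fun n : ℕ =>
      Finset.Icc (-((c * n : ℕ) : ℤ)) ((c * n : ℕ) : ℤ) ×ˢ
        Finset.Icc (-((c * n : ℕ) : ℤ)) ((c * n : ℕ) : ℤ) := ⟨_, rfl⟩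
  have hcard : ∀ n, (S n).card = (2 * (c * n) + 1) ^ 2 := by
    intro n
    rw [hS]
    simp only [Finset.card_product, Int.card_Icc]
    rw [show (((c * n : ℕ) : ℤ) + 1 - -((c * n : ℕ) : ℤ)).toNat = 2 * (c * n) + 1 by omega, sq]
  have hmem : ∀ (n : ℕ) (v : V), ε * (nrm v : ℝ) ≤ n → v ∈ S n := by
    intro n v hv
    have h0 : (0 : ℝ) ≤ (nrm v : ℝ) := by
      have : (0 : ℤ) ≤ nrm v := by unfold nrm; positivity
      exact_mod_cast this
    have h1 : (nrm v : ℝ) ≤ ((c * n : ℕ) : ℝ) := by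
      push_cast
      have hc0 : (0 : ℝ) ≤ c := Nat.cast_nonneg c
      nlinarith
    have h2 : nrm v ≤ ((c * n : ℕ) : ℤ) := by exact_mod_cast h1
    unfold nrm at h2
    have h3 := abs_nonneg v.1
    have h4 := abs_nonneg v.2
    rw [hS]
    simp only [Finset.mem_product, Finset.mem_Icc]
    rw [← abs_le, ← abs_le]
    constructor <;> linarith
  obtain ⟨F, hF⟩ : ∃ F : ℕ → Set Env, F = fun n => ⋃ v ∈ S n, All_Loop G v n := ⟨_, rfl⟩
  have hFm : ∀ n, MeasurableSet (F n) := fun n => by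
    rw [hF]; exact Finset.measurableSet_biUnion _ fun v _ => measurableSet_All_Loop G v n
  have hFp : ∀ n, PP G (F n) ≤ ENNReal.ofReal ((2 * (c * n) + 1) ^ 2 * (4 * (1 / 2) ^ n)) := by
    intro n
    rw [hF]
    refine (measure_biUnion_finset_le _ _).trans ?_
    refine (Finset.sum_le_sum fun v _ => prob_All_Loop hG v n).trans ?_
    rw [Finset.sum_const, hcard, nsmul_eq_mul,
      ENNReal.ofReal_mul (p := (2 * ((c : ℝ) * n) + 1) ^ 2) (by positivity),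
      ← ENNReal.ofReal_natCast]
    push_cast
    exact le_rfl
  have hsum : Summable fun n : ℕ => (2 * ((c : ℝ) * n) + 1) ^ 2 * (4 * (1 / 2) ^ n) := by
    have r : ‖(1 / 2 : ℝ)‖ < 1 := by norm_num
    have s2 := (summable_pow_mul_geometric_of_norm_lt_one 2 r).mul_left (16 * (c : ℝ) ^ 2)
    have s1 := (summable_pow_mul_geometric_of_norm_lt_one 1 r).mul_left (16 * (c : ℝ))
    have s0 := (summable_pow_mul_geometric_of_norm_lt_one 0 r).mul_left 4
    refine ((s2.add s1).add s0).congr fun n => ?_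
    ring
  have hne : ∑' n, PP G (F n) ≠ ∞ :=
    ne_top_of_le_ne_top hsum.tsum_ofReal_ne_top (ENNReal.tsum_le_tsum hFp)
  obtain ⟨Q, hQ⟩ := ((ENNReal.tendsto_sum_nat_add _ hne).eventually (ge_mem_nhds hδ)).exists
  refine ⟨Q, (⋃ k, F (k + Q))ᶜ, (MeasurableSet.iUnion fun k => hFm _).compl, ?_, ?_⟩
  · rw [compl_compl]
    exact (measure_iUnion_le _).trans hQ
  · intro ω hω v n hn
    have h0 : (0 : ℝ) ≤ (nrm v : ℝ) := by
      have : (0 : ℤ) ≤ nrm v := by unfold nrm; positivity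
      exact_mod_cast this
    have h1 : 0 ≤ ε * (nrm v : ℝ) := by positivity
    have hQ0 : (0 : ℝ) ≤ Q := Nat.cast_nonneg Q
    have hQn : Q ≤ n := by
      have : (Q : ℝ) ≤ n := by linarith
      exact_mod_cast this
    refine rect_Loop fun hbad => hω (Set.mem_iUnion.2 ⟨n - Q, ?_⟩)
    rw [Nat.sub_add_cancel hQn, hF]
    exact Set.mem_biUnion (hmem n v (by linarith)) hbad

end P158
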