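import Vale.Agent.P158.Obj

open scoped NNReal ENNReal
open MeasureTheory Filter Topology

namespace P158

/-! The modification lemma (no measurability of `A`, `B` is needed). -/

open Classical in
theorem mp_Mod (G : Measure ℝ≥0) [IsProbabilityMeasure G] (σ : Finset E) :
    MeasurePreserving (fun z : Env × Env => (σ.piecewise z.2 z.1 : Env)) ((PP G).prod (PP G))
      (PP G) := by
  have hm : Measurable (fun z : Env × Env => (σ.piecewise z.2 z.1 : Env)) := by
    refine measurable_pi_lambda _ fun e => ?_
    by_cases he : e ∈ σ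
    · simp only [Finset.piecewise_eq_of_mem _ _ _ he]
      exact (measurable_pi_apply e).comp measurable_snd
    · simp only [Finset.piecewise_eq_of_notMem _ _ _ he]
      exact (measurable_pi_apply e).comp measurable_fst
  refine ⟨hm, ?_⟩
  refine Measure.eq_infinitePi (fun _ : E => G) fun s t ht => ?_
  rw [Measure.map_apply hm (MeasurableSet.pi s.countable_toSet fun i _ => ht i)]
  have : (fun z : Env × Env => (σ.piecewise z.2 z.1 : Env)) ⁻¹' (Set.pi s t) =
      (Set.pi ((s \ σ : Finset E) : Set E) t) ×ˢ (Set.pi ((s ∩ σ : Finset E) : Set E) t) := by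
    ext z
    simp only [Set.mem_preimage, Set.mem_pi, Finset.mem_coe, Set.mem_prod, Finset.mem_sdiff,
      Finset.mem_inter]
    constructor
    · intro h
      refine ⟨fun i hi => ?_, fun i hi => ?_⟩
      · have := h i hi.1
        rwa [Finset.piecewise_eq_of_notMem _ _ _ hi.2] at this
      · have := h i hi.1
        rwa [Finset.piecewise_eq_of_mem _ _ _ hi.2] at this
    · intro h i hi
      by_cases he : i ∈ σ
      · rw [Finset.piecewise_eq_of_mem _ _ _ he]; exact h.2 i ⟨hi, he⟩
      · rw [Finset.piecewise_eq_of_notMem _ _ _ he]; exact h.1 i ⟨hi, he⟩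
  rw [this, Measure.prod_prod, Measure.infinitePi_pi _ (fun i _ => ht i),
    Measure.infinitePi_pi _ (fun i _ => ht i), mul_comm, Finset.prod_inter_mul_prod_sdiff]

theorem modify (G : Measure ℝ≥0) [IsProbabilityMeasure G] (σ : Finset E) (D : E → Set ℝ≥0)
    (hD : ∀ e, MeasurableSet (D e)) (A B : Set Env)
    (h : ∀ ω ∈ A, ∀ ω' : Env, (∀ e ∉ σ, ω' e = ω e) → (∀ e ∈ σ, ω' e ∈ D e) → ω' ∈ B) :
    (∏ e ∈ σ, G (D e)) * PP G A ≤ PP G B := by
  classical
  have hp := mp_Mod G σ
  have hB : MeasurableSet (toMeasurable (PP G) B) := measurableSet_toMeasurable _ _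
  have hpre := hp.measurable hB
  rw [← measure_toMeasurable B, ← hp.measure_preimage hB.nullMeasurableSet,
    Measure.prod_apply hpre]
  refine le_trans ?_ (mul_meas_ge_le_lintegral₀
    (measurable_measure_prodMk_left hpre).aemeasurable (∏ e ∈ σ, G (D e)))
  gcongr
  intro ω hω
  simp only [Set.mem_ofPred_eq]
  rw [← Measure.infinitePi_pi (fun _ : E => G) (fun i _ => hD i)]
  refine measure_mono fun η hη => ?_
  refine subset_toMeasurable _ _ (h ω hω _ (fun e he => ?_) (fun e he => ?_))
  · exact Finset.piecewise_eq_of_notMem _ _ _ he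
  · show σ.piecewise η ω e ∈ D e
    rw [Finset.piecewise_eq_of_mem _ _ _ he]; exact hη e he

end P158
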