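import Vale.Agent.P158.Pei
import Vale.Agent.P158.Mod

open scoped NNReal ENNReal
open MeasureTheory Filter Topology

namespace P158

/-! Almost sure regularity. -/

theorem path_eq_NiceA {x y : V} (p p' : Zd.Walk x y) (hp : p.IsPath) (hp' : p'.IsPath)
    (h : ∀ e ∈ p.edges, e ∈ p'.edges) : p = p' := by
  induction p with
  | nil => exact (SimpleGraph.Walk.isPath_iff_eq_nil.1 hp').symm
  | @cons x a y hxa q ih =>
    rw [SimpleGraph.Walk.cons_isPath_iff] at hp
    cases p' with
    | nil => exact absurd q.end_mem_support hp.2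
    | @cons _ b _ hxb q' =>
      rw [SimpleGraph.Walk.cons_isPath_iff] at hp'
      have hab : a = b := by
        have := h s(x, a) (by simp)
        rw [SimpleGraph.Walk.edges_cons, List.mem_cons] at this
        rcases this with h1 | h1
        · exact Sym2.congr_right.1 h1
        · exact absurd (q'.fst_mem_support_of_mem_edges h1) hp'.2
      subst hab
      rw [ih q' hp.1 hp'.1 fun e he => ?_]
      have := h e (by simp [he])
      rw [SimpleGraph.Walk.edges_cons, List.mem_cons] at this
      rcases this with h1 | h1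
      · subst h1
        exact absurd (q.fst_mem_support_of_mem_edges he) hp.2
      · exact h1

theorem uniq_NiceA {G : Measure ℝ≥0} (hG : Law G) {x y : V} (p p' : Zd.Walk x y) (hp : p.IsPath)
    (hp' : p'.IsPath) (hne : p ≠ p') : PP G {ω | wt ω p = wt ω p'} = 0 := by
  classical
  have := hG.prob
  have : NullSingletonClass G := hG.noat
  obtain ⟨e, he, he'⟩ : ∃ e ∈ p.edges, e ∉ p'.edges := by
    by_contra hc
    push Not at hc
    exact hne (path_eq_NiceA p p' hp hp' hc)
  set e₀ : E := ⟨e, p.edges_subset_edgeSet he⟩ with he₀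
  have hmp := mp_Mod G {e₀}
  have hm : MeasurableSet {ω : Env | wt ω p = wt ω p'} :=
    measurableSet_eq_fun (measurable_wt p) (measurable_wt p')
  have hpre := hmp.measurable hm
  rw [← hmp.measure_preimage hm.nullMeasurableSet, Measure.prod_apply hpre]
  refine lintegral_eq_zero_of_ae_eq_zero (Eventually.of_forall fun ω => ?_)
  have hsub : ({t : ℝ≥0 | (t : ℝ) = ω e₀ - wt ω p + wt ω p'}).Subsingleton := by
    intro a ha b hb
    exact NNReal.coe_injective (ha.trans hb.symm)
  have h0 : PP G (Function.eval e₀ ⁻¹' {t : ℝ≥0 | (t : ℝ) = ω e₀ - wt ω p + wt ω p'}) = 0 := by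
    rw [(measurePreserving_eval_infinitePi (fun _ : E => G) e₀).measure_preimage
      hsub.finite.measurableSet.nullMeasurableSet]
    exact hsub.measure_zero G
  refine measure_mono_null (fun η hη => ?_) h0
  simp only [Set.mem_preimage, Set.mem_ofPred_eq] at hη ⊢
  have hoff : ∀ e' ∉ ({e₀} : Finset E), (({e₀} : Finset E).piecewise η ω : Env) e' = ω e' :=
    fun e' h' => Finset.piecewise_eq_of_notMem _ _ _ h'
  have h1 := wt_sub_wt ω _ {e₀} hoff p hp
  have h2 := wt_sub_wt ω _ {e₀} hoff p' hp'
  rw [Finset.filter_singleton, if_pos he, Finset.sum_singleton,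
    Finset.piecewise_eq_of_mem _ _ _ (Finset.mem_singleton_self _)] at h1
  rw [Finset.filter_singleton, if_neg he', Finset.sum_empty] at h2
  show (η e₀ : ℝ) = _
  linarith

theorem ae_nice {G : Measure ℝ≥0} (hG : Law G) : ∀ᵐ ω ∂PP G, Nice ω := by
  have := hG.prob
  have : NullSingletonClass G := hG.noat
  have : ∀ x y : V, Countable (Zd.Walk x y) := fun x y =>
    (SimpleGraph.Walk.support_injective (G := Zd) (u := x) (v := y)).countable
  have h1 : ∀ᵐ ω ∂PP G, ∀ e : E, 0 < ω e := by
    rw [ae_all_iff]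
    intro e
    have h0 : PP G (Function.eval e ⁻¹' ({0} : Set ℝ≥0)) = 0 := by
      rw [(measurePreserving_eval_infinitePi (fun _ : E => G) e).measure_preimage
        (measurableSet_singleton _).nullMeasurableSet]
      exact measure_singleton _
    rw [ae_iff]
    refine measure_mono_null (fun ω hω => ?_) h0
    simpa using hω
  obtain ⟨c, hc, hlow⟩ := low hG
  have hn : ∀ v : V, (0 : ℝ) ≤ (nrm v : ℝ) := fun v => by
    have : 0 ≤ nrm v := add_nonneg (abs_nonneg _) (abs_nonneg _)
    exact_mod_cast this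
  have h2 := ae_of_whp (PP G) (LowP c) (fun ε ε' Q ω hε h v w => by
    have := h v w
    have := mul_le_mul_of_nonneg_right hε (hn v)
    linarith) hlow
  have h3 : ∀ᵐ ω ∂PP G, ∀ (x y : V) (p p' : Zd.Walk x y), p.IsPath → p'.IsPath →
      wt ω p = wt ω p' → p = p' := by
    simp only [ae_all_iff]
    intro x y p p' hp hp'
    by_cases hne : p = p'
    · exact Eventually.of_forall fun _ _ => hne
    · rw [ae_iff]
      refine measure_mono_null (fun ω hω => ?_) (uniq_NiceA hG p p' hp hp' hne)
      simp only [Set.mem_ofPred_eq, Classical.not_imp] at hω ⊢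
      exact hω.1
  filter_upwards [h1, h2, h3] with ω a b d
  refine ⟨a, fun x r => ?_, d⟩
  obtain ⟨Q, hQ⟩ := b 1 one_pos
  obtain ⟨N, hN⟩ := exists_nat_ge ((r + nrm x + Q) / c)
  have hfin : ((Set.Icc (x.1 - N) (x.1 + N)) ×ˢ (Set.Icc (x.2 - N) (x.2 + N))).Finite :=
    (Set.finite_Icc _ _).prod (Set.finite_Icc _ _)
  refine hfin.subset fun y hy => ?_
  have h4 := hQ x y
  have h5 : T ω x y ≤ r := hy
  rw [div_le_iff₀ hc] at hN
  have h6 : (nrm (y - x) : ℝ) ≤ N := by
    refine le_of_mul_le_mul_left ?_ hc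
    linarith
  have h7 : nrm (y - x) ≤ N := by exact_mod_cast h6
  simp only [nrm, Prod.fst_sub, Prod.snd_sub] at h7
  have a1 := abs_nonneg (y.1 - x.1)
  have a2 := abs_nonneg (y.2 - x.2)
  have b1 := abs_le.1 (show |y.1 - x.1| ≤ N by omega)
  have b2 := abs_le.1 (show |y.2 - x.2| ≤ N by omega)
  exact ⟨⟨by omega, by omega⟩, by omega, by omega⟩

end P158
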