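import Vale.Agent.P158.Basic

open scoped NNReal ENNReal
open MeasureTheory Filter Topology

namespace P158

/-! Deterministic consequences of regularity. -/

variable {ω : Env}

theorem finite_paths_NiceB {F : Set V} (hF : F.Finite) (x y : V) :
    {p : Zd.Walk x y | p.IsPath ∧ ∀ v ∈ p.support, v ∈ F}.Finite := by
  classical
  have h1 : {l : List V | l ∈ hF.toFinset.toList.sublists.flatMap List.permutations}.Finite :=
    List.finite_toSet _
  refine (h1.preimage SimpleGraph.Walk.support_injective.injOn).subset fun p hp => ?_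
  obtain ⟨l, h2, h3⟩ := List.subperm_of_subset (l₂ := hF.toFinset.toList) hp.1.support_nodup
    fun v hv => by simpa using hp.2 v hv
  exact List.mem_flatMap.2 ⟨l, List.mem_sublists.2 h3, List.mem_permutations.2 h2.symm⟩

theorem T_self_NiceB (ω : Env) (x : V) : T ω x x = 0 := by
  rw [T_eq_TS]; exact TS_self ω (Set.mem_univ _)

theorem tau_pos_NiceB (hN : Nice ω) {x y : V} (h : Zd.Adj x y) : 0 < tau ω s(x, y) := by
  rw [tau_edge ω ⟨s(x, y), h⟩]
  exact_mod_cast hN.pos _

theorem Nice.exists_geo (hN : Nice ω) {S : Set V} {x y : V} (h : Conn S x y) :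
    ∃ p : Zd.Walk x y, In S p ∧ p.IsPath ∧ wt ω p = TS ω S x y := by
  obtain ⟨p₀, h0, h1, h2⟩ := exists_lt_TS ω h one_pos
  have hf : {p : Zd.Walk x y | In S p ∧ p.IsPath ∧ wt ω p ≤ TS ω S x y + 1}.Finite :=
    (finite_paths_NiceB (hN.fin x (TS ω S x y + 1)) x y).subset fun p hp => ⟨hp.2.1, fun v hv => by
      have := T_add_le_of_mem ω p hv
      have := T_nonneg ω v y
      change T ω x v ≤ _
      linarith [hp.2.2]⟩
  obtain ⟨p, hp, hm⟩ := Set.exists_min_image _ (wt ω) hf ⟨p₀, h0, h1, h2.le⟩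
  refine ⟨p, hp.1, hp.2.1, le_antisymm (le_TS_path ω h fun q hq hq' => ?_) (TS_le ω p hp.1)⟩
  by_cases h3 : wt ω q ≤ TS ω S x y + 1
  · exact hm q ⟨hq, hq', h3⟩
  · linarith [hp.2.2]
theorem Nice.T_pos (hN : Nice ω) {x y : V} (h : x ≠ y) : 0 < T ω x y := by
  obtain ⟨p, -, -, h2⟩ := hN.exists_geo (conn_univ x y)
  rw [T_eq_TS, ← h2]
  cases p with
  | nil => exact absurd rfl h
  | cons ha q =>
    rw [wt_cons]
    linarith [tau_pos_NiceB hN ha, wt_nonneg ω q]
theorem Nice.isPath_of_geo (hN : Nice ω) {x y : V} (p : Zd.Walk x y) (h : wt ω p = T ω x y) :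
    p.IsPath := by
  induction p with
  | nil => exact SimpleGraph.Walk.IsPath.nil
  | @cons u v w ha q ih =>
    rw [wt_cons] at h
    have h1 := T_tri ω u v w
    have h2 := T_adj ω ha
    have h3 := T_le ω q
    rw [SimpleGraph.Walk.cons_isPath_iff]
    refine ⟨ih (by linarith), fun hu => ?_⟩
    have h4 := T_add_le_of_mem ω q hu
    linarith [tau_pos_NiceB hN ha, T_nonneg ω v u]
/-- The vertices of the geodesic are exactly the points between its ends. -/
theorem Nice.mem_geo (hN : Nice ω) {a v : V} (p : Zd.Walk a v) (h : wt ω p = T ω a v) (u : V) :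
    u ∈ p.support ↔ Btw ω a u v := by
  constructor
  · intro hu
    exact le_antisymm (h ▸ T_add_le_of_mem ω p hu) (T_tri ω a u v)
  · intro hb
    obtain ⟨p₁, -, -, h1⟩ := hN.exists_geo (conn_univ a u)
    obtain ⟨p₂, -, -, h2⟩ := hN.exists_geo (conn_univ u v)
    rw [← T_eq_TS] at h1 h2
    have h3 : wt ω (p₁.append p₂) = T ω a v := by rw [wt_append, h1, h2]; exact hb
    rw [hN.uniq a v p _ (hN.isPath_of_geo p h) (hN.isPath_of_geo _ h3) (h.trans h3.symm),
      SimpleGraph.Walk.mem_support_append_iff]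
    exact Or.inl p₁.end_mem_support
theorem Btw.refl (ω : Env) (a u : V) : Btw ω a u u := by
  unfold Btw
  rw [T_self_NiceB, add_zero]
theorem Btw.trans {a u v w : V} (h : Btw ω a u v) (h' : Btw ω a v w) : Btw ω a u w := by
  unfold Btw at *
  linarith [T_tri ω u v w, T_tri ω a u w]
theorem Btw.right {a u v w : V} (h : Btw ω a u v) (h' : Btw ω a v w) : Btw ω u v w := by
  have := h.trans h'
  unfold Btw at *
  linarith
theorem Nice.btw_antisymm (hN : Nice ω) {a u v : V} (h : Btw ω a u v) (h' : Btw ω a v u) :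
    u = v := by
  by_contra hne
  unfold Btw at *
  linarith [hN.T_pos hne, T_nonneg ω v u]
theorem Nice.btw_chain (hN : Nice ω) {a u u' v : V} (h : Btw ω a u v) (h' : Btw ω a u' v) :
    Btw ω a u u' ∨ Btw ω a u' u := by
  obtain ⟨p, -, -, h1⟩ := hN.exists_geo (conn_univ a v)
  rw [← T_eq_TS] at h1
  have h2 := T_add_le_of_mem₂ ω p ((hN.mem_geo p h1 u).2 h) ((hN.mem_geo p h1 u').2 h')
  unfold Btw at *
  rcases h2 with h2 | h2
  · left; linarith [T_tri ω a u u']
  · right; linarith [T_tri ω a u' u]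
theorem T_tendsto_NiceB (hN : Nice ω) {f : ℕ → V} (hf : Function.Injective f) (x : V) :
    Tendsto (fun i => T ω x (f i)) atTop atTop :=
  tendsto_atTop.2 fun b => (eventually_notMem hf (hN.fin x b)).mono fun _ hi =>
    (not_le.1 hi).le

theorem Nice.W_tendsto (hN : Nice ω) {f : ℕ → V} (hf : Ray ω f) :
    Tendsto (W ω f) atTop atTop := by
  refine (T_tendsto_NiceB hN hf.inj (f 0)).congr fun i => ?_
  rw [hf.geo 0 i (Nat.zero_le _), W_zero, sub_zero]
theorem Nice.T_tendsto (hN : Nice ω) {f : ℕ → V} (hf : Function.Injective f) (x : V) :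
    Tendsto (fun i => T ω x (f i)) atTop atTop := by
  exact T_tendsto_NiceB hN hf x
/-- Points far from a finite set are far in passage time. -/
theorem Nice.finite_near (hN : Nice ω) {S : Set V} (hS : S.Finite) (r : ℝ) :
    {y | ∃ x ∈ S, T ω x y ≤ r}.Finite := by
  refine (hS.biUnion fun x _ => hN.fin x r).subset fun y hy => ?_
  obtain ⟨x, hx, h⟩ := hy
  exact Set.mem_biUnion hx h

end P158
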