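import Vale.Agent.P158.BuseL
import Vale.Agent.P158.BuseR
import Vale.Agent.P158.NiceB

open scoped NNReal ENNReal
open MeasureTheory Filter Topology

namespace P158

/-! Lowering heavy edges near the origin turns a quasi-bigeodesic into a record. -/

theorem rob_len (s : Stair) {x y : V} (p : Zd.Walk x y) :
    ∀ v ∈ p.support, |X s v - X s x| ≤ p.length ∧ |v.2 - x.2| ≤ p.length := by
  induction p with
  | nil => simp
  | @cons a b c h p ih =>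
    intro v hv
    rw [SimpleGraph.Walk.support_cons, List.mem_cons] at hv
    rw [SimpleGraph.Walk.length_cons]
    push_cast
    rcases hv with rfl | hv
    · simp only [sub_self, abs_zero]
      constructor <;> positivity
    · have h1 := abs_le.1 (X_adj s h)
      have h2 := abs_le.1 (snd_adj h)
      have h3 := abs_le.1 (ih v hv).1
      have h4 := abs_le.1 (ih v hv).2
      rw [abs_le, abs_le]
      omega

theorem rob_side {s : Stair} {R K : ℕ} {ω : Env} {b₀ C : ℝ} (hN : Nice ω)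
    (hL : LocP s b₀ R K C ω) (hR : 1 ≤ R) {k : ℤ} (hk : k = 0 ∨ k = 1) {S : Set V} {f : ℕ → V}
    (hf : Function.Injective f) (hc : ∀ i, Conn S (pt s k 0) (f i)) :
    ∃ σ : Finset E, (∀ e ∈ σ, b₀ ≤ ω e ∧ ∀ v ∈ e.1, v ∈ Box s 0 0 R ∩ S) ∧
      (R : ℝ) - 1 ≤ 2 * σ.card ∧ ∃ᶠ i in atTop, ∃ p : Zd.Walk (pt s k 0) (f i),
        In S p ∧ p.IsPath ∧ wt ω p = TS ω S (pt s k 0) (f i) ∧ ∀ e ∈ σ, e.1 ∈ p.edges := by
  classical
  have hE : {e : E | ∀ v ∈ e.1, v ∈ Box s 0 0 R}.Finite := by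
    refine Set.Finite.of_finite_image (f := Subtype.val) ?_ Subtype.val_injective.injOn
    refine (((finite_Box s 0 0 R).prod (finite_Box s 0 0 R)).image
      fun p : V × V => s(p.1, p.2)).subset ?_
    rintro _ ⟨⟨e, he⟩, h, rfl⟩
    induction e using Sym2.ind with
    | _ a b => exact ⟨(a, b), ⟨h a (by simp), h b (by simp)⟩, rfl⟩
  have key : ∀ᶠ i in atTop, ∃ σ ∈ hE.toFinset.powerset,
      ((∀ e ∈ σ, b₀ ≤ ω e ∧ ∀ v ∈ e.1, v ∈ Box s 0 0 R ∩ S) ∧ (R : ℝ) - 1 ≤ 2 * σ.card) ∧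
      ∃ p : Zd.Walk (pt s k 0) (f i),
        In S p ∧ p.IsPath ∧ wt ω p = TS ω S (pt s k 0) (f i) ∧ ∀ e ∈ σ, e.1 ∈ p.edges := by
    filter_upwards [eventually_notMem hf (finite_Box s k 0 R)] with i hi
    obtain ⟨p, h1, h2, h3⟩ := hN.exists_geo (hc i)
    have hl : R ≤ p.length := by
      by_contra! h
      have := rob_len s p _ p.end_mem_support
      rw [X_pt, pt_snd] at this
      exact hi ⟨by omega, by omega⟩
    have hq : (p.take (R - 1)).length + 1 = R := by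
      rw [SimpleGraph.Walk.take_length]
      omega
    have hb : ∀ e ∈ (p.take (R - 1)).edges, e ∈ p.edges ∧ ∀ v ∈ e, v ∈ Box s 0 0 R ∩ S := by
      intro e he
      have h4 : e ∈ p.edges := by
        rw [SimpleGraph.Walk.edges_take] at he
        exact List.mem_of_mem_take he
      refine ⟨h4, fun v hv => ⟨?_, h1 v (p.mem_support_of_mem_edges h4 hv)⟩⟩
      have := rob_len s _ v ((p.take (R - 1)).mem_support_of_mem_edges he hv)
      rw [X_pt, pt_snd, abs_le, abs_le] at this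
      exact ⟨abs_le.2 (by omega), abs_le.2 (by omega)⟩
    refine ⟨hE.toFinset.filter fun e => e.1 ∈ (p.take (R - 1)).edges ∧ b₀ ≤ ω e,
      Finset.mem_powerset.2 (Finset.filter_subset _ _), ⟨fun e he => ?_, ?_⟩, p, h1, h2, h3,
      fun e he => (hb _ (Finset.mem_filter.1 he).2.1).1⟩
    · exact ⟨(Finset.mem_filter.1 he).2.2, (hb _ (Finset.mem_filter.1 he).2.1).2⟩
    · have h5 := hL.heavy k hk _ (p.take (R - 1)) (h2.take _) hq
      rw [List.countP_eq_length_filter, ← List.toFinset_card_of_nodup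
        ((h2.take _).edges_nodup.filter _)] at h5
      have h6 := Finset.card_le_card_of_surjOn (s := hE.toFinset.filter fun e =>
        e.1 ∈ (p.take (R - 1)).edges ∧ b₀ ≤ ω e) Subtype.val
        (t := ((p.take (R - 1)).edges.filter
          fun e => @decide (b₀ ≤ tau ω e) (Classical.dec _)).toFinset) fun e he => by
          simp only [List.coe_toFinset, List.mem_filter, decide_eq_true_eq,
            Set.mem_ofPred_eq] at he
          refine ⟨⟨e, (p.take (R - 1)).edges_subset_edgeSet he.1⟩, ?_, rfl⟩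
          simp only [Finset.coe_filter, Set.Finite.mem_toFinset, Set.mem_ofPred_eq]
          exact ⟨fun v hv => ((hb e he.1).2 v hv).1, he.1, by rw [← tau_edge]; exact he.2⟩
      have : R ≤ 2 * (hE.toFinset.filter fun e =>
        e.1 ∈ (p.take (R - 1)).edges ∧ b₀ ≤ ω e).card + 1 := by omega
      rw [sub_le_iff_le_add]
      exact_mod_cast this
  obtain ⟨σ, -, h⟩ := (frequently_exists_finset _).1 key.frequently
  exact ⟨σ, h.exists.choose_spec.1.1, h.exists.choose_spec.1.2, h.mono fun i hi => hi.2⟩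

theorem rob_wt {ω ω' : Env} {σ : Finset E} (h : ∀ e ∉ σ, ω' e = ω e) (hle : ∀ e, ω' e ≤ ω e)
    {x y : V} {p : Zd.Walk x y} (hp : p.IsPath) (τ : Finset E) :
    ((∀ e ∈ σ, e.1 ∈ p.edges → e ∈ τ) → wt ω p - ∑ e ∈ τ, ((ω e : ℝ) - ω' e) ≤ wt ω' p) ∧
    ((∀ e ∈ τ, e ∈ σ ∧ e.1 ∈ p.edges) → wt ω' p ≤ wt ω p - ∑ e ∈ τ, ((ω e : ℝ) - ω' e)) := by
  have h0 : ∀ e, (0 : ℝ) ≤ (ω e : ℝ) - ω' e := fun e => sub_nonneg.2 (hle e)
  refine ⟨fun H => sub_le_comm.1 ?_, fun H => le_sub_comm.1 ?_⟩ <;> rw [wt_sub_wt ω ω' σ h p hp]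
  · exact Finset.sum_le_sum_of_subset_of_nonneg (fun e he => H e (Finset.mem_filter.1 he).1
      (Finset.mem_filter.1 he).2) fun e _ _ => h0 e
  · exact Finset.sum_le_sum_of_subset_of_nonneg (fun e he => Finset.mem_filter.2 (H e he))
      fun e _ _ => h0 e

theorem rob_TS {ω ω' : Env} {σ : Finset E} (h : ∀ e ∉ σ, ω' e = ω e) (hle : ∀ e, ω' e ≤ ω e)
    {S : Set V} {x y : V} (hc : Conn S x y) : TS ω' S x y ≤ TS ω S x y ∧
      TS ω S x y - ∑ e ∈ σ, ((ω e : ℝ) - ω' e) ≤ TS ω' S x y := by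
  refine ⟨le_TS_path ω hc fun p h1 h2 => ?_, le_TS_path ω' hc fun p h1 h2 => ?_⟩
  · simpa using (TS_le ω' p h1).trans ((rob_wt h hle h2 ∅).2 (by simp))
  · linarith [TS_le ω p h1, (rob_wt h hle h2 σ).1 fun e he _ => he]

theorem rob_tail {ω : Env} (hN : Nice ω) {f : ℕ → V} (hf : Ray ω f) {B : Set V} (hB : B.Finite)
    (C : ℝ) : ∃ i₀, ∀ (ω' : Env) (σ : Finset E), (∀ e ∈ σ, ∀ v ∈ e.1, v ∈ B) →
      (∀ e ∉ σ, ω' e = ω e) → (∀ e, ω' e ≤ ω e) → ∑ e ∈ σ, ((ω e : ℝ) - ω' e) ≤ C →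
      Ray ω' (fun k => f (k + i₀)) ∧ W ω' (fun k => f (k + i₀)) = W ω fun k => f (k + i₀) := by
  obtain ⟨M, hM⟩ := (hB.image (T ω (f 0))).bddAbove
  obtain ⟨i₀, h0⟩ := eventually_atTop.1 ((eventually_notMem hf.inj hB).and
    ((hN.W_tendsto hf).eventually_ge_atTop (M + C / 2)))
  refine ⟨i₀, fun ω' σ h1 h2 h3 h4 => ?_⟩
  have hW : W ω' (fun k => f (k + i₀)) = W ω fun k => f (k + i₀) := by
    funext n
    refine Finset.sum_congr rfl fun k _ => ?_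
    have e1 := tau_edge ω ⟨s(f (k + i₀), f (k + 1 + i₀)), (hf.tail i₀).adj k⟩
    have e2 := tau_edge ω' ⟨s(f (k + i₀), f (k + 1 + i₀)), (hf.tail i₀).adj k⟩
    rw [h2 _ fun h => (h0 (k + i₀) (by omega)).1 (h1 _ h _ (by simp))] at e2
    exact e2.trans e1.symm
  refine ⟨⟨(hf.tail i₀).inj, (hf.tail i₀).adj, fun i j hij => ?_⟩, hW⟩
  rw [hW, ← (hf.tail i₀).geo i j hij]
  refine le_antisymm (by rw [T_eq_TS, T_eq_TS]; exact (rob_TS h2 h3 (conn_univ _ _)).1)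
    (le_T ω' fun p hp => ?_)
  by_cases hx : ∃ x ∈ p.support, x ∈ B
  · obtain ⟨x, h5, h6⟩ := hx
    have a1 := (rob_wt h2 h3 hp σ).1 fun e he _ => he
    have a2 := T_add_le_of_mem ω p h5
    have a3 := hM ⟨x, h6, rfl⟩
    have a4 := T_tri ω (f 0) x (f (i + i₀))
    have a5 := T_tri ω (f 0) x (f (j + i₀))
    rw [hf.geo 0 _ (Nat.zero_le _), W_zero] at a4 a5
    rw [T_comm ω x] at a4
    have a6 := (h0 (i + i₀) (by omega)).2
    rw [hf.geo _ _ (by omega)]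
    linarith
  · push Not at hx
    have a1 := (rob_wt h2 h3 hp ∅).1 fun e he h => by
      obtain ⟨e, h'⟩ := e
      induction e using Sym2.ind with
      | _ a b => exact (hx a (p.fst_mem_support_of_mem_edges h) (h1 _ he a (by simp))).elim
    simpa using (T_le ω p).trans (by simpa using a1)

theorem rob_bus {ω ω' : Env} {σ τ : Finset E} (h : ∀ e ∉ σ, ω' e = ω e) (hle : ∀ e, ω' e ≤ ω e)
    (hτ : τ ⊆ σ) {S : Set V} {f : ℕ → V} {i₀ : ℕ} {z : ℤ → V} {b b' : ℤ → ℝ} {w : ℕ → ℝ}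
    (hc : ∀ i y, Conn S (f i) (z y))
    (hb : ∀ y, Tendsto (fun i => TS ω S (f (i + i₀)) (z y) - w i) atTop (𝓝 (b y)))
    (hb' : ∀ y, Tendsto (fun i => TS ω' S (f (i + i₀)) (z y) - w i) atTop (𝓝 (b' y)))
    (H : ∃ᶠ i in atTop, ∃ p : Zd.Walk (z 0) (f i),
      In S p ∧ p.IsPath ∧ wt ω p = TS ω S (z 0) (f i) ∧ ∀ e ∈ τ, e.1 ∈ p.edges) :
    (∀ y, |b' y - b y| ≤ ∑ e ∈ σ, ((ω e : ℝ) - ω' e)) ∧
      b' 0 ≤ b 0 - ∑ e ∈ τ, ((ω e : ℝ) - ω' e) := by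
  refine ⟨fun y => le_of_tendsto' ((hb' y).sub (hb y)).abs fun i => ?_, ?_⟩
  · have := rob_TS h hle (hc (i + i₀) y)
    rw [abs_sub_comm, abs_of_nonneg (by linarith [this.1])]
    linarith [this.2]
  · rw [← map_add_atTop_eq_nat i₀, frequently_map] at H
    refine le_of_tendsto_of_tendsto_of_frequently (hb' 0) ((hb 0).sub_const _)
      (H.mono fun i ⟨p, h1, h2, h3, h4⟩ => ?_)
    have := (rob_wt h hle h2 τ).2 fun e he => ⟨hτ he, h4 e he⟩
    rw [TS_comm ω', TS_comm ω]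
    linarith [TS_le ω' p h1]
theorem rob {s : Stair} {A R Λ K : ℕ} {ω : Env} {a₀ b₀ C : ℝ} {l r : ℕ → V} (hN : Nice ω)
    (hab : a₀ < b₀) (hL : LocP s b₀ R K C ω) (hC : (Λ : ℝ) + 2 ≤ C)
    (hR : 2 * ((Λ : ℝ) + 1) ≤ (b₀ - a₀) * (R - 1)) (hl : RayL s A ω l) (hr : RayR s A ω r)
    (near : ∀ i j, W ω l i + W ω r j + WW s ω l r 0 - Λ ≤ T ω (l i) (r j)) :
    ∃ σ : Finset E, (∀ e ∈ σ, ∀ v ∈ e.1, v ∈ Box s 0 0 R) ∧
      ∀ ω' : Env, (∀ e ∉ σ, ω' e = ω e) → (∀ e ∈ σ, (ω' e : ℝ) ≤ a₀) →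
        ∃ l' r', Rec s A R Λ K 0 ω' l' r' ∧
          (∃ M : ℝ, ∀ y, |bL s ω' l' y - bL s ω l y| ≤ M) ∧
          (∃ M : ℝ, ∀ y, |bR s ω' r' y - bR s ω r y| ≤ M) := by
  classical
  have hΛ : (0 : ℝ) ≤ Λ := Nat.cast_nonneg Λ
  have hR1 : 1 ≤ R := by
    by_contra! h
    rw [Nat.lt_one_iff.1 h, Nat.cast_zero] at hR
    linarith
  obtain ⟨σL, l1, l2, l3⟩ := rob_side hN hL hR1 (Or.inl rfl) (S := HLe s 0) hl.ray.inj
    fun i => conn_HLe s (by simp) (hl.side i)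
  obtain ⟨σR, r1, r2, r3⟩ := rob_side hN hL hR1 (Or.inr rfl) (S := HGe s 1) hr.ray.inj
    fun i => conn_HGe s (by simp) (hr.side i)
  have hσ : ∀ e ∈ σL ∪ σR, b₀ ≤ ω e ∧ ∀ v ∈ e.1, v ∈ Box s 0 0 R := fun e he => by
    rcases Finset.mem_union.1 he with h | h
    · exact ⟨(l1 e h).1, fun v hv => ((l1 e h).2 v hv).1⟩
    · exact ⟨(r1 e h).1, fun v hv => ((r1 e h).2 v hv).1⟩
  obtain ⟨i₀, hi⟩ := rob_tail hN hl.ray (finite_Box s 0 0 R) C
  obtain ⟨j₀, hj⟩ := rob_tail hN hr.ray (finite_Box s 0 0 R) C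
  refine ⟨σL ∪ σR, fun e he => (hσ e he).2, fun ω' h1 h2 => ?_⟩
  have hle : ∀ e, ω' e ≤ ω e := fun e => by
    by_cases he : e ∈ σL ∪ σR
    · exact NNReal.coe_le_coe.1 (by linarith [h2 e he, (hσ e he).1])
    · exact (h1 e he).le
  have h0 : ∀ e, (0 : ℝ) ≤ (ω e : ℝ) - ω' e := fun e => sub_nonneg.2 (hle e)
  have hC' : ∑ e ∈ σL ∪ σR, ((ω e : ℝ) - ω' e) ≤ C :=
    (Finset.sum_le_sum fun e _ => sub_le_self _ (ω' e).2).trans
      (hL.small _ fun e he => (hσ e he).2)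
  have hbig : ∀ τ ⊆ σL ∪ σR, (R : ℝ) - 1 ≤ 2 * τ.card →
      (Λ : ℝ) + 1 ≤ ∑ e ∈ τ, ((ω e : ℝ) - ω' e) := fun τ hτ h => by
    have := Finset.card_nsmul_le_sum τ (fun e => (ω e : ℝ) - ω' e) (b₀ - a₀) fun e he => by
      linarith [h2 e (hτ he), (hσ e (hτ he)).1]
    rw [nsmul_eq_mul] at this
    nlinarith
  have dL := hbig σL Finset.subset_union_left l2
  have dR := hbig σR Finset.subset_union_right r2
  have dU : ∑ e ∈ σL ∪ σR, ((ω e : ℝ) - ω' e) ≤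
      ∑ e ∈ σL, ((ω e : ℝ) - ω' e) + ∑ e ∈ σR, ((ω e : ℝ) - ω' e) := by
    rw [← Finset.sum_union_inter]
    exact le_add_of_nonneg_right (Finset.sum_nonneg fun e _ => h0 e)
  obtain ⟨a1, a2⟩ := hi ω' _ (fun e he => (hσ e he).2) h1 hle hC'
  obtain ⟨b1, b2⟩ := hj ω' _ (fun e he => (hσ e he).2) h1 hle hC'
  have hl' : RayL s A ω' fun k => l (k + i₀) := ⟨a1, (hl.tail i₀).side, (hl.tail i₀).cone⟩
  have hr' : RayR s A ω' fun k => r (k + j₀) := ⟨b1, (hr.tail j₀).side, (hr.tail j₀).cone⟩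
  obtain ⟨c1, c2⟩ := rob_bus h1 hle Finset.subset_union_left (z := pt s 0)
    (fun i y => conn_HLe s (hl.side i) (by simp)) (bL_tendsto (hl.tail i₀))
    (fun y => a2 ▸ bL_tendsto hl' y) l3
  obtain ⟨d1, d2⟩ := rob_bus h1 hle Finset.subset_union_right (z := pt s 1)
    (fun i y => conn_HGe s (hr.side i) (by simp)) (bR_tendsto (hr.tail j₀))
    (fun y => b2 ▸ bR_tendsto hr' y) r3
  simp only [bL_tail hl] at c1 c2
  simp only [bR_tail hr] at d1 d2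
  have ht : tau ω' s(pt s 0 0, pt s 1 0) ≤ tau ω s(pt s 0 0, pt s 1 0) := by
    have e1 := tau_edge ω ⟨s(pt s 0 0, pt s 1 0), adj_pt s 0 0⟩
    have e2 := tau_edge ω' ⟨s(pt s 0 0, pt s 1 0), adj_pt s 0 0⟩
    exact e2.trans_le ((NNReal.coe_le_coe.2 (hle _)).trans e1.ge)
  have hT : ∀ x y, T ω' x y ≤ T ω x y ∧ T ω x y - ∑ e ∈ σL ∪ σR, ((ω e : ℝ) - ω' e) ≤ T ω' x y :=
    fun x y => by
      rw [T_eq_TS, T_eq_TS]
      exact rob_TS h1 hle (conn_univ x y)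
  have hn : ∀ i j, W ω' (fun k => l (k + i₀)) i + W ω' (fun k => r (k + j₀)) j +
      WW s ω' (fun k => l (k + i₀)) (fun k => r (k + j₀)) 0 - Λ ≤ T ω (l (i + i₀)) (r (j + j₀)) -
        ∑ e ∈ σL, ((ω e : ℝ) - ω' e) - ∑ e ∈ σR, ((ω e : ℝ) - ω' e) := fun i j => by
    have := near (i + i₀) (j + j₀)
    rw [a2, b2, W_tail, W_tail]
    unfold WW at this ⊢
    linarith
  refine ⟨_, _, ⟨hl', hr', fun i j => ?_, fun i j p hp => ?_, fun u hu u' hu' y hy => ?_⟩,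
    ⟨C + |W ω l i₀|, fun y => ?_⟩, C + |W ω r j₀|, fun y => ?_⟩
  · linarith [hn i j, (hT (l (i + i₀)) (r (j + j₀))).2]
  · have key : ∀ {S : Set V} {τ τ' : Finset E}, (∀ e ∈ τ, ∀ v ∈ e.1, v ∈ S) → In Sᶜ p →
        (∀ e ∈ σL ∪ σR, e ∈ τ ∨ e ∈ τ') →
        T ω (l (i + i₀)) (r (j + j₀)) - ∑ e ∈ τ', ((ω e : ℝ) - ω' e) ≤ wt ω' p := by
      intro S τ τ' e1 e2 e3
      have := (rob_wt h1 hle p.bypass_isPath τ').1 fun e he h => (e3 e he).resolve_left fun h' => by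
        obtain ⟨e, h''⟩ := e
        induction e using Sym2.ind with
        | _ a b =>
          exact e2.bypass a (p.bypass.fst_mem_support_of_mem_edges h) (e1 _ h' a (by simp))
      linarith [T_le ω p.bypass, wt_bypass_le ω' p]
    rcases hp with hp | hp
    · linarith [hn i j, key (fun e he => (l1 e he).2) hp fun e he => Finset.mem_union.1 he]
    · linarith [hn i j, key (fun e he => (r1 e he).2) hp fun e he => (Finset.mem_union.1 he).symm]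
  · rw [sub_zero] at hy
    linarith [hL.far u hu u' hu' y hy, (hT u u').1, (hT u (pt s 0 y)).2, (hT (pt s 0 y) u').2]
  · have := abs_le.1 ((c1 y).trans hC')
    exact abs_le.2 ⟨by linarith [neg_abs_le (W ω l i₀)], by linarith [le_abs_self (W ω l i₀)]⟩
  · have := abs_le.1 ((d1 y).trans hC')
    exact abs_le.2 ⟨by linarith [neg_abs_le (W ω r j₀)], by linarith [le_abs_self (W ω r j₀)]⟩

end P158
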