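import Vale.Agent.P158.Meas

open scoped NNReal ENNReal
open MeasureTheory Filter Topology

namespace P158

/-! Integrability. -/

variable {G : Measure ℝ≥0}

theorem mean_nonneg (G : Measure ℝ≥0) : 0 ≤ mean G :=
  integral_nonneg fun t => NNReal.coe_nonneg t
theorem integrable_tau (hG : Law G) (e : Sym2 V) : Integrable (fun ω => tau ω e) (PP G) := by
  have := hG.prob
  by_cases h : e ∈ Zd.edgeSet
  · have h1 : (fun ω : Env => tau ω e) = (fun t : ℝ≥0 => (t : ℝ)) ∘ (Function.eval (⟨e, h⟩ : E)) := by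
      funext ω; exact tau_edge ω ⟨e, h⟩
    rw [h1]
    exact (measurePreserving_eval_infinitePi (fun _ : E => G) ⟨e, h⟩).integrable_comp_of_integrable
      hG.int
  · have h1 : (fun ω : Env => tau ω e) = fun _ => 0 := by
      funext ω; unfold tau; rw [dif_neg h]
    rw [h1]; exact integrable_zero _ _ _
theorem integral_tau (hG : Law G) {x y : V} (h : Zd.Adj x y) :
    ∫ ω, tau ω s(x, y) ∂PP G = mean G := by
  have := hG.prob
  have he : s(x, y) ∈ Zd.edgeSet := h
  have h1 : (fun ω : Env => tau ω s(x, y)) =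
      fun ω : Env => (fun t : ℝ≥0 => (t : ℝ)) (Function.eval (⟨s(x, y), he⟩ : E) ω) := by
    funext ω; exact tau_edge ω ⟨_, he⟩
  have hp := measurePreserving_eval_infinitePi (fun _ : E => G) (⟨s(x, y), he⟩ : E)
  rw [h1, mean]
  conv_rhs => rw [← hp.map_eq]
  rw [integral_map hp.measurable.aemeasurable
    (NNReal.continuous_coe.measurable.aestronglyMeasurable)]
theorem integrable_wt (hG : Law G) {x y : V} (p : Zd.Walk x y) :
    Integrable (fun ω => wt ω p) (PP G) := by
  induction p with
  | nil => simp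
  | cons h p ih =>
    simp only [wt_cons]
    exact (integrable_tau hG _).add ih
theorem integral_wt (hG : Law G) {x y : V} (p : Zd.Walk x y) :
    ∫ ω, wt ω p ∂PP G = p.length * mean G := by
  induction p with
  | nil => simp
  | cons h p ih =>
    simp only [wt_cons]
    rw [integral_add (integrable_tau hG _) (integrable_wt hG p), integral_tau hG h, ih]
    simp only [SimpleGraph.Walk.length_cons]; push_cast; ring
theorem integrable_TS (hG : Law G) {S : Set V} {x y : V} (h : Conn S x y) :
    Integrable (fun ω => TS ω S x y) (PP G) := by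
  obtain ⟨p, hp⟩ := h
  refine (integrable_wt hG p).mono' (measurable_TS S x y).aestronglyMeasurable
    (Eventually.of_forall fun ω => ?_)
  rw [Real.norm_eq_abs, abs_of_nonneg (TS_nonneg _ _ _ _)]
  exact TS_le ω p hp
theorem integral_TS_le (hG : Law G) {S : Set V} {x y : V} (p : Zd.Walk x y) (hp : In S p) :
    ∫ ω, TS ω S x y ∂PP G ≤ p.length * mean G := by
  rw [← integral_wt hG p]
  exact integral_mono (integrable_TS hG ⟨p, hp⟩) (integrable_wt hG p) fun ω => TS_le ω p hp
/-- Mean passage time inside any set containing a strip through the two points. -/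
theorem integral_TS_strip (hG : Law G) (s : Stair) {a b : ℤ} (hab : a < b) {S : Set V}
    (hS : Strip s a b ⊆ S) {x y : V} (hx : x ∈ Strip s a b) (hy : y ∈ Strip s a b) :
    ∫ ω, TS ω S x y ∂PP G ≤ ((|X s x - X s y| + 2 * |x.2 - y.2| : ℤ) : ℝ) * mean G := by
  obtain ⟨p, h1, h2⟩ := exists_walk s hab hx hy
  refine (integral_TS_le hG p fun v hv => hS (h1 v hv).1).trans ?_
  refine mul_le_mul_of_nonneg_right ?_ (mean_nonneg G)
  exact_mod_cast h2
/-- Counting null measurable events against an integrable bound. -/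
theorem sum_le_of_count {Ω ι : Type} [MeasurableSpace Ω] (μ : Measure Ω) [IsProbabilityMeasure μ]
    (I : Finset ι) (A : ι → Set Ω) (hA : ∀ i ∈ I, NullMeasurableSet (A i) μ) (f : Ω → ℝ)
    (hf : Integrable f μ)
    (h : ∀ᵐ ω ∂μ, ∀ J : Finset ι, J ⊆ I → (∀ i ∈ J, ω ∈ A i) → (J.card : ℝ) ≤ f ω) :
    ∑ i ∈ I, μ.real (A i) ≤ ∫ ω, f ω ∂μ := by
  classical
  have hi : ∀ i ∈ I, Integrable ((A i).indicator fun _ => (1 : ℝ)) μ := fun i hi =>
    (integrable_const (1 : ℝ)).indicator₀ (hA i hi)
  have h1 : ∑ i ∈ I, μ.real (A i) = ∫ ω, ∑ i ∈ I, (A i).indicator (fun _ => (1 : ℝ)) ω ∂μ := by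
    rw [integral_finsetSum _ hi]
    refine Finset.sum_congr rfl fun i hi => ?_
    rw [integral_indicator₀ (hA i hi)]; simp
  rw [h1]
  refine integral_mono_ae (integrable_finsetSum _ hi) hf ?_
  filter_upwards [h] with ω hω
  refine le_trans (le_of_eq ?_) (hω (I.filter fun i => ω ∈ A i) (Finset.filter_subset _ _)
    fun i hi => (Finset.mem_filter.1 hi).2)
  rw [Finset.card_filter]; push_cast
  refine Finset.sum_congr rfl fun i _ => ?_
  by_cases hh : ω ∈ A i <;> simp [hh]

end P158
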