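import Vale.Agent.P158.BuseL
import Vale.Agent.P158.BuseR
import Vale.Agent.P158.NiceB

open scoped NNReal ENNReal
open MeasureTheory Filter Topology

namespace P158

/-! Records: the gap, and distinctness of distant records. -/

variable {s : Stair} {A R Λ K : ℕ} {ω : Env} {l r l' r' : ℕ → V} {y y' : ℤ}

/-- Near-optimal walks crossing the cut once, in row `y`. -/
theorem exists_cross (hl : RayL s A ω l) (hr : RayR s A ω r) (y : ℤ) {ε : ℝ} (hε : 0 < ε) :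
    ∀ᶠ i in atTop, ∀ᶠ j in atTop, ∃ (p₁ : Zd.Walk (l i) (pt s 0 y))
      (p₂ : Zd.Walk (pt s 1 y) (r j)), In (HLe s 0) p₁ ∧ In (HGe s 1) p₂ ∧
      wt ω p₁ + tau ω s(pt s 0 y, pt s 1 y) + wt ω p₂ ≤
        W ω l i + W ω r j + WW s ω l r y + ε := by
  filter_upwards [(bL_tendsto hl y).eventually_lt_const (lt_add_of_pos_right _ (by positivity :
    0 < ε / 4))] with i hi
  filter_upwards [(bR_tendsto hr y).eventually_lt_const (lt_add_of_pos_right _ (by positivity :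
    0 < ε / 4))] with j hj
  obtain ⟨p₁, h1, -, h2⟩ := exists_lt_TS ω (conn_HLe s (hl.side i) (y := pt s 0 y) (by simp))
    (by positivity : 0 < ε / 4)
  obtain ⟨p₂, h3, -, h4⟩ := exists_lt_TS ω (conn_HGe s (hr.side j) (y := pt s 1 y) (by simp))
    (by positivity : 0 < ε / 4)
  refine ⟨p₁, p₂.reverse, h1, h3.reverse, ?_⟩
  rw [wt_reverse, WW]
  linarith
theorem Rec.quasi (h : Rec s A R Λ K y ω l r) : Quasi ω l r := ⟨WW s ω l r y - Λ, fun i j => by linarith [h.near i j]⟩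
theorem recA_lb (h : Rec s A R Λ K y ω l r) (hy : (K : ℤ) ≤ |y' - y|) {i j : ℕ}
    (q₁ : Zd.Walk (l i) (pt s 0 y')) (q₂ : Zd.Walk (pt s 1 y') (r j))
    (h₁ : In (Box s 0 y R ∩ HGe s 1)ᶜ q₁) (h₂ : In (Box s 0 y R ∩ HLe s 0)ᶜ q₂) :
    W ω l i + W ω r j + WW s ω l r y + 1 ≤ wt ω q₁ + tau ω s(pt s 0 y', pt s 1 y') + wt ω q₂ := by
  have ha : Zd.Adj (pt s 0 y') (pt s 1 y') := adj_pt s 0 y'
  have key : ∀ S : Set V, In S q₁ → In S q₂ → In S (q₁.append (.cons ha q₂)) := fun S a b v hv => by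
    rw [SimpleGraph.Walk.mem_support_append_iff, SimpleGraph.Walk.support_cons,
      List.mem_cons] at hv
    rcases hv with hv | rfl | hv
    exacts [a v hv, a _ q₁.end_mem_support, b v hv]
  have hr := h.rob i j (q₁.append (.cons ha q₂))
  rw [wt_append, wt_cons, ← add_assoc] at hr
  by_cases a : In (Box s 0 y R ∩ HLe s 0)ᶜ q₁
  · exact hr (Or.inl (key _ a h₂))
  by_cases b : In (Box s 0 y R ∩ HGe s 1)ᶜ q₂
  · exact hr (Or.inr (key _ h₁ b))
  simp only [In, Set.mem_compl_iff, not_forall, not_not] at a b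
  obtain ⟨u, a1, a2⟩ := a
  obtain ⟨u', b1, b2⟩ := b
  linarith [T_add_le_of_mem ω q₁ a1, T_add_le_of_mem ω q₂ b1, h.loc u a2.1 u' b2.1 y' hy,
    T_adj ω ha, T_tri ω (pt s 0 y') (pt s 1 y') u', T_tri ω (l i) u (r j), T_tri ω u u' (r j),
    h.near i j]

theorem recA_L {x z : V} {p : Zd.Walk x z} (h : In (HLe s 0) p) (B : Set V) :
    In (B ∩ HGe s 1)ᶜ p := fun v hv h' => by
  have h1 : X s v ≤ 0 := h v hv
  have h2 : 1 ≤ X s v := h'.2
  omega

theorem recA_R {x z : V} {p : Zd.Walk x z} (h : In (HGe s 1) p) (B : Set V) :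
    In (B ∩ HLe s 0)ᶜ p := fun v hv h' => by
  have h1 : 1 ≤ X s v := h v hv
  have h2 : X s v ≤ 0 := h'.2
  omega
theorem Rec.gap (h : Rec s A R Λ K y ω l r) (hy : (K : ℤ) ≤ |y' - y|) :
    WW s ω l r y + 1 ≤ WW s ω l r y' := by
  refine le_of_forall_pos_le_add fun ε hε => ?_
  obtain ⟨i, hi⟩ := (exists_cross h.hl h.hr y' hε).exists
  obtain ⟨j, p₁, p₂, h1, h2, h3⟩ := hi.exists
  linarith [recA_lb h hy p₁ p₂ (recA_L h1 _) (recA_R h2 _)]
theorem Sep.symm {f g : ℕ → V} (h : Sep ω f g) : Sep ω g f := by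
  obtain ⟨δ, h0, j, j', h⟩ := h
  exact ⟨δ, h0, j', j, fun k k' => by linarith [h k' k]⟩
theorem recA_conn (hN : Nice ω) {f g : ℕ → V} (hf : Ray ω f) (hg : Ray ω g) {B : Set V}
    (hB : B.Finite) (hs : ¬ Sep ω f g) : ∃ J, ∀ j ≥ J, ∀ j' ≥ J, ∃ (k k' : ℕ)
      (c : Zd.Walk (f j) (g k)) (c' : Zd.Walk (g j') (f k')), In Bᶜ c ∧ In Bᶜ c' ∧
      wt ω c + wt ω c' ≤ (W ω g k - W ω g j') + (W ω f k' - W ω f j) + 1 / 4 := by
  obtain ⟨M, hM⟩ := (hB.image fun u => T ω (f 0) u + T ω (g 0) u).bddAbove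
  obtain ⟨J, hJ⟩ := eventually_atTop.1 (((hN.W_tendsto hf).eventually_ge_atTop
    ((M + T ω (f 0) (g 0) + 1) / 2)).and
    ((hN.W_tendsto hg).eventually_ge_atTop ((M + T ω (f 0) (g 0) + 1) / 2)))
  refine ⟨J, fun j hj j' hj' => ?_⟩
  simp only [Sep, not_exists, not_and, not_forall, not_le] at hs
  obtain ⟨k, k', h⟩ := hs (1 / 4) (by norm_num) j j'
  obtain ⟨c, -, -, hc⟩ := hN.exists_geo (conn_univ (f j) (g k))
  obtain ⟨c', -, -, hc'⟩ := hN.exists_geo (conn_univ (g j') (f k'))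
  rw [← T_eq_TS] at hc hc'
  have ef : ∀ i, T ω (f 0) (f i) = W ω f i := fun i => by
    rw [hf.geo 0 i (Nat.zero_le i), W_zero, sub_zero]
  have eg : ∀ i, T ω (g 0) (g i) = W ω g i := fun i => by
    rw [hg.geo 0 i (Nat.zero_le i), W_zero, sub_zero]
  refine ⟨k, k', c, c', fun u hu hb => ?_, fun u hu hb => ?_, by linarith⟩
  · linarith [T_add_le_of_mem ω c hu, hM ⟨u, hb, rfl⟩, (hJ j hj).1, T_tri ω (f 0) u (f j),
      T_tri ω (g 0) u (g k), T_comm ω u (f j), ef j, eg k, ef k', eg j',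
      T_tri ω (f 0) (g 0) (f k'), T_tri ω (g 0) (g j') (f k')]
  · linarith [T_add_le_of_mem ω c' hu, hM ⟨u, hb, rfl⟩, (hJ j' hj').2, T_tri ω (g 0) u (g j'),
      T_tri ω (f 0) u (f k'), T_comm ω u (g j'), ef j, eg k, ef k', eg j',
      T_tri ω (g 0) (f 0) (g k), T_tri ω (f 0) (f j) (g k), T_comm ω (f 0) (g 0)]
theorem far_sep (hN : Nice ω) (h : Rec s A R Λ K y ω l r) (h' : Rec s A R Λ K y' ω l' r')
    (hy : (K : ℤ) ≤ |y - y'|) : Sep ω l l' ∨ Sep ω r r' := by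
  by_contra! H
  have hB := (finite_Box s 0 y R).union (finite_Box s 0 y' R)
  obtain ⟨J, hJ⟩ := recA_conn hN h.hl.ray h'.hl.ray hB H.1
  obtain ⟨J', hJ'⟩ := recA_conn hN h.hr.ray h'.hr.ray hB H.2
  obtain ⟨j, a1, a2⟩ := ((exists_cross h.hl h.hr y (ε := 1 / 4) (by norm_num)).and
    (eventually_ge_atTop J)).exists
  obtain ⟨j', b1, b2⟩ := ((exists_cross h'.hl h'.hr y' (ε := 1 / 4) (by norm_num)).and
    (eventually_ge_atTop J)).exists
  obtain ⟨m, ⟨p₁, p₂, a3, a4, a5⟩, a6⟩ := (a1.and (eventually_ge_atTop J')).exists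
  obtain ⟨m', ⟨q₁, q₂, b3, b4, b5⟩, b6⟩ := (b1.and (eventually_ge_atTop J')).exists
  obtain ⟨k, k', c, c', c1, c2, c3⟩ := hJ j a2 j' b2
  obtain ⟨n, n', d, d', d1, d2, d3⟩ := hJ' m a6 m' b6
  have e1 := recA_lb h (by rwa [abs_sub_comm]) (c'.reverse.append q₁) (q₂.append d')
    ((c2.reverse.mono (Set.compl_subset_compl.2 fun _ h => Or.inl h.1)).append (recA_L b3 _))
    ((recA_R b4 _).append (d2.mono (Set.compl_subset_compl.2 fun _ h => Or.inl h.1)))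
  have e2 := recA_lb h' hy (c.reverse.append p₁) (p₂.append d)
    ((c1.reverse.mono (Set.compl_subset_compl.2 fun _ h => Or.inr h.1)).append (recA_L a3 _))
    ((recA_R a4 _).append (d1.mono (Set.compl_subset_compl.2 fun _ h => Or.inr h.1)))
  rw [wt_append, wt_append, wt_reverse] at e1 e2
  linarith

end P158
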