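import Vale.Agent.P158.Cap

open scoped NNReal ENNReal
open MeasureTheory Filter Topology

namespace P158

/-! Measurable selection (Jankov - von Neumann), almost everywhere. -/

theorem sInf_Sel {Ω : Type} [MeasurableSpace Ω] {μ : Measure Ω} {B : ℕ → Set Ω}
    (hB : ∀ m, NullMeasurableSet (B m) μ) (m : ℕ) :
    NullMeasurableSet {ω | sInf {j | ω ∈ B j} = m} μ := by
  have e : {ω | sInf {j | ω ∈ B j} = m} =
      (B m ∩ ⋂ j, ⋂ _ : j < m, (B j)ᶜ) ∪ ⋂ j, ⋂ _ : j = j ∧ m = m, (B j)ᶜ ∩ {_ω | m = 0} := by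
    ext ω
    simp only [Set.mem_setOf_eq, Set.mem_union, Set.mem_inter_iff, Set.mem_iInter,
      Set.mem_compl_iff, and_self, forall_const]
    constructor
    · intro h
      by_cases hne : {j | ω ∈ B j}.Nonempty
      · left
        refine ⟨?_, fun j hj => Nat.notMem_of_lt_sInf (s := {j | ω ∈ B j}) (h ▸ hj)⟩
        have := Nat.sInf_mem hne
        rwa [h] at this
      · right
        rw [Set.not_nonempty_iff_eq_empty] at hne
        intro j
        refine ⟨fun hj => ?_, by rw [← h, hne, Nat.sInf_empty]⟩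
        have : j ∈ {j | ω ∈ B j} := hj
        rw [hne] at this
        exact this
    · rintro (⟨h1, h2⟩ | h)
      · refine le_antisymm (Nat.sInf_le h1) ?_
        by_contra hlt
        exact h2 _ (not_le.1 hlt) (Nat.sInf_mem (s := {j | ω ∈ B j}) ⟨m, h1⟩)
      · have : {j | ω ∈ B j} = ∅ := Set.eq_empty_of_forall_notMem fun j hj => (h j).1 hj
        rw [this, Nat.sInf_empty, (h 0).2]
  rw [e]
  refine ((hB m).inter (NullMeasurableSet.iInter fun j => NullMeasurableSet.iInter fun _ =>
    (hB j).compl)).union (NullMeasurableSet.iInter fun j => NullMeasurableSet.iInter fun _ =>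
    (hB j).compl.inter (MeasurableSet.const _).nullMeasurableSet)

/-- The first digits of the lexicographically first point. -/
noncomputable def digSel {Ω : Type} (A : ℕ → (ℕ → ℕ) → Set Ω) (ω : Ω) : ℕ → ℕ → ℕ
  | 0 => 0
  | k + 1 => Function.update (digSel A ω k) k
      (sInf {m | ω ∈ A (k + 1) (Function.update (digSel A ω k) k m)})

theorem dig_meas_Sel {Ω : Type} [MeasurableSpace Ω] {μ : Measure Ω} {A : ℕ → (ℕ → ℕ) → Set Ω}
    (hA : ∀ k b, NullMeasurableSet (A k b) μ) (k : ℕ) :
    ∀ P : (ℕ → ℕ) → Ω → Prop, (∀ b, NullMeasurableSet {ω | P b ω} μ) →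
      NullMeasurableSet {ω | P (digSel A ω k) ω} μ := by
  induction k with
  | zero => exact fun P hP => hP 0
  | succ k ih =>
    intro P hP
    refine ih (fun b ω => P (Function.update b k
      (sInf {m | ω ∈ A (k + 1) (Function.update b k m)})) ω) fun b => ?_
    have e : {ω | P (Function.update b k (sInf {m | ω ∈ A (k + 1) (Function.update b k m)})) ω} =
        ⋃ m : ℕ, {ω | sInf {j | ω ∈ A (k + 1) (Function.update b k j)} = m} ∩
          {ω | P (Function.update b k m) ω} := by
      ext ω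
      simp only [Set.mem_setOf_eq, Set.mem_iUnion, Set.mem_inter_iff]
      exact ⟨fun h => ⟨_, rfl, h⟩, fun ⟨m, h1, h2⟩ => h1 ▸ h2⟩
    rw [e]
    exact NullMeasurableSet.iUnion fun m =>
      (sInf_Sel (B := fun j => A (k + 1) (Function.update b k j)) (fun j => hA _ _) m).inter (hP _)

theorem dig_stab_Sel {Ω : Type} (A : ℕ → (ℕ → ℕ) → Set Ω) (ω : Ω) (k : ℕ) :
    ∀ i, i < k → digSel A ω k i = digSel A ω (i + 1) i := by
  induction k with
  | zero => intro i hi; omega
  | succ k ih =>
    intro i hi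
    rcases Nat.lt_succ_iff_lt_or_eq.1 hi with h | rfl
    · rw [digSel, Function.update_of_ne h.ne]
      exact ih i h
    · rfl

theorem lex_Sel (μ : Measure Env) [IsFiniteMeasure μ] {g : (ℕ → ℕ) → Env} (hg : Continuous g) :
    ∃ x : Env → ℕ → ℕ, NullMeasurable x μ ∧ ∀ ω ∈ Set.range g, g (x ω) = ω := by
  haveI := countable_E_Cap
  let A : ℕ → (ℕ → ℕ) → Set Env := fun k b => g '' {x | ∀ i, i < k → x i = b i}
  have hA : ∀ k b, NullMeasurableSet (A k b) μ := by
    intro k b
    refine analytic_nullMeas μ (AnalyticSet.image_of_continuous (IsClosed.analyticSet ?_) hg)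
    simp only [Set.setOf_forall]
    exact isClosed_iInter fun i => isClosed_iInter fun _ =>
      isClosed_eq (continuous_apply i) continuous_const
  refine ⟨fun ω i => digSel A ω (i + 1) i, ?_, ?_⟩
  · refine measurable_pi_lambda (X := fun _ : ℕ => ℕ) (α := NullMeasurableSpace Env μ) _
      fun i => measurable_to_countable' fun n => ?_
    exact dig_meas_Sel hA (i + 1) (fun b _ => b i = n)
      fun b => (MeasurableSet.const _).nullMeasurableSet
  · intro ω hω
    have h1 : ∀ k, ω ∈ A k (digSel A ω k) := by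
      intro k
      induction k with
      | zero =>
        obtain ⟨x, hx⟩ := hω
        exact ⟨x, fun i hi => by omega, hx⟩
      | succ k ih =>
        obtain ⟨x, hx, hx'⟩ := ih
        refine Nat.sInf_mem (s := {m | ω ∈ A (k + 1) (Function.update (digSel A ω k) k m)})
          ⟨x k, x, fun i hi => ?_, hx'⟩
        rcases Nat.lt_succ_iff_lt_or_eq.1 hi with h | rfl
        · rw [Function.update_of_ne h.ne]; exact hx i h
        · simp
    choose x hx hx' using h1
    have h2 : Tendsto x atTop (𝓝 fun i => digSel A ω (i + 1) i) := by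
      rw [tendsto_pi_nhds]
      intro i
      refine tendsto_const_nhds.congr' ?_
      filter_upwards [eventually_gt_atTop i] with n hn
      rw [hx n i hn, dig_stab_Sel A ω n i hn]
    have h3 := (hg.tendsto _).comp h2
    have h4 : (g ∘ x) = fun _ => ω := funext hx'
    rw [h4] at h3
    exact tendsto_nhds_unique h3 tendsto_const_nhds

theorem exists_sel {Y : Type} [MeasurableSpace Y] [StandardBorelSpace Y] [Nonempty Y]
    (μ : Measure Env) [IsFiniteMeasure μ] {S : Set (Env × Y)} (hS : MeasurableSet S) :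
    ∃ f : Env → Y, Measurable f ∧ ∀ᵐ ω ∂μ, (∃ y, (ω, y) ∈ S) → (ω, f ω) ∈ S := by
  haveI := countable_E_Cap
  letI := upgradeStandardBorel Y
  have hA := hS.analyticSet
  rw [AnalyticSet] at hA
  rcases hA with rfl | ⟨g, hg, rfl⟩
  · exact ⟨fun _ => Classical.arbitrary Y, measurable_const, ae_of_all _ fun ω ⟨_, h⟩ => h.elim⟩
  obtain ⟨x, hx, hx'⟩ := lex_Sel μ (continuous_fst.comp hg)
  have hf : AEMeasurable (fun ω => (g (x ω)).2) μ :=
    NullMeasurable.aemeasurable ((continuous_snd.comp hg).measurable.comp_nullMeasurable hx)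
  refine ⟨hf.mk _, hf.measurable_mk, ?_⟩
  filter_upwards [hf.ae_eq_mk] with ω hω
  rintro ⟨y, z, hz⟩
  rw [← hω]
  refine ⟨x ω, Prod.ext (hx' ω ⟨z, ?_⟩) rfl⟩
  simp [hz]

end P158
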