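import Vale.Agent.P158.StA
import Vale.Agent.P158.StB
import Vale.Agent.P158.Rob
import Vale.Agent.P158.LocA
import Vale.Agent.P158.Mod

open scoped NNReal ENNReal
open MeasureTheory Filter Topology

namespace P158

/-! There are no records. -/

/-- Lowering the weights on `σ` creates a chain of `k` records. -/
def LowCh (s : Stair) (A R Λ K k : ℕ) (a₀ : ℝ) (σ : Finset E) : Set Env :=
  {ω | ∀ ω' : Env, (∀ e ∉ σ, ω' e = ω e) → (∀ e ∈ σ, (ω' e : ℝ) ≤ a₀) → ω' ∈ Chain s A R Λ K k}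

theorem lowCh_anti {s : Stair} {A R Λ K k k' : ℕ} {a₀ : ℝ} {σ : Finset E} (h : k ≤ k') :
    LowCh s A R Λ K k' a₀ σ ⊆ LowCh s A R Λ K k a₀ σ := fun _ hω ω' h1 h2 => by
  obtain ⟨l, r, h3, h4⟩ := hω ω' h1 h2
  exact ⟨fun i => l (Fin.castLE h i), fun i => r (Fin.castLE h i), fun i => h3 _,
    fun i j hij => h4 _ _ hij⟩

open Classical in
theorem count_MainA {s : Stair} {A R Λ K Λ₂ R' K' : ℕ} {ω : Env} {a₀ b₀ C : ℝ} (hN : Nice ω)
    (hO : OrdP s A ω) (hab : a₀ < b₀) (hL : LocP s b₀ R' K' C ω)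
    (hC : ((Λ + Λ₂ : ℕ) : ℝ) + 2 ≤ C) (hR : 2 * (((Λ + Λ₂ : ℕ) : ℝ) + 1) ≤ (b₀ - a₀) * (R' - 1))
    (J : Finset ℤ) (hJ : ∀ n ∈ J, ω ∈ NearE s A R Λ K Λ₂ n) {N : ℕ} (hN' : J.card ≤ N) :
    (J.card : ℝ) ≤ ∑ σ ∈ (finite_boxEdges s R').toFinset.powerset, ∑ k ∈ Finset.range N,
      if ω ∈ LowCh s A R' (Λ + Λ₂) K' (k + 1) a₀ σ then (1 : ℝ) else 0 := by
  have ex : ∀ n : ℤ, ∃ (l r : ℕ → V) (σ : Finset E), n ∈ J →
      Rec s A R Λ K (n * (K + 1) * s.q) ω l r ∧ σ ∈ (finite_boxEdges s R').toFinset.powerset ∧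
      ∀ ω' : Env, (∀ e ∉ σ, ω' e = ω e) → (∀ e ∈ σ, (ω' e : ℝ) ≤ a₀) →
        ∃ l' r', Rec s A R' (Λ + Λ₂) K' 0 ω' l' r' ∧
          (∃ M : ℝ, ∀ y, |bL s ω' l' y - bL s ω l y| ≤ M) ∧
          (∃ M : ℝ, ∀ y, |bR s ω' r' y - bR s ω r y| ≤ M) := by
    intro n
    by_cases hn : n ∈ J
    · obtain ⟨l, r, h1, h2⟩ := hJ n hn
      obtain ⟨σ, h3, h4⟩ := rob hN hab hL hC hR h1.hl h1.hr (fun i j => by
        have := h1.near i j
        push_cast
        linarith)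
      exact ⟨l, r, σ, fun _ => ⟨h1, Finset.mem_powerset.2 fun e he => by
        simpa using h3 e he, h4⟩⟩
    · exact ⟨0, 0, ∅, fun h => absurd h hn⟩
  choose l r σ h using ex
  have hq : (1 : ℤ) ≤ s.q := by exact_mod_cast s.hq
  have far : ∀ n n' : ℤ, n ≠ n' → (K : ℤ) ≤ |n * (K + 1) * s.q - n' * (K + 1) * s.q| :=
    fun n n' hn => by
      have e : n * (K + 1) * s.q - n' * (K + 1) * s.q = (n - n') * ((K + 1) * s.q) := by ring
      have h1 : (1 : ℤ) ≤ |n - n'| := Int.one_le_abs (sub_ne_zero.2 hn)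
      have h2 : (K + 1 : ℤ) ≤ (K + 1) * s.q := le_mul_of_one_le_right (by positivity) hq
      rw [e, abs_mul, abs_of_nonneg (by positivity : (0 : ℤ) ≤ (K + 1) * s.q)]
      nlinarith
  rw [Finset.card_eq_sum_card_fiberwise (f := σ) (t := (finite_boxEdges s R').toFinset.powerset)
    fun n hn => (h n hn).2.1, Nat.cast_sum]
  refine Finset.sum_le_sum fun τ _ => ?_
  set I := J.filter fun n => σ n = τ with hI
  have mem : ∀ n ∈ I, n ∈ J ∧ σ n = τ := fun n hn => Finset.mem_filter.1 hn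
  obtain ⟨f, -, hf, hp⟩ := exists_enum I (fun n => pr s ω (l n) (r n)) fun i hi j hj hij =>
    hO R Λ K _ _ _ _ _ _ (h i (mem i hi).1).1 (h j (mem j hj).1).1 (far i j hij)
  have key : ω ∈ LowCh s A R' (Λ + Λ₂) K' I.card a₀ τ := by
    intro ω' h1 h2
    have := fun k => (h (f k) (mem _ (hf k)).1).2.2 ω' (by rw [(mem _ (hf k)).2]; exact h1)
      (by rw [(mem _ (hf k)).2]; exact h2)
    choose l' r' h3 h4 h5 using this
    exact ⟨l', r', h3, fun i j hij => (hp i j hij).of_bdd (h4 i) (h5 i) (h4 j) (h5 j)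
      (bL_chain (h3 i).hl (h3 j).hl) (bR_chain (h3 i).hr (h3 j).hr)⟩
  have hc : I.card ≤ N := (Finset.card_filter_le _ _).trans hN'
  calc (I.card : ℝ) = ∑ k ∈ Finset.range I.card,
        if ω ∈ LowCh s A R' (Λ + Λ₂) K' (k + 1) a₀ τ then (1 : ℝ) else 0 := by
        rw [Finset.sum_congr rfl fun k hk => if_pos (lowCh_anti (Finset.mem_range.1 hk) key)]
        simp
    _ ≤ _ := Finset.sum_le_sum_of_subset_of_nonneg (Finset.range_mono hc) fun k _ _ => by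
        split_ifs <;> norm_num

theorem mainA {G : Measure ℝ≥0} (hG : Law G) (s : Stair) (A : ℕ)
    (hO : ∀ᵐ ω ∂PP G, OrdP s A ω) (R Λ K : ℕ) :
    PP G {ω | ∃ l r, Rec s A R Λ K 0 ω l r} = 0 := by
  classical
  haveI := hG.prob
  by_contra hp
  obtain ⟨Λ₂, δ, hδ, H⟩ := stB hG s A R Λ K hO hp
  obtain ⟨a₀, b₀, -, hab, hρ, hb⟩ := exists_ab hG
  obtain ⟨R₀, hR₀⟩ := exists_nat_ge (2 * (((Λ + Λ₂ : ℕ) : ℝ) + 1) / (b₀ - a₀) + 1)
  obtain ⟨R', K', C, U, hR, hC, hU, hUc, hL⟩ := locA hG s (b₀ := b₀)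
    (hb.trans (by gcongr; norm_num)) R₀ (((Λ + Λ₂ : ℕ) : ℝ) + 2) hδ
  have hR' : 2 * (((Λ + Λ₂ : ℕ) : ℝ) + 1) ≤ (b₀ - a₀) * (R' - 1) := by
    have h1 : (R₀ : ℝ) ≤ R' := by exact_mod_cast hR
    rw [mul_comm (b₀ - a₀), ← div_le_iff₀ (sub_pos.2 hab)]
    linarith
  have hfin := stA hG s A R' (Λ + Λ₂) K' hO
  set B := (finite_boxEdges s R').toFinset with hB
  set ρ := G {t | (t : ℝ) ≤ a₀} with hρ'
  have ρ1 : ρ ≤ 1 := prob_le_one
  have hD : MeasurableSet {t : ℝ≥0 | (t : ℝ) ≤ a₀} :=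
    measurableSet_le measurable_coe_nnreal_real measurable_const
  have md : ∀ σ ∈ B.powerset, ∀ k, PP G (LowCh s A R' (Λ + Λ₂) K' k a₀ σ) ≤
      (ρ ^ B.card)⁻¹ * PP G (Chain s A R' (Λ + Λ₂) K' k) := fun σ hσ k => by
    have h1 := modify G σ (fun _ => {t : ℝ≥0 | (t : ℝ) ≤ a₀}) (fun _ => hD)
      (LowCh s A R' (Λ + Λ₂) K' k a₀ σ) (Chain s A R' (Λ + Λ₂) K' k) fun ω hω => hω
    rw [Finset.prod_const] at h1
    have h2 : ρ ^ B.card ≤ ρ ^ σ.card :=
      pow_le_pow_right_of_le_one' ρ1 (Finset.card_le_card (Finset.mem_powerset.1 hσ))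
    rw [← ENNReal.inv_mul_cancel_left (a := ρ ^ B.card) (pow_ne_zero _ hρ.ne')
      (ne_top_of_le_ne_top ENNReal.one_ne_top (pow_le_one' ρ1 _))
      (b := PP G (LowCh s A R' (Λ + Λ₂) K' k a₀ σ))]
    gcongr
    exact le_trans (by gcongr) h1
  refine absurd (H U hU hUc) (ne_top_of_le_ne_top (b := ∑ _σ ∈ B.powerset, (ρ ^ B.card)⁻¹ *
    ∑' k : ℕ, PP G (Chain s A R' (Λ + Λ₂) K' (k + 1))) ?_ ?_)
  · exact ENNReal.sum_ne_top.2 fun _ _ => ENNReal.mul_ne_top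
      (ENNReal.inv_ne_top.2 (pow_ne_zero _ hρ.ne')) hfin
  rw [ENNReal.tsum_eq_iSup_sum]
  refine iSup_le fun I => ?_
  set M : Finset E → ℕ → Set Env := fun σ k =>
    toMeasurable (PP G) (LowCh s A R' (Λ + Λ₂) K' (k + 1) a₀ σ) with hM
  have hi : ∀ σ k, Integrable ((M σ k).indicator fun _ => (1 : ℝ)) (PP G) := fun σ k =>
    (integrable_const _).indicator (measurableSet_toMeasurable _ _)
  have h1 := sum_le_of_count (PP G) I (fun n => U ∩ NearE s A R Λ K Λ₂ n)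
    (fun n _ => hU.nullMeasurableSet.inter (nm_NearE _ s A R Λ K Λ₂ n))
    (fun ω => ∑ σ ∈ B.powerset, ∑ k ∈ Finset.range I.card, (M σ k).indicator (fun _ => (1 : ℝ)) ω)
    (integrable_finset_sum _ fun σ _ => integrable_finset_sum _ fun k _ => hi σ k)
    (by
      filter_upwards [hO, ae_nice hG] with ω h1 h2 J hJ h3
      rcases J.eq_empty_or_nonempty with rfl | ⟨n, hn⟩
      · simp only [Finset.card_empty, Nat.cast_zero]
        exact Finset.sum_nonneg fun _ _ => Finset.sum_nonneg fun _ _ =>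
          Set.indicator_nonneg (fun _ _ => zero_le_one) _
      refine (count_MainA h2 h1 hab (hL ω (h3 n hn).1) hC hR' J (fun n hn => (h3 n hn).2)
        (Finset.card_le_card hJ)).trans ?_
      refine Finset.sum_le_sum fun σ _ => Finset.sum_le_sum fun k _ => ?_
      split_ifs with h4
      · rw [Set.indicator_of_mem (subset_toMeasurable _ _ h4)]
      · exact Set.indicator_nonneg (fun _ _ => zero_le_one) _)
  rw [integral_finset_sum _ fun σ _ => integrable_finset_sum _ fun k _ => hi σ k] at h1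
  have h2 : ∀ σ, ∫ ω, ∑ k ∈ Finset.range I.card, (M σ k).indicator (fun _ => (1 : ℝ)) ω ∂PP G =
      ∑ k ∈ Finset.range I.card, (PP G).real (LowCh s A R' (Λ + Λ₂) K' (k + 1) a₀ σ) := fun σ => by
    rw [integral_finset_sum _ fun k _ => hi σ k]
    refine Finset.sum_congr rfl fun k _ => ?_
    rw [integral_indicator (measurableSet_toMeasurable _ _), setIntegral_const, smul_eq_mul,
      mul_one, Measure.real, Measure.real, measure_toMeasurable]
  simp only [h2] at h1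
  have h3 := ENNReal.ofReal_le_ofReal h1
  rw [ENNReal.ofReal_sum_of_nonneg fun _ _ => measureReal_nonneg,
    ENNReal.ofReal_sum_of_nonneg fun _ _ => Finset.sum_nonneg fun _ _ => measureReal_nonneg] at h3
  simp only [ENNReal.ofReal_sum_of_nonneg fun _ _ => measureReal_nonneg,
    ofReal_measureReal (measure_ne_top _ _)] at h3
  refine h3.trans (Finset.sum_le_sum fun σ hσ => ?_)
  refine (Finset.sum_le_sum fun k _ => md σ hσ (k + 1)).trans ?_
  rw [← Finset.mul_sum]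
  gcongr
  exact ENNReal.sum_le_tsum _

end P158
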