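import Vale.Agent.P158.King

open scoped NNReal ENNReal
open MeasureTheory Filter Topology

namespace P158

/-! A robust curve without kinks stays in a tube. -/

theorem X_sub_Tube (s : Stair) (u v : V) : |X s u - X s v| ≤ nrm (u - v) := by
  have a := abs_le.1 (c_lip s u.2 v.2)
  have b := le_abs_self (u.1 - v.1)
  have c := neg_abs_le (u.1 - v.1)
  unfold X nrm
  simp only [Prod.fst_sub, Prod.snd_sub]
  rw [abs_le]; constructor <;> linarith

theorem fst_sub_Tube (s : Stair) (u v : V) : |u.1 - v.1| ≤ |X s u - X s v| + |u.2 - v.2| := by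
  have a := abs_le.1 (c_lip s u.2 v.2)
  have b := le_abs_self (X s u - X s v)
  have c := neg_abs_le (X s u - X s v)
  unfold X at *
  rw [abs_le]; constructor <;> linarith

theorem hit_unique_Tube {s : Stair} {f : ℕ → V} {k : ℤ} {i j : ℕ} (hi : FirstHit s f k i)
    (hj : FirstHit s f k j) : i = j := by
  rcases lt_trichotomy i j with c | c | c
  · exact absurd hi.1 (hj.2 i c)
  · exact c
  · exact absurd hj.1 (hi.2 j c)

theorem near_Tube (s : Stair) {c C e : ℝ} {Q Q' : ℕ} {ω : Env} {r : ℕ → V} (hr : Ray ω r)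
    (hlow : LowP c e Q ω) (hloop : LoopP C e Q' ω) {a t b s₁ : ℕ} (h1 : a ≤ t) (h2 : t ≤ b)
    (hs : e * (nrm (r a) : ℝ) + Q' ≤ s₁) (hx : |(r b).1 - (r a).1| ≤ s₁)
    (hy : |(r b).2 - (r a).2| ≤ s₁) (h0 : 4 * (s₁ : ℤ) < X s (r a) - X s (r 0)) :
    c * (nrm (r t - r a) : ℝ) ≤ C * s₁ + e * (nrm (r a) : ℝ) + Q := by
  obtain ⟨x₁, x₂, y₁, y₂, b1, b2, b3, b4, b5, b6, b7, b8, H⟩ := hloop (r a) s₁ hs
  have step : ∀ i, |(r (i + 1)).1 - (r i).1| ≤ 1 ∧ |(r (i + 1)).2 - (r i).2| ≤ 1 := fun i =>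
    ⟨fst_adj (hr.adj i).symm, snd_adj (hr.adj i).symm⟩
  have hs0 : (0 : ℤ) ≤ s₁ := Int.natCast_nonneg _
  obtain ⟨k₁, -, k1, k2⟩ := hit_RB_in step (x₁ := x₁) (x₂ := x₂) (y₁ := y₁) (y₂ := y₂)
    (Nat.zero_le a) (by
      rintro ⟨d1, d2, d3, d4⟩
      have f := (abs_le.1 (X_sub_Tube s (r a) (r 0))).2
      unfold nrm at f
      simp only [Prod.fst_sub, Prod.snd_sub] at f
      have g1 : |(r a).1 - (r 0).1| ≤ 2 * s₁ := abs_le.2 ⟨by omega, by omega⟩
      have g2 : |(r a).2 - (r 0).2| ≤ 2 * s₁ := abs_le.2 ⟨by omega, by omega⟩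
      omega) ⟨by omega, by omega, by omega, by omega⟩
  have hx := abs_le.1 hx
  have hy := abs_le.1 hy
  obtain ⟨k₂, k3, k4⟩ := hit_RB_inj hr.inj step (x₁ := x₁) (x₂ := x₂) (y₁ := y₁) (y₂ := y₂)
    (i := b) ⟨by omega, by omega, by omega, by omega⟩
  have f1 := H _ k2 _ k4
  rw [hr.geo k₁ k₂ (by omega)] at f1
  have f2 := hlow (r a) (r t)
  rw [hr.geo a t h1] at f2
  have f3 := W_mono ω r k1
  have f4 := W_mono ω r (h2.trans k3)
  linarith

set_option maxHeartbeats 3200000 in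
theorem tube (s : Stair) (A : ℕ) {c C β : ℝ} (hc : 0 < c) (hC : 0 < C) (hβ : 0 < β) :
    ∃ (γ e : ℝ) (J : ℕ), 0 < γ ∧ 0 < e ∧ 1 ≤ J ∧ ∀ (R K Q Q' : ℕ) (η : ℝ), ∃ n₀ : ℕ,
      ∀ m : ℕ, n₀ ≤ m → ∀ (ω : Env) (k : ℕ) (y : ℤ) (l r : ℕ → V), LowP c e Q ω →
        LoopP C e Q' ω → k < J * m → 0 ≤ y → y < J * m → RC s A R K η k y ω l r →
        (∀ i ≤ J, ω ∉ Kink s A R K η γ (J * m + k) (2 * (J * m) + i * m - k) k y) →
        TubeOK s (J * m) (β * (J * m)) l r := by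
  obtain ⟨L, hL⟩ : ∃ L : ℝ, L = 4 * (A + 2) * (4 * C + 2) / c + 4 := ⟨_, rfl⟩
  have hA : (0 : ℝ) ≤ A := Nat.cast_nonneg A
  have hL0 : 0 < L := by rw [hL]; positivity
  obtain ⟨θ, hθ0, hθ1, hθ2⟩ : ∃ θ : ℝ, 0 < θ ∧ θ ≤ 1 / 32 ∧ L * θ ≤ β :=
    ⟨min (1 / 32) (β / L), by positivity, min_le_left _ _, by
      rw [mul_comm, ← le_div_iff₀ hL0]; exact min_le_right _ _⟩
  obtain ⟨J, hJ⟩ := exists_nat_ge ((A + 2) / θ + 1)
  have hJ1 : (1 : ℝ) ≤ J := le_trans (by have : 0 ≤ (A + 2) / θ := by positivity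
                                         linarith) hJ
  have hJ1' : 1 ≤ J := by exact_mod_cast hJ1
  have hJ2 : (A + 2 : ℝ) ≤ θ * J := by
    rw [mul_comm, ← div_le_iff₀ hθ0]; linarith
  refine ⟨θ / 6, θ / (6 * A + 7), J, by positivity, by positivity, hJ1', fun R K Q Q' η => ?_⟩
  obtain ⟨n₀, hn₀⟩ := exists_nat_ge (2 * R + 1 + (Q + Q' + 1) / θ)
  refine ⟨n₀, fun m hm ω k y l r hlow hloop hk hy0 hy1 h hK => ?_⟩
  obtain ⟨n, hn⟩ : ∃ n : ℕ, n = J * m := ⟨_, rfl⟩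
  have hnr : (J : ℝ) * m = n := by rw [hn]; push_cast; ring
  have hnz : (J : ℤ) * m = n := by rw [hn]; push_cast; ring
  rw [hnr, ← hn]
  rw [hnz] at hy1
  rw [← hn] at hK hk
  have hm0 : (0 : ℝ) ≤ m := Nat.cast_nonneg m
  have hmn : (n₀ : ℝ) ≤ n := by
    have : (n₀ : ℝ) ≤ m := by exact_mod_cast hm
    nlinarith
  have hQ0 : (0 : ℝ) ≤ Q := Nat.cast_nonneg _
  have hQ1 : (0 : ℝ) ≤ Q' := Nat.cast_nonneg _
  have hR0 : (0 : ℝ) ≤ R := Nat.cast_nonneg _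
  have hQ : (Q + Q' + 1 : ℝ) ≤ θ * n := by
    rw [mul_comm, ← div_le_iff₀ hθ0]; linarith
  have hRn : (2 * R + 1 : ℝ) ≤ n := by
    have : 0 ≤ (Q + Q' + 1 : ℝ) / θ := by positivity
    linarith
  have hRz : (2 * R + 1 : ℤ) ≤ n := by exact_mod_cast hRn
  have hkz : (k : ℤ) < n := by exact_mod_cast hk
  have hkr : (k : ℝ) < n := by exact_mod_cast hk
  have hk0 : (0 : ℝ) ≤ k := Nat.cast_nonneg _
  have hbr := abs_le.1 h.br.1
  intro i j j' hi hj hj' hX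
  have ex : ∀ t : ℕ, ∃ a, FirstHit s r (2 * n + t * m) a := fun t => by
    have : (0 : ℤ) ≤ t * m := by positivity
    obtain ⟨a, ha, -⟩ := exists_hitR s h.hr.inj h.hr.adj h.sr h.cr (N := 2 * n + t * m) (by omega)
    exact ⟨a, ha⟩
  choose g hg using ex
  have gJ : g J = j := hit_unique_Tube (hg J) (by rw [hnz]; convert hj using 1; ring)
  have g0 : g 0 ≤ j' := by
    by_contra d
    exact (hg 0).2 j' (by omega) (by rw [hX]; simp)
  have hex : ∃ t, j' ≤ g (t + 1) := ⟨J - 1, by rw [Nat.sub_add_cancel hJ1', gJ]; exact hj'⟩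
  obtain ⟨t, ht1, ht2, ht3⟩ : ∃ t, t + 1 ≤ J ∧ g t ≤ j' ∧ j' ≤ g (t + 1) := by
    classical
    refine ⟨Nat.find hex, ?_, ?_, Nat.find_spec hex⟩
    · have := Nat.find_min' hex (m := J - 1) (by rw [Nat.sub_add_cancel hJ1', gJ]; exact hj')
      omega
    · rcases Nat.eq_zero_or_pos (Nat.find hex) with d | d
      · rw [d]; exact g0
      · have := Nat.find_min hex (m := Nat.find hex - 1) (by omega)
        rw [Nat.sub_add_cancel d] at this
        omega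
  obtain ⟨σ, hσ⟩ : ∃ σ : ℝ, σ = -((((l i).2 - y : ℤ) : ℝ)) / (n + k) := ⟨_, rfl⟩
  have hn1 : (0 : ℝ) < n + k := by linarith
  have hσ1 : ((((l i).2 - y : ℤ) : ℝ)) = -σ * (n + k) := by rw [hσ]; field_simp
  have hσ2 : |σ| ≤ A + 1 := by
    have d := h.cl i
    rw [hi.1, abs_of_nonpos (by omega : -(n:ℤ) - k ≤ 0)] at d
    have d' : |(((l i).2 - y : ℤ) : ℝ)| ≤ A * (n + k) + R := by
      have : ((|(l i).2 - y| : ℤ) : ℝ) ≤ ((A * -(-(n:ℤ) - k) + R : ℤ) : ℝ) := by exact_mod_cast d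
      push_cast at this ⊢
      linarith
    rw [hσ1, abs_mul, abs_neg, abs_of_pos hn1] at d'
    refine le_of_mul_le_mul_right ?_ hn1
    nlinarith
  have hh : ∀ u ≤ J, |(((r (g u)).2 - y : ℤ) : ℝ) - σ * (2 * n + u * m - k)| ≤ θ / 2 * n := by
    intro u hu
    have hum : u * m ≤ n := by rw [hn]; exact Nat.mul_le_mul_right m hu
    have humr : (u : ℝ) * m ≤ n := by exact_mod_cast hum
    have hum0 : (0 : ℝ) ≤ u * m := by positivity
    have e2 : ((2 * n + u * m - k : ℕ) : ℤ) = 2 * n + u * m - k := by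
      rw [Nat.cast_sub (by omega)]; push_cast; ring
    have e3 : ((2 * n + u * m - k : ℕ) : ℝ) = 2 * n + u * m - k := by
      rw [Nat.cast_sub (by omega)]; push_cast; ring
    have d := hK u hu
    by_contra d'
    refine d ⟨l, r, i, g u, h, ?_, ?_, ?_⟩
    · convert hi using 1; push_cast; ring
    · convert hg u using 1; rw [e2]; ring
    · rw [e3, hσ1]
      push_cast at d' ⊢
      rw [show -σ * (n + k) * (2 * n + u * m - k) + ((r (g u)).2 - y) * (n + k) =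
        ((r (g u)).2 - y - σ * (2 * n + u * m - k)) * (n + k) by ring, abs_mul, abs_of_pos hn1]
      have d'' := not_le.1 d'
      have f1 : θ / 6 * (2 * n + u * m - k) ≤ θ / 6 * (3 * n) :=
        mul_le_mul_of_nonneg_left (by linarith) (by positivity)
      have f2 : θ / 6 * (2 * n + u * m - k) ≤ |(r (g u)).2 - y - σ * (2 * n + u * m - k)| := by
        linarith
      have f3 := mul_le_mul_of_nonneg_right f2 hn1.le
      linarith
  have htm : (t + 1) * m ≤ n := by rw [hn]; exact Nat.mul_le_mul_right m ht1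
  have htmz : ((t : ℤ) + 1) * m ≤ n := by exact_mod_cast htm
  have htm0 : (0 : ℤ) ≤ t * m := by positivity
  have hmz : (0 : ℤ) ≤ m := Int.natCast_nonneg m
  have hAm : (A + 2 : ℝ) * m ≤ θ * n := by rw [← hnr]; nlinarith
  have hXa := (hg t).1
  have hXb := (hg (t + 1)).1
  have hnrm : (nrm (r (g t)) : ℝ) ≤ (6 * A + 7) * n := by
    have d := h.cr (g t)
    rw [hXa, abs_of_nonneg (by omega : (0:ℤ) ≤ 2 * n + t * m - k)] at d
    have d := abs_le.1 d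
    have hAz : (0 : ℤ) ≤ A := Int.natCast_nonneg A
    have d1 : |(r (g t)).2| ≤ (3 * A + 2) * n := abs_le.2 ⟨by nlinarith, by nlinarith⟩
    have d2 := fst_sub_Tube s (r (g t)) (0, 0)
    have d3 : X s (0, 0) = 0 := by simp [X, s.c0]
    rw [d3, hXa, sub_zero, sub_zero, sub_zero,
      abs_of_nonneg (by omega : (0:ℤ) ≤ 2 * n + t * m)] at d2
    have : nrm (r (g t)) ≤ (6 * A + 7) * n := by unfold nrm; nlinarith
    exact_mod_cast this
  have he : θ / (6 * A + 7) * (nrm (r (g t)) : ℝ) ≤ θ * n := by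
    rw [div_mul_eq_mul_div, div_le_iff₀ (by positivity)]; nlinarith
  have hdy : |(((r (g (t + 1))).2 - (r (g t)).2 : ℤ) : ℝ)| ≤ (A + 1) * m + θ * n := by
    have d1 := abs_le.1 (hh t (by omega))
    have d2 := abs_le.1 (hh (t + 1) ht1)
    have d3 := abs_le.1 hσ2
    push_cast at d1 d2 ⊢
    rw [abs_le]; constructor <;> nlinarith
  have hdx : |(((r (g (t + 1))).1 - (r (g t)).1 : ℤ) : ℝ)| ≤ (A + 2) * m + θ * n := by
    have d := fst_sub_Tube s (r (g (t + 1))) (r (g t))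
    rw [hXa, hXb, show 2 * (n:ℤ) + ((t + 1 : ℕ) : ℤ) * m - (2 * n + t * m) = m by push_cast; ring,
      abs_of_nonneg hmz] at d
    have d' : ((|(r (g (t + 1))).1 - (r (g t)).1| : ℤ) : ℝ) ≤
        ((m + |(r (g (t + 1))).2 - (r (g t)).2| : ℤ) : ℝ) := by exact_mod_cast d
    push_cast at d' hdy ⊢
    linarith
  have hθn : 0 ≤ θ * n := by positivity
  obtain ⟨s₁, hs1, hs2⟩ : ∃ s₁ : ℕ, 3 * (θ * n) ≤ s₁ ∧ (s₁ : ℝ) ≤ 4 * (θ * n) :=
    ⟨⌈3 * (θ * n)⌉₊, Nat.le_ceil _, by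
      have := Nat.ceil_lt_add_one (a := 3 * (θ * n)) (by positivity)
      linarith⟩
  have hD := near_Tube s h.hr hlow hloop ht2 ht3 (s₁ := s₁) (by linarith)
    (by have : ((|(r (g (t + 1))).1 - (r (g t)).1| : ℤ) : ℝ) ≤ ((s₁ : ℤ) : ℝ) := by
          push_cast at hdx ⊢; linarith
        exact_mod_cast this)
    (by have : ((|(r (g (t + 1))).2 - (r (g t)).2| : ℤ) : ℝ) ≤ ((s₁ : ℤ) : ℝ) := by
          push_cast at hdy ⊢; nlinarith
        exact_mod_cast this)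
    (by have : (8 * s₁ : ℝ) ≤ n := by nlinarith
        have : (8 * s₁ : ℤ) ≤ n := by exact_mod_cast this
        rw [hXa]; omega)
  obtain ⟨D, hDD⟩ : ∃ D : ℝ, D = (nrm (r j' - r (g t)) : ℝ) := ⟨_, rfl⟩
  have hD2 : D ≤ (4 * C + 2) / c * (θ * n) := by
    rw [div_mul_eq_mul_div, le_div_iff₀ hc, hDD]; nlinarith
  have hD3 : (t : ℝ) * m ≤ D := by
    have d := (abs_le.1 (X_sub_Tube s (r j') (r (g t)))).1
    rw [hX, hXa] at d
    have : (t : ℤ) * m ≤ nrm (r j' - r (g t)) := by omega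
    rw [hDD]; exact_mod_cast this
  have hD4 : |(((r j').2 - (r (g t)).2 : ℤ) : ℝ)| ≤ D := by
    have : |(r j').2 - (r (g t)).2| ≤ nrm (r j' - r (g t)) := by
      unfold nrm; simp only [Prod.fst_sub, Prod.snd_sub]
      have := abs_nonneg ((r j').1 - (r (g t)).1); omega
    rw [hDD]; exact_mod_cast this
  have d1 := abs_le.1 (hh t (by omega))
  have d2 := abs_le.1 (hh J le_rfl)
  have d3 := abs_le.1 hσ2
  have d4 := abs_le.1 hD4
  rw [gJ, hnr] at d2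
  have d5 : 0 ≤ (t : ℝ) * m := by positivity
  have d6 : |σ * (t * m)| ≤ (A + 1) * D := by
    rw [abs_mul, abs_of_nonneg d5]; exact mul_le_mul hσ2 hD3 d5 (by positivity)
  have d6 := abs_le.1 d6
  have d7 : 4 * (A + 2) * D + 4 * (θ * n) ≤ β * n := by
    have f1 : 4 * (A + 2) * D ≤ 4 * (A + 2) * ((4 * C + 2) / c * (θ * n)) :=
      mul_le_mul_of_nonneg_left hD2 (by positivity)
    have f2 : L * θ * n ≤ β * n := mul_le_mul_of_nonneg_right hθ2 (Nat.cast_nonneg n)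
    have f3 : L * θ * n = 4 * (A + 2) * ((4 * C + 2) / c * (θ * n)) + 4 * (θ * n) := by
      rw [hL]; ring
    linarith
  push_cast at d1 d2 d4 hσ1 ⊢
  rw [abs_le]; constructor <;> linarith

end P158
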