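import Vale.Agent.P158.NcD
import Vale.Agent.P158.Tube
import Vale.Agent.P158.ColP
import Vale.Agent.P158.Loop
import Vale.Agent.P158.Pei
import Vale.Agent.P158.NiceA

open scoped NNReal ENNReal
open MeasureTheory Filter Topology

namespace P158

/-! Branching events are null. -/

theorem tubeOK_mono_NcP {s : Stair} {n : ℕ} {b b' : ℝ} {l r : ℕ → V} (h : TubeOK s n b l r)
    (hb : b ≤ b') : TubeOK s n b' l r := fun i j j' a1 a2 a3 a4 => (h i j j' a1 a2 a3 a4).trans hb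

theorem arith_NcP {κ η μ B L β n M b : ℝ} (hη : 0 < η) (hμ : 0 ≤ μ) (hκ : 0 < κ) (hB : 1 ≤ B)
    (hL : 0 < L) (hβ : 0 < β) (hβ' : 96 * β * B * μ ≤ η * (κ / (16 * L ^ 2))) (hn : 1 ≤ n)
    (hM : n ≤ 2 * L * M) (hb1 : β * n ≤ b) (hb2 : b ≤ 2 * β * n)
    (hn' : 3 * B * (2 * B / β + 2) < κ / (16 * L ^ 2) * n)
    (H : M * M * (κ / 2) ≤ (2 * (B * n) + 1) * (2 * (B * n) / b + 2) +
      12 * b / η * (4 * (B * n) * μ)) : False := by
  have hb0 : 0 < b := lt_of_lt_of_le (by positivity) hb1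
  have h1 : 2 * (B * n) / b ≤ 2 * B / β := by
    rw [div_le_div_iff₀ hb0 hβ]; nlinarith
  have h2 : (2 * (B * n) + 1) * (2 * (B * n) / b + 2) ≤ 3 * B * n * (2 * B / β + 2) :=
    mul_le_mul (by nlinarith) (by linarith) (by positivity) (by positivity)
  have h3 : 12 * b / η * (4 * (B * n) * μ) ≤ κ / (16 * L ^ 2) * n ^ 2 := by
    rw [div_mul_eq_mul_div, div_le_iff₀ hη]
    have a1 : 12 * b * (4 * (B * n) * μ) ≤ 12 * (2 * β * n) * (4 * (B * n) * μ) :=
      mul_le_mul_of_nonneg_right (by linarith) (by positivity)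
    have a2 := mul_le_mul_of_nonneg_right hβ' (sq_nonneg n)
    nlinarith
  have h4 : κ / (8 * L ^ 2) * n ^ 2 ≤ M * M * (κ / 2) := by
    have a1 : n ^ 2 ≤ (2 * L * M) ^ 2 := pow_le_pow_left₀ (by linarith) hM 2
    rw [div_mul_eq_mul_div, div_le_iff₀ (by positivity)]
    nlinarith
  have h5 := mul_lt_mul_of_pos_right hn' (by linarith : 0 < n)
  have h6 : κ / (8 * L ^ 2) = 2 * (κ / (16 * L ^ 2)) := by field_simp; norm_num
  rw [h6] at h4
  nlinarith

set_option maxHeartbeats 1600000 in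
theorem ncP {G : Measure ℝ≥0} (hG : Law G) (s : Stair) (A R K : ℕ) {η : ℝ} (hη : 0 < η) :
    PP G (NEv s A R K η 0 0) = 0 := by
  classical
  have := hG.prob
  by_contra h0
  obtain ⟨κ, hκ⟩ : ∃ κ, κ = (PP G).real (NEv s A R K η 0 0) := ⟨_, rfl⟩
  have hκ0 : 0 < κ := by rw [hκ]; exact ENNReal.toReal_pos h0 (measure_ne_top _ _)
  obtain ⟨c, hc, hlow⟩ := low hG
  obtain ⟨C, hC, hloop⟩ := loop hG
  obtain ⟨L, hL⟩ : ∃ L : ℕ, L = (2 * R + 1) * s.q := ⟨_, rfl⟩
  have hq := s.hq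
  have hL0 : 0 < L := by rw [hL]; positivity
  have hL1 : (0 : ℝ) < L := by exact_mod_cast hL0
  obtain ⟨B, hB⟩ : ∃ B : ℝ, B = 3 * A + 2 := ⟨_, rfl⟩
  have hB1 : 1 ≤ B := by rw [hB]; have : (0 : ℝ) ≤ A := Nat.cast_nonneg A; linarith
  have hμ := mean_nonneg G
  obtain ⟨β, hβ, hβ'⟩ : ∃ β : ℝ, 0 < β ∧ 96 * β * B * mean G ≤ η * (κ / (16 * L ^ 2)) := by
    refine ⟨η * (κ / (16 * L ^ 2)) / (96 * B * (mean G + 1)), by positivity, ?_⟩
    rw [show 96 * (η * (κ / (16 * L ^ 2)) / (96 * B * (mean G + 1))) * B * mean G =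
      η * (κ / (16 * L ^ 2)) * (mean G / (mean G + 1)) by field_simp]
    exact mul_le_of_le_one_right (by positivity) ((div_le_one (by positivity)).2 (by linarith))
  obtain ⟨γ, e, J, hγ, he, hJ, htube⟩ := tube s A hc hC hβ
  have hδ : 0 < ENNReal.ofReal (κ / 8) := ENNReal.ofReal_pos.2 (by positivity)
  obtain ⟨Q, U₁, m1, p1, hU₁⟩ := hlow e he _ hδ
  obtain ⟨Q', U₂, m2, p2, hU₂⟩ := hloop e he _ hδ
  obtain ⟨n₀, hn₀⟩ := htube R K Q Q' η
  obtain ⟨n₁, hn₁⟩ := colP hG s A R K hη hγ (ε := κ / (8 * (J + 1))) (by positivity)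
  obtain ⟨n₂, hn₂⟩ := exists_nat_gt (1 / β + 3 * B * (2 * B / β + 2) / (κ / (16 * L ^ 2)))
  obtain ⟨m, hm⟩ : ∃ m : ℕ, m = n₀ + n₁ + n₂ + 2 * L + R + 1 := ⟨_, rfl⟩
  obtain ⟨n, hn⟩ : ∃ n : ℕ, n = J * m := ⟨_, rfl⟩
  have hmn : m ≤ n := by rw [hn]; exact Nat.le_mul_of_pos_left m hJ
  have hnr : (J : ℝ) * m = n := by rw [hn]; push_cast; ring
  have hnz : (J : ℤ) * m = n := by rw [hn]; push_cast; ring
  have hn2 : (n₂ : ℝ) ≤ n := by exact_mod_cast (by omega : n₂ ≤ n)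
  have hn1 : (1 : ℝ) ≤ n := by exact_mod_cast (by omega : 1 ≤ n)
  have hβn : 1 ≤ β * n := by
    have : 0 ≤ 3 * B * (2 * B / β + 2) / (κ / (16 * L ^ 2)) := by positivity
    rw [mul_comm, ← div_le_iff₀ hβ]; linarith
  obtain ⟨M, hM⟩ : ∃ M : ℕ, M = n / L := ⟨_, rfl⟩
  have hM1 : L * M ≤ n := by rw [hM]; exact Nat.mul_div_le n L
  have hM2 : n ≤ 2 * L * M := by
    have a1 : n < L * (M + 1) := by rw [hM]; exact Nat.lt_mul_div_succ n hL0
    have a2 : 1 ≤ M := by rw [hM]; exact (Nat.le_div_iff_mul_le hL0).2 (by omega)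
    nlinarith
  obtain ⟨b, hb⟩ : ∃ b : ℕ, b = ⌈β * n⌉₊ := ⟨_, rfl⟩
  have hb1 : β * n ≤ b := hb ▸ Nat.le_ceil _
  have hb2 : (b : ℝ) ≤ 2 * β * n := by
    have := Nat.ceil_lt_add_one (a := β * n) (by positivity)
    rw [← hb] at this; linarith
  have hb3 : 1 ≤ b := by exact_mod_cast (hβn.trans hb1)
  obtain ⟨N, hN⟩ : ∃ N : ℕ, N = (3 * A + 2) * n := ⟨_, rfl⟩
  have hNr : (N : ℝ) = B * n := by rw [hN, hB]; push_cast; ring
  let Ev : ℕ × ℕ → Set Env := fun x =>
    (NEv s A R K η (L * x.1 : ℕ) (((2 * R + 1) * x.2 : ℕ) * s.q) ∩ U₁ ∩ U₂) \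
      ⋃ i ∈ Finset.range (J + 1), Kink s A R K η γ (n + L * x.1) (2 * n + i * m - L * x.1)
        (L * x.1 : ℕ) (((2 * R + 1) * x.2 : ℕ) * s.q)
  have hx1 : ∀ x < M, L * x < n := fun x hx => by nlinarith
  have m3 : ∀ i : ℤ, pt s (3 * n) i ∈ Strip s (2 * n) (3 * n) :=
    fun i => ⟨by rw [X_pt]; omega, by rw [X_pt]⟩
  have hab : 2 * (n : ℤ) < 3 * n := by omega
  have hcon := conn_Strip s hab (m3 (-N)) (m3 N)
  have key := sum_le_of_count (PP G) (Finset.range M ×ˢ Finset.range M) Ev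
    (fun x _ => (((nm_NEv _ _ _ _ _ _ _ _).inter m1.nullMeasurableSet).inter
      m2.nullMeasurableSet).diff (Finset.nullMeasurableSet_biUnion _ fun i _ =>
        nm_Kink _ _ _ _ _ _ _ _ _ _ _))
    (fun ω => (2 * (N : ℝ) + 1) * (2 * N / b + 2) + 12 * b / η *
      TS ω (Strip s (2 * n) (3 * n)) (pt s (3 * n) (-N)) (pt s (3 * n) N))
    ((integrable_const _).add ((integrable_TS hG hcon).const_mul _)) (by
      filter_upwards [ae_nice hG] with ω hω I hI hI'
      have hI2 : ∀ x ∈ I, x.1 < M ∧ x.2 < M := fun x hx => by simpa using hI hx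
      have ey : ∀ x : ℕ, (((2 * R + 1) * x : ℕ) : ℤ) * s.q = ((L * x : ℕ) : ℤ) := fun x => by
        rw [hL]; push_cast; ring
      have hLz : (2 * R + 1 : ℤ) ≤ L := by
        have : 2 * R + 1 ≤ L := by rw [hL]; exact Nat.le_mul_of_pos_right _ hq
        exact_mod_cast this
      have sep : ∀ x x' : ℕ, x ≠ x' → (2 * R : ℤ) < |((L * x : ℕ) : ℤ) - ((L * x' : ℕ) : ℤ)| := by
        intro x x' hne
        have a1 : (1 : ℤ) ≤ |(x : ℤ) - x'| := Int.one_le_abs (by omega)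
        push_cast
        rw [← mul_sub, abs_mul, abs_of_nonneg (Int.natCast_nonneg L)]
        nlinarith
      have inj : Function.Injective fun x : ℕ × ℕ => (((L * x.1 : ℕ) : ℤ), ((L * x.2 : ℕ) : ℤ)) := by
        intro x x' hh
        simp only [Prod.mk.injEq, Nat.cast_inj] at hh
        exact Prod.ext (Nat.eq_of_mul_eq_mul_left hL0 hh.1) (Nat.eq_of_mul_eq_mul_left hL0 hh.2)
      have D := ncD (s := s) (A := A) (R := R) (K := K) (n := n) (b := b) hω hη hb3 (by omega)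
        (I.image fun x : ℕ × ℕ => (((L * x.1 : ℕ) : ℤ), ((L * x.2 : ℕ) : ℤ)))
        (by
          intro z hz
          obtain ⟨x, hx, rfl⟩ := Finset.mem_image.1 hz
          have a1 := hx1 _ (hI2 x hx).1
          have a2 := hx1 _ (hI2 x hx).2
          dsimp only
          omega)
        (by
          intro z hz z' hz' hne
          obtain ⟨x, hx, rfl⟩ := Finset.mem_image.1 hz
          obtain ⟨x', hx', rfl⟩ := Finset.mem_image.1 hz'
          by_cases d : x.1 = x'.1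
          · exact Or.inr (sep _ _ fun d' => hne (by rw [d, d']))
          · exact Or.inl (sep _ _ d))
        (by
          intro z hz
          obtain ⟨x, hx, rfl⟩ := Finset.mem_image.1 hz
          obtain ⟨⟨⟨⟨l, r₁, r₂, a1⟩, a2⟩, a3⟩, a4⟩ := hI' x hx
          rw [ey] at a1 a4
          have a5 := hx1 _ (hI2 x hx).1
          have a6 := hx1 _ (hI2 x hx).2
          have a7 : ∀ r, RC s A R K η (L * x.1 : ℕ) (L * x.2 : ℕ) ω l r → TubeOK s n b l r := by
            intro r hr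
            have := hn₀ m (by omega) ω (L * x.1) (L * x.2 : ℕ) l r (hU₁ ω a2) (hU₂ ω a3)
              (by omega) (Int.natCast_nonneg _) (by omega) hr (fun i hi hk => a4 (by
                rw [← hn] at hk
                exact Set.mem_biUnion (Finset.mem_coe.2 (Finset.mem_range.2 (by omega))) hk))
            rw [hnr, ← hn] at this
            exact tubeOK_mono_NcP this hb1
          exact ⟨l, r₁, r₂, a1, a7 _ a1.c1, a7 _ a1.c2⟩)
      rw [Finset.card_image_of_injective _ inj, ← hN] at D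
      refine le_of_mul_le_mul_left ?_ hη
      rw [mul_add, ← mul_assoc η (12 * b / η), mul_div_cancel₀ _ hη.ne', ← mul_assoc]
      exact D)
  rw [integral_add (integrable_const _) ((integrable_TS hG hcon).const_mul _), integral_const,
    integral_const_mul, probReal_univ, one_smul] at key
  have i1 := integral_TS_strip hG s hab subset_rfl (m3 (-N)) (m3 N)
  rw [X_pt, X_pt, pt_snd, pt_snd, sub_self, abs_zero, zero_add,
    abs_of_nonpos (by omega : -(N:ℤ) - N ≤ 0)] at i1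
  have low : ∀ x ∈ Finset.range M ×ˢ Finset.range M, κ / 2 ≤ (PP G).real (Ev x) := by
    intro x hx
    have a5 := hx1 _ (Finset.mem_range.1 (Finset.mem_product.1 hx).1)
    have b1 : (PP G).real (NEv s A R K η (L * x.1 : ℕ) (((2 * R + 1) * x.2 : ℕ) * s.q)) = κ := by
      rw [hκ, NEv_sh, measureReal_def, PP_act]; rfl
    have b2 : (PP G).real U₁ᶜ ≤ κ / 8 := ENNReal.toReal_le_of_le_ofReal (by positivity) p1
    have b3 : (PP G).real U₂ᶜ ≤ κ / 8 := ENNReal.toReal_le_of_le_ofReal (by positivity) p2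
    have b4 : (PP G).real (⋃ i ∈ Finset.range (J + 1), Kink s A R K η γ (n + L * x.1)
        (2 * n + i * m - L * x.1) (L * x.1 : ℕ) (((2 * R + 1) * x.2 : ℕ) * s.q)) ≤ κ / 8 := by
      refine (measureReal_biUnion_finset_le _ _).trans ?_
      refine (Finset.sum_le_card_nsmul _ _ (κ / (8 * (J + 1))) fun i hi => ?_).trans ?_
      · have : i * m ≤ n := by
          rw [hn]; exact Nat.mul_le_mul_right m (Nat.lt_succ_iff.1 (Finset.mem_range.1 hi))
        rw [Kink_sh, measureReal_def, PP_act]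
        exact hn₁ n _ _ (by omega) (by omega) (by omega) (by omega) (by omega)
      · rw [Finset.card_range, nsmul_eq_mul]; push_cast
        exact le_of_eq (by field_simp)
    have b5 : NEv s A R K η (L * x.1 : ℕ) (((2 * R + 1) * x.2 : ℕ) * s.q) ⊆
        Ev x ∪ (U₁ᶜ ∪ (U₂ᶜ ∪ ⋃ i ∈ Finset.range (J + 1), Kink s A R K η γ (n + L * x.1)
        (2 * n + i * m - L * x.1) (L * x.1 : ℕ) (((2 * R + 1) * x.2 : ℕ) * s.q))) := by
      intro ω hω
      by_contra d
      simp only [Set.mem_union, not_or, Set.mem_compl_iff, not_not] at d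
      exact d.1 ⟨⟨⟨hω, d.2.1⟩, d.2.2.1⟩, d.2.2.2⟩
    have b6 := (measureReal_mono b5).trans ((measureReal_union_le _ _).trans
      (add_le_add le_rfl ((measureReal_union_le _ _).trans
        (add_le_add le_rfl (measureReal_union_le (μ := PP G) _ _)))))
    linarith
  have k2 := Finset.card_nsmul_le_sum _ _ _ low
  rw [Finset.card_product, Finset.card_range, nsmul_eq_mul] at k2
  push_cast at k2 i1
  refine arith_NcP (M := M) hη hμ hκ0 hB1 hL1 hβ hβ' hn1 (by exact_mod_cast hM2) hb1 hb2 ?_ ?_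
  · rw [mul_comm (κ / _), ← div_lt_iff₀ (by positivity)]
    have : 0 < 1 / β := by positivity
    linarith
  · rw [← hNr]
    have := mul_le_mul_of_nonneg_left i1 (by positivity : (0 : ℝ) ≤ 12 * b / η)
    have e : 2 * -(-(N : ℝ) - N) = 4 * N := by ring
    rw [e] at this
    linarith

end P158
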