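import Vale.Agent.P158.Obj

open scoped NNReal ENNReal
open MeasureTheory Filter Topology

namespace P158

/-! The maximal inequality for nonnegative stationary sequences. -/

/-- The maximum of the initial sums. -/
noncomputable def supMax {Ω : Type} (θ : Ω → Ω) (ξ : Ω → ℝ) (a : ℝ) : ℕ → Ω → ℝ
  | 0 => fun _ => 0
  | L + 1 => fun ω => max (ξ ω - a + supMax θ ξ a L (θ ω)) 0

theorem supMax_nonneg {Ω : Type} (θ : Ω → Ω) (ξ : Ω → ℝ) (a : ℝ) (L : ℕ) (ω : Ω) :
    0 ≤ supMax θ ξ a L ω := by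
  cases L with
  | zero => exact le_rfl
  | succ L => exact le_max_right _ _

theorem supMax_succ {Ω : Type} (θ : Ω → Ω) (ξ : Ω → ℝ) (a : ℝ) (L : ℕ) :
    ∀ ω, supMax θ ξ a L ω ≤ supMax θ ξ a (L + 1) ω := by
  induction L with
  | zero => exact fun ω => supMax_nonneg θ ξ a 1 ω
  | succ L ih => exact fun ω => max_le_max (by linarith [ih (θ ω)]) le_rfl

theorem supMax_ge {Ω : Type} (θ : Ω → Ω) (ξ : Ω → ℝ) (a : ℝ) (n : ℕ) :
    ∀ ω, ∑ k ∈ Finset.range n, ξ (θ^[k] ω) - a * n ≤ supMax θ ξ a n ω := by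
  induction n with
  | zero => intro ω; simp [supMax]
  | succ n ih =>
    intro ω
    refine le_trans ?_ (le_max_left _ _)
    have := ih (θ ω)
    rw [Finset.sum_range_succ']
    simp only [Function.iterate_succ_apply, Function.iterate_zero_apply]
    push_cast
    linarith

theorem maximal {Ω : Type} [MeasurableSpace Ω] (μ : Measure Ω) [IsProbabilityMeasure μ]
    {θ : Ω → Ω} (hθ : MeasurePreserving θ μ μ) {ξ : Ω → ℝ} (hξ : Measurable ξ)
    (h0 : ∀ ω, 0 ≤ ξ ω) (hi : Integrable ξ μ) {a : ℝ} (ha : 0 < a) :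
    μ.real {ω | ∃ n : ℕ, a * n < ∑ k ∈ Finset.range n, ξ (θ^[k] ω)} ≤ (∫ ω, ξ ω ∂μ) / a := by
  have hm : ∀ L, Measurable (supMax θ ξ a L) := by
    intro L
    induction L with
    | zero => exact measurable_const
    | succ L ih => exact ((hξ.sub_const a).add (ih.comp hθ.measurable)).max measurable_const
  have hI : ∀ L, Integrable (supMax θ ξ a L) μ := by
    intro L
    induction L with
    | zero => exact integrable_const _
    | succ L ih =>
      exact ((hi.sub (integrable_const a)).add (hθ.integrable_comp_of_integrable ih)).pos_part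
  have hE : ∀ L, MeasurableSet {ω | 0 < supMax θ ξ a (L + 1) ω} := fun L =>
    measurableSet_lt measurable_const (hm _)
  have key : ∀ L, μ.real {ω | 0 < supMax θ ξ a (L + 1) ω} ≤ (∫ ω, ξ ω ∂μ) / a := by
    intro L
    have hI' : Integrable (fun ω => supMax θ ξ a (L + 1) (θ ω)) μ :=
      hθ.integrable_comp_of_integrable (hI (L + 1))
    have e : ∫ ω, supMax θ ξ a (L + 1) (θ ω) ∂μ = ∫ ω, supMax θ ξ a (L + 1) ω ∂μ := by
      rw [← integral_map hθ.aemeasurable (hm _).aestronglyMeasurable, hθ.map_eq]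
    have h1 : ∫ ω, Set.indicator {ω | 0 < supMax θ ξ a (L + 1) ω} (fun _ => a) ω ∂μ ≤
        ∫ ω, (ξ ω + (supMax θ ξ a (L + 1) (θ ω) - supMax θ ξ a (L + 1) ω)) ∂μ := by
      refine integral_mono ((integrable_const a).indicator (hE L)) (hi.add (hI'.sub (hI _)))
        fun ω => ?_
      have h2 := supMax_succ θ ξ a L (θ ω)
      have h3 := supMax_nonneg θ ξ a (L + 1) (θ ω)
      by_cases h : 0 < supMax θ ξ a (L + 1) ω
      · have h4 : supMax θ ξ a (L + 1) ω = ξ ω - a + supMax θ ξ a L (θ ω) := by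
          rcases max_choice (ξ ω - a + supMax θ ξ a L (θ ω)) 0 with h5 | h5
          · exact h5
          · exact absurd h5 h.ne'
        simp only [Set.indicator, Set.mem_setOf_eq, if_pos h]
        linarith
      · simp only [Set.indicator, Set.mem_setOf_eq, if_neg h]
        linarith [h0 ω]
    have hI2 : Integrable
        (fun ω => supMax θ ξ a (L + 1) (θ ω) - supMax θ ξ a (L + 1) ω) μ := hI'.sub (hI _)
    rw [integral_indicator_const _ (hE L), integral_add hi hI2,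
      integral_sub hI' (hI _), e, smul_eq_mul] at h1
    rw [le_div_iff₀ ha]
    linarith
  have hsub : {ω | ∃ n : ℕ, a * n < ∑ k ∈ Finset.range n, ξ (θ^[k] ω)} ⊆
      ⋃ L, {ω | 0 < supMax θ ξ a (L + 1) ω} := by
    rintro ω ⟨n, hn⟩
    refine Set.mem_iUnion.2 ⟨n, ?_⟩
    have h1 := supMax_ge θ ξ a n ω
    have h2 := supMax_succ θ ξ a n ω
    show 0 < supMax θ ξ a (n + 1) ω
    linarith
  have hmono : Monotone fun L => {ω | 0 < supMax θ ξ a (L + 1) ω} :=
    monotone_nat_of_le_succ fun L ω (h : 0 < supMax θ ξ a (L + 1) ω) =>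
      h.trans_le (supMax_succ θ ξ a _ ω)
  refine ENNReal.toReal_le_of_le_ofReal (div_nonneg (integral_nonneg h0) ha.le)
    ((measure_mono hsub).trans ?_)
  rw [hmono.measure_iUnion]
  refine iSup_le fun L => ?_
  rw [← ofReal_measureReal (measure_ne_top _ _)]
  exact ENNReal.ofReal_le_ofReal (key L)

theorem half_Max {Ω : Type} [MeasurableSpace Ω] (μ : Measure Ω) [IsProbabilityMeasure μ]
    {θ : ℕ → Ω → Ω} (hθ : ∀ k, MeasurePreserving (θ k) μ μ) {ξ : Ω → ℝ} (hξ : Measurable ξ)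
    (hi : Integrable ξ μ) {ε : ℝ} (hε : 0 < ε) :
    ∀ᵐ ω ∂μ, ∃ Q : ℝ, ∀ k : ℕ, ξ (θ k ω) ≤ ε * k + Q := by
  letI : MeasureSpace Ω := ⟨μ⟩
  have h1 := ProbabilityTheory.tsum_prob_mem_Ioi_lt_top (X := fun ω => |ξ ω| / ε)
    (hi.abs.div_const ε) (fun ω => div_nonneg (abs_nonneg _) hε.le)
  have hm : ∀ j : ℕ, MeasurableSet {ω | |ξ ω| / ε ∈ Set.Ioi (j : ℝ)} := fun j =>
    (hξ.abs.div_const ε) measurableSet_Ioi
  have h2 : ∑' j : ℕ, μ (θ j ⁻¹' {ω | |ξ ω| / ε ∈ Set.Ioi (j : ℝ)}) ≠ ∞ := by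
    rw [tsum_congr fun j => (hθ j).measure_preimage (hm j).nullMeasurableSet]
    exact h1.ne
  filter_upwards [ae_finite_setOf_mem h2] with ω hω
  refine ⟨∑ j ∈ hω.toFinset, |ξ (θ j ω)|, fun k => ?_⟩
  have h3 : 0 ≤ ε * k := mul_nonneg hε.le (Nat.cast_nonneg k)
  by_cases hk : k ∈ hω.toFinset
  · have := Finset.single_le_sum (f := fun j => |ξ (θ j ω)|) (fun j _ => abs_nonneg _) hk
    linarith [le_abs_self (ξ (θ k ω))]
  · have h4 : |ξ (θ k ω)| / ε ≤ k := by simpa using hk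
    rw [div_le_iff₀ hε] at h4
    have h5 : 0 ≤ ∑ j ∈ hω.toFinset, |ξ (θ j ω)| := Finset.sum_nonneg fun j _ => abs_nonneg _
    linarith [le_abs_self (ξ (θ k ω))]

/-- An integrable stationary sequence is sublinear. -/
theorem sublinear {Ω : Type} [MeasurableSpace Ω] (μ : Measure Ω) [IsProbabilityMeasure μ]
    {θ : ℤ → Ω → Ω} (hθ : ∀ k, MeasurePreserving (θ k) μ μ) {ξ : Ω → ℝ} (hξ : Measurable ξ)
    (hi : Integrable ξ μ) :
    ∀ᵐ ω ∂μ, ∀ ε : ℝ, 0 < ε → ∃ Q : ℝ, ∀ k : ℤ, ξ (θ k ω) ≤ ε * |(k : ℝ)| + Q := by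
  have h1 := ae_all_iff.2 fun m : ℕ => half_Max μ (θ := fun k => θ k) (fun k => hθ k) hξ hi
    (Nat.one_div_pos_of_nat (n := m))
  have h2 := ae_all_iff.2 fun m : ℕ => half_Max μ (θ := fun k => θ (-k)) (fun k => hθ _) hξ hi
    (Nat.one_div_pos_of_nat (n := m))
  filter_upwards [h1, h2] with ω h1 h2 ε hε
  obtain ⟨m, hm⟩ := exists_nat_one_div_lt hε
  obtain ⟨Q₁, h1⟩ := h1 m
  obtain ⟨Q₂, h2⟩ := h2 m
  refine ⟨max Q₁ Q₂, fun k => ?_⟩
  obtain ⟨n, rfl | rfl⟩ := k.eq_nat_or_neg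
  · have := mul_le_mul_of_nonneg_right hm.le (Nat.cast_nonneg (α := ℝ) n)
    have e : |((n : ℤ) : ℝ)| = n := by simp
    rw [e]
    linarith [h1 n, le_max_left Q₁ Q₂]
  · have := mul_le_mul_of_nonneg_right hm.le (Nat.cast_nonneg (α := ℝ) n)
    have e : |((-n : ℤ) : ℝ)| = n := by simp
    rw [e]
    linarith [h2 n, le_max_right Q₁ Q₂]

end P158
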