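import Vale.Agent.P158.Sym

open scoped NNReal ENNReal
open MeasureTheory Filter Topology

namespace P158

/-! All directions, by symmetry. -/

theorem Bi.symm {ω : Env} {l r : ℕ → V} (h : Bi ω l r) : Bi ω r l :=   ⟨h.hr, h.hl, h.r0, h.l0, fun i j => by rw [T_comm, h.add, add_comm]⟩

theorem col_FinA {p : ℤ} {q : ℕ} (hq : 0 < q) (hp : |p| ≤ q) {v : V} (h1 : 0 ≤ p * v.2 - q * v.1)
    (h2 : p * v.2 - q * v.1 < q) : X (mkStair p q hq hp) v = 0 := by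
  have hq' : (0 : ℤ) < q := by exact_mod_cast hq
  show v.1 - p * v.2 / q = 0
  rw [sub_eq_zero, eq_comm, Int.ediv_eq_iff_of_pos hq']
  constructor <;> linarith

theorem core_FinA {δ : ℝ} {ω : Env} (h : Good δ ω) {l r : ℕ → V} (hB : Bi ω l r) (e : V)
    (he : 0 < e.2) (hp : |e.1| ≤ e.2) (hv : Vis e r) :
    Avoid δ e l ∧ Avoid δ (-e) r := by
  obtain ⟨p, q⟩ := e
  obtain ⟨q, rfl⟩ := Int.eq_ofNat_of_zero_le (show 0 ≤ q from he.le)
  have hq' : (0 : ℤ) < q := he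
  have hq : 0 < q := by exact_mod_cast hq'
  refine (h l r hB).2 (mkStair p q hq hp) (frequently_atTop.2 fun N => ?_)
  obtain ⟨i, hi, ⟨h1, h2⟩, h3⟩ := frequently_atTop.1 (hv.and_eventually
    ((tendsto_nrm hB.hr.inj).eventually_ge_atTop 4)) N
  have h4 : |(r i).1 - (r (i + 1)).1| + |(r i).2 - (r (i + 1)).2| = 1 := hB.hr.adj i
  simp only at h1 h2 hp
  rw [abs_le] at hp
  have h5 : |(p * (r i).2 - q * (r i).1) - (p * (r (i + 1)).2 - q * (r (i + 1)).1)| ≤ q := by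
    have : ((r (i + 1)).1 = (r i).1 ∧ ((r (i + 1)).2 = (r i).2 + 1 ∨ (r (i + 1)).2 = (r i).2 - 1)) ∨
      ((r (i + 1)).2 = (r i).2 ∧ ((r (i + 1)).1 = (r i).1 + 1 ∨ (r (i + 1)).1 = (r i).1 - 1)) := by
      rw [Int.abs_eq_natAbs, Int.abs_eq_natAbs] at h4
      omega
    rw [abs_le]
    rcases this with ⟨a, b | b⟩ | ⟨a, b | b⟩ <;> rw [a, b] <;> constructor <;> linarith
  rw [abs_le] at h5
  have h6 := mul_nonpos_iff.1 h1
  have h7 : -(q : ℤ) ≤ p * (r i).2 - q * (r i).1 ∧ p * (r i).2 - q * (r i).1 ≤ q := by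
    rcases h6 with h6 | h6 <;> constructor <;> linarith [h6.1, h6.2]
  have h8 : 0 ≤ (r i).2 := by
    by_contra hc
    have h9 : (r i).2 ≤ -1 := by omega
    have h10 : 0 < q * (p * (r i).1 + q * (r i).2) := mul_pos hq' h2
    have h11 : -(q * q : ℤ) ≤ p * (p * (r i).2 - q * (r i).1) := by nlinarith
    nlinarith [sq_nonneg p]
  have h9 : 2 ≤ (r i).2 := by
    by_contra hc
    have h10 : (r i).1 ≤ 2 := by
      by_contra h11
      nlinarith
    have h11 : -2 ≤ (r i).1 := by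
      by_contra h11
      nlinarith
    unfold nrm at h3
    rw [Int.abs_eq_natAbs, Int.abs_eq_natAbs] at h3
    omega
  have h10 : 0 < (r (i + 1)).2 := by
    rw [Int.abs_eq_natAbs, Int.abs_eq_natAbs] at h4
    omega
  rcases h6 with h6 | h6
  · rcases h6.2.eq_or_lt with c | c
    · exact ⟨i + 1, by omega, col_FinA hq _ c.ge (by linarith), h10⟩
    · exact ⟨i, hi, col_FinA hq _ h6.1 (by linarith), by omega⟩
  · rcases h6.1.eq_or_lt with c | c
    · exact ⟨i, hi, col_FinA hq _ c.ge (by linarith), by omega⟩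
    · exact ⟨i + 1, by omega, col_FinA hq _ h6.2 (by linarith), h10⟩

theorem bi_act_FinA {ω : Env} {l r : ℕ → V} (hB : Bi ω l r) (σ : Zd ≃g Zd) (τ : V → V)
    (h1 : ∀ v, σ (τ v) = v) (h0 : τ (0, 0) = (0, 0)) :
    Bi (act σ ω) (fun i => τ (l i)) fun i => τ (r i) :=
  ⟨(Ray_act _ _ _).2 (by simpa only [h1] using hB.hl),
    (Ray_act _ _ _).2 (by simpa only [h1] using hB.hr), by rw [hB.l0, h0], by rw [hB.r0, h0],
    fun i j => by simpa only [T_act, W_act, h1] using hB.add i j⟩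

theorem via_FinA {δ : ℝ} {ω : Env} {σ : Zd ≃g Zd} (h : Good δ (act σ ω)) {l r : ℕ → V}
    (hB : Bi ω l r) (e : V) (hv : Vis e r) (τ : V → V) (h1 : ∀ v, σ (τ v) = v)
    (h0 : τ (0, 0) = (0, 0))
    (h2 : ∀ u v : V, ((τ e).1 * (τ u).2 - (τ e).2 * (τ u).1) * ((τ e).1 * (τ v).2 - (τ e).2 * (τ v).1)
      = (e.1 * u.2 - e.2 * u.1) * (e.1 * v.2 - e.2 * v.1))
    (h3 : ∀ u : V, (τ e).1 * (τ u).1 + (τ e).2 * (τ u).2 = e.1 * u.1 + e.2 * u.2)
    (h4 : ∀ v, nrm (τ v) = nrm v)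
    (h5 : ∀ (v : V) (t : ℝ), |((τ v).1 : ℝ) - t * (τ e).1| + |((τ v).2 : ℝ) - t * (τ e).2| =
      |(v.1 : ℝ) - t * e.1| + |(v.2 : ℝ) - t * e.2|)
    (he : 0 < (τ e).2) (hp : |(τ e).1| ≤ (τ e).2) : Avoid δ e l ∧ Avoid δ (-e) r := by
  obtain ⟨a, b⟩ := core_FinA h (bi_act_FinA hB σ τ h1 h0) (τ e) he hp
    (hv.mono fun i hi => by simpa only [h2, h3] using hi)
  refine ⟨a.mono fun i hi t ht => by simpa only [h4, h5] using hi t ht, b.mono fun i hi t ht => ?_⟩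
  have := hi t ht
  simp only [Prod.fst_neg, Prod.snd_neg, Int.cast_neg, mul_neg, ← neg_mul] at this ⊢
  rwa [h4, h5] at this
theorem finA {δ : ℝ} {ω : Env} (h : ∀ σ : Zd ≃g Zd,
      (σ = SimpleGraph.Iso.refl ∨ σ = ry ∨ σ = sw ∨ σ = ry.trans sw) → Good δ (act σ ω))
    {l r : ℕ → V} (hB : Bi ω l r) (e : V) (he : e ≠ 0) (hv : Vis e r) :
    Avoid δ e l ∧ Avoid δ (-e) r :=   by
  have h0 : e.1 ≠ 0 ∨ e.2 ≠ 0 := by
    by_contra hc
    push Not at hc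
    exact he (Prod.ext hc.1 hc.2)
  have : (0 < e.2 ∧ |e.1| ≤ e.2) ∨ (0 < -e.2 ∧ |e.1| ≤ -e.2) ∨ (0 < e.1 ∧ |e.2| ≤ e.1) ∨
      (0 < -e.1 ∧ |e.2| ≤ -e.1) := by
    rw [Int.abs_eq_natAbs, Int.abs_eq_natAbs]
    omega
  rcases this with c | c | c | c
  · exact via_FinA (h _ (Or.inl rfl)) hB e hv id (fun _ => rfl) rfl (fun _ _ => rfl)
      (fun _ => rfl) (fun _ => rfl) (fun _ _ => rfl) c.1 c.2
  · refine via_FinA (h _ (Or.inr (Or.inl rfl))) hB e hv (fun v => (v.1, -v.2)) (fun _ => by simp)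
      rfl (fun _ _ => by ring) (fun _ => by ring) (fun _ => by simp [nrm]) (fun v t => ?_) c.1 c.2
    push_cast
    rw [show -(v.2 : ℝ) - t * -e.2 = -(v.2 - t * e.2) by ring, abs_neg]
  · exact via_FinA (h _ (Or.inr (Or.inr (Or.inl rfl)))) hB e hv (fun v => (v.2, v.1))
      (fun _ => rfl) rfl (fun _ _ => by ring) (fun _ => by ring) (fun _ => add_comm _ _)
      (fun v t => add_comm _ _) c.1 c.2
  · refine via_FinA (h _ (Or.inr (Or.inr (Or.inr rfl)))) hB e hv (fun v => (v.2, -v.1))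
      (fun v => ?_) rfl (fun _ _ => by ring) (fun _ => by ring) (fun _ => by simp [nrm, add_comm])
      (fun v t => ?_) c.1 c.2
    · show sw (ry (v.2, -v.1)) = v
      simp
    · push_cast
      rw [show -(v.1 : ℝ) - t * -e.1 = -(v.1 - t * e.1) by ring, abs_neg, add_comm]

end P158
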