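import Vale.Agent.P158.Trn
import Vale.Agent.P158.Int
import Vale.Agent.P158.Pei
import Vale.Agent.P158.Sym

open scoped NNReal ENNReal
open MeasureTheory Filter Topology

namespace P158.Gen

/-! The probabilistic inputs, for a general model. -/

/-- A model together with its parameters. -/
structure Mdl where
  μ : Measure Env
  G : Measure ℝ≥0
  M : ℕ
  m : ℝ
  h : Model μ G M m

abbrev PP (G : Mdl) : Measure Env := G.μ

def mean (G : Mdl) : ℝ := G.m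

structure Law (G : Mdl) : Prop where
  prob : IsProbabilityMeasure (PP G)

instance (G : Mdl) : IsProbabilityMeasure (PP G) := G.h.prob
instance (G : Mdl) : IsProbabilityMeasure G.G := G.h.gprob
instance (G : Mdl) : NullSingletonClass G.G := G.h.noat

theorem measurePreserving_act (G : Mdl) (σ : Zd ≃g Zd) :
    MeasurePreserving (act σ) (PP G) (PP G) := G.h.inv σ
theorem PP_act (G : Mdl) (σ : Zd ≃g Zd) (A : Set Env) : PP G (act σ ⁻¹' A) = PP G A := by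
  have h : MeasurePreserving (actE_Sym σ) (PP G) (PP G) := measurePreserving_act G σ
  exact h.measure_preimage_equiv A
theorem ae_act (G : Mdl) (σ : Zd ≃g Zd) {P : Env → Prop} (h : ∀ᵐ ω ∂PP G, P ω) :
    ∀ᵐ ω ∂PP G, P (act σ ω) := (measurePreserving_act G σ).quasiMeasurePreserving.ae h

variable {G : Mdl}

theorem mean_nonneg (G : Mdl) : 0 ≤ mean G :=
  (integral_nonneg fun ω => tau_nonneg ω s((0, 0), (0, 0))).trans (G.h.mean _)
theorem integrable_tau (_hG : Law G) (e : Sym2 V) : Integrable (fun ω => tau ω e) (PP G) :=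
  G.h.int e
theorem integral_tau_le (_hG : Law G) (e : Sym2 V) : ∫ ω, tau ω e ∂PP G ≤ mean G := G.h.mean e
theorem integrable_wt (hG : Law G) {x y : V} (p : Zd.Walk x y) :
    Integrable (fun ω => wt ω p) (PP G) := by
  induction p with
  | nil => simp
  | cons h p ih =>
    simp only [wt_cons]
    exact (integrable_tau hG _).add ih
theorem integral_wt_le (hG : Law G) {x y : V} (p : Zd.Walk x y) :
    ∫ ω, wt ω p ∂PP G ≤ p.length * mean G := by
  induction p with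
  | nil => simp
  | @cons a b c h p ih =>
    simp only [wt_cons]
    rw [integral_add (integrable_tau hG _) (integrable_wt hG p)]
    simp only [SimpleGraph.Walk.length_cons]; push_cast
    linarith [integral_tau_le hG s(a, b)]
theorem integrable_TS (hG : Law G) {S : Set V} {x y : V} (h : Conn S x y) :
    Integrable (fun ω => TS ω S x y) (PP G) := by
  obtain ⟨p, hp⟩ := h
  refine (integrable_wt hG p).mono' (measurable_TS S x y).aestronglyMeasurable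
    (Eventually.of_forall fun ω => ?_)
  rw [Real.norm_eq_abs, abs_of_nonneg (TS_nonneg _ _ _ _)]
  exact TS_le ω p hp
theorem integral_TS_le (hG : Law G) {S : Set V} {x y : V} (p : Zd.Walk x y) (hp : In S p) :
    ∫ ω, TS ω S x y ∂PP G ≤ p.length * mean G := by
  exact (integral_mono (integrable_TS hG ⟨p, hp⟩) (integrable_wt hG p)
    fun ω => TS_le ω p hp).trans (integral_wt_le hG p)
/-- Mean passage time inside any set containing a strip through the two points. -/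
theorem integral_TS_strip (hG : Law G) (s : Stair) {a b : ℤ} (hab : a < b) {S : Set V}
    (hS : Strip s a b ⊆ S) {x y : V} (hx : x ∈ Strip s a b) (hy : y ∈ Strip s a b) :
    ∫ ω, TS ω S x y ∂PP G ≤ ((|X s x - X s y| + 2 * |x.2 - y.2| : ℤ) : ℝ) * mean G := by
  obtain ⟨p, h1, h2⟩ := exists_walk s hab hx hy
  refine (integral_TS_le hG p fun v hv => hS (h1 v hv).1).trans ?_
  refine mul_le_mul_of_nonneg_right ?_ (mean_nonneg G)
  exact_mod_cast h2

theorem ae_nice (_hG : Law G) : ∀ᵐ ω ∂PP G, Nice ω := G.h.nice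

theorem loop (_hG : Law G) : ∃ C : ℝ, 0 < C ∧ ∀ ε : ℝ, 0 < ε →
    ∀ δ : ℝ≥0∞, 0 < δ → ∃ (Q : ℕ) (U : Set Env), MeasurableSet U ∧ PP G Uᶜ ≤ δ ∧
      ∀ ω ∈ U, LoopP C ε Q ω := G.h.loop

theorem pei (_hG : Law G) {D : Set ℝ} (hD : MeasurableSet D) (hM : D ⊆ Set.Iic (G.M : ℝ))
    (hGD : G.G {t | (t : ℝ) ∉ D} ≤ 1 / 256) {ε : ℝ} (hε : 0 < ε) {δ : ℝ≥0∞} (hδ : 0 < δ) :
    ∃ (Q : ℕ) (U : Set Env), MeasurableSet U ∧ PP G Uᶜ ≤ δ ∧ ∀ ω ∈ U, PeiP D ε Q ω :=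
  G.h.pei D hD hM hGD ε hε δ hδ

theorem ae_pei (hG : Law G) {D : Set ℝ} (hD : MeasurableSet D) (hM : D ⊆ Set.Iic (G.M : ℝ))
    (hGD : G.G {t | (t : ℝ) ∉ D} ≤ 1 / 256) :
    ∀ᵐ ω ∂PP G, ∀ ε : ℝ, 0 < ε → ∃ Q, PeiP D ε Q ω := by
  refine whp_Pei _ (fun ε Q ω => PeiP D ε Q ω) (fun ε ε' Q ω hε h v w p hp hn => h v w p hp ?_)
    fun ε hε δ hδ => pei hG hD hM hGD hε hδ
  have h0 : (0 : ℝ) ≤ nrm v := by exact_mod_cast nrm_nonneg_Pei v
  nlinarith

/-- Every ray has infinitely many steps with weight in `D`. -/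
theorem ae_freq (hG : Law G) {D : Set ℝ} (hD : MeasurableSet D) (hM : D ⊆ Set.Iic (G.M : ℝ))
    (hGD : G.G {t | (t : ℝ) ∉ D} ≤ 1 / 256) :
    ∀ᵐ ω ∂PP G, ∀ f : ℕ → V, Function.Injective f → (∀ i, Zd.Adj (f i) (f (i + 1))) →
      ∃ᶠ k in atTop, tau ω s(f k, f (k + 1)) ∈ D := by
  filter_upwards [ae_pei hG hD hM hGD] with ω hω f hf adj hc
  obtain ⟨Q, hQ⟩ := hω 1 one_pos
  obtain ⟨N, hN⟩ := eventually_atTop.1 hc
  obtain ⟨w, p, h1, h2, -, h4⟩ := seg_Pei hf adj ((nrm (f N)).toNat + Q + 1) N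
  have h5 := hQ _ _ p h1 (by
    rw [h2]
    have : ((nrm (f N)).toNat : ℤ) = nrm (f N) := Int.toNat_of_nonneg (nrm_nonneg_Pei _)
    have : (((nrm (f N)).toNat : ℕ) : ℝ) = nrm (f N) := by exact_mod_cast this
    push_cast
    linarith)
  rw [List.countP_eq_zero.2, h2] at h5
  · omega
  · intro e he
    obtain ⟨k, hk, rfl⟩ := h4 e he
    simpa using hN k hk

theorem exists_ab0 (G : Measure ℝ≥0) [IsProbabilityMeasure G] [NullSingletonClass G] :
    ∃ a₀ b₀ : ℝ, 0 ≤ a₀ ∧ a₀ < b₀ ∧ 0 < G {t | (t : ℝ) ≤ a₀} ∧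
    G {t | (t : ℝ) ∉ Set.Ici b₀} ≤ 1 / 1024 := by
  set S : Set ℝ := {x | 0 < G {t | (t : ℝ) ≤ x}} with hS
  have hm : ∀ x : ℝ, MeasurableSet {t : ℝ≥0 | (t : ℝ) ≤ x} := fun x =>
    measurableSet_le measurable_coe_nnreal_real measurable_const
  have h0 : ∀ x ∈ S, 0 ≤ x := fun x hx => by
    obtain ⟨t, ht⟩ := nonempty_of_measure_ne_zero (ne_of_gt hx)
    exact t.2.trans ht
  have hne : S.Nonempty := by
    by_contra hc
    have h1 : G (⋃ n : ℕ, {t : ℝ≥0 | (t : ℝ) ≤ n}) = 0 := measure_iUnion_null fun n => by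
      by_contra h2
      exact hc ⟨n, pos_iff_ne_zero.2 h2⟩
    have h2 : (⋃ n : ℕ, {t : ℝ≥0 | (t : ℝ) ≤ n}) = Set.univ :=
      Set.eq_univ_of_forall fun t => Set.mem_iUnion.2 (exists_nat_ge (t : ℝ))
    rw [h2, measure_univ] at h1
    exact one_ne_zero h1
  have hb : BddBelow S := ⟨0, h0⟩
  have h1 : G {t | (t : ℝ) ≤ sInf S} = 0 := by
    have h2 : G (⋃ n : ℕ, {t : ℝ≥0 | (t : ℝ) ≤ sInf S - 1 / ((n : ℝ) + 1)}) = 0 :=
      measure_iUnion_null fun n => by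
        by_contra h2
        have := csInf_le hb (show sInf S - 1 / ((n : ℝ) + 1) ∈ S from pos_iff_ne_zero.2 h2)
        linarith [Nat.one_div_pos_of_nat (α := ℝ) (n := n)]
    have h3 : G {t : ℝ≥0 | (t : ℝ) = sInf S} = 0 :=
      Set.Subsingleton.measure_zero (fun a ha b hb => NNReal.eq (ha.trans hb.symm)) _
    refine measure_mono_null (fun t ht => ?_) (measure_union_null h2 h3)
    rcases eq_or_lt_of_le (show (t : ℝ) ≤ sInf S from ht) with h | h
    · exact Or.inr h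
    · obtain ⟨n, hn⟩ := exists_nat_one_div_lt (sub_pos.2 h)
      exact Or.inl (Set.mem_iUnion.2 ⟨n, by simp only [Set.mem_ofPred_eq]; linarith⟩)
  have h2 := tendsto_measure_iInter_atTop (μ := G)
    (s := fun n : ℕ => {t : ℝ≥0 | (t : ℝ) ≤ sInf S + 1 / ((n : ℝ) + 1)})
    (fun n => (hm _).nullMeasurableSet) (fun a b hab t ht => by
      have : (1 : ℝ) / ((b : ℝ) + 1) ≤ 1 / ((a : ℝ) + 1) := Nat.one_div_le_one_div hab
      simp only [Set.mem_ofPred_eq] at ht ⊢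
      linarith) ⟨0, measure_ne_top _ _⟩
  have h3 : G (⋂ n : ℕ, {t : ℝ≥0 | (t : ℝ) ≤ sInf S + 1 / ((n : ℝ) + 1)}) = 0 := by
    refine measure_mono_null (fun t ht => ?_) h1
    change (t : ℝ) ≤ sInf S
    refine le_of_forall_pos_le_add fun ε hε => ?_
    obtain ⟨n, hn⟩ := exists_nat_one_div_lt hε
    have := Set.mem_iInter.1 ht n
    simp only [Set.mem_ofPred_eq] at this
    linarith
  rw [h3] at h2
  obtain ⟨n, hn⟩ := (h2.eventually (ge_mem_nhds (show (0 : ℝ≥0∞) < 1 / 1024 by simp))).exists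
  obtain ⟨a, ha, h4⟩ := exists_lt_of_csInf_lt hne
    (lt_add_of_pos_right _ (Nat.one_div_pos_of_nat (α := ℝ) (n := n)))
  refine ⟨a, _, h0 a ha, h4, ha, le_trans (measure_mono fun t ht => ?_) hn⟩
  exact (not_le.1 (show ¬ _ ≤ (t : ℝ) from ht)).le

theorem exists_ab (_hG : Law G) : ∃ a₀ b₀ : ℝ, 0 ≤ a₀ ∧ a₀ < b₀ ∧ 0 < G.G {t | (t : ℝ) ≤ a₀} ∧
    G.G {t | (t : ℝ) ∉ Set.Ici b₀} ≤ 1 / 1024 ∧ b₀ ≤ G.M ∧
    G.G {t | (t : ℝ) ∉ Set.Icc b₀ (G.M : ℝ)} ≤ 1 / 256 := by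
  obtain ⟨a, b, h0, h1, h2, h3⟩ := exists_ab0 G.G
  have h4 : G.G {t | (t : ℝ) ∉ Set.Icc b (G.M : ℝ)} ≤ 1 / 256 := by
    refine le_trans (measure_mono (t := {t : ℝ≥0 | (t : ℝ) ∉ Set.Ici b} ∪ {t : ℝ≥0 | (G.M : ℝ) < t})
      fun t ht => ?_) ((measure_union_le _ _).trans ((add_le_add h3 G.h.light).trans ?_))
    · simp only [Set.mem_ofPred_eq, Set.mem_Icc, Set.mem_Ici, Set.mem_union, not_and_or,
        not_le] at ht ⊢
      exact ht
    · rw [← ENNReal.add_div, ENNReal.div_le_iff (by norm_num) (by norm_num),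
        show (1024 : ℝ≥0∞) = 256 * 4 by norm_num, ← mul_assoc,
        ENNReal.div_mul_cancel (by norm_num) (by norm_num)]
      norm_num
  refine ⟨a, b, h0, h1, h2, h3, ?_, h4⟩
  by_contra hc
  have : {t : ℝ≥0 | (t : ℝ) ∉ Set.Icc b (G.M : ℝ)} = Set.univ :=
    Set.eq_univ_of_forall fun t ht => hc (ht.1.trans ht.2)
  rw [this, measure_univ] at h4
  norm_num at h4

theorem low (hG : Law G) : ∃ c : ℝ, 0 < c ∧ ∀ ε : ℝ, 0 < ε → ∀ δ : ℝ≥0∞, 0 < δ →
    ∃ (Q : ℕ) (U : Set Env), MeasurableSet U ∧ PP G Uᶜ ≤ δ ∧ ∀ ω ∈ U, LowP c ε Q ω := by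
  obtain ⟨a, b, h0, h1, -, h2, -, h2'⟩ := exists_ab hG
  have hc : 0 < b / 2 := by linarith
  refine ⟨b / 2, hc, fun ε hε δ hδ => ?_⟩
  obtain ⟨Q, U, h3, h4, h5⟩ := pei hG (D := Set.Icc b G.M) measurableSet_Icc
    Set.Icc_subset_Iic_self h2' (div_pos hε hc) hδ
  refine ⟨⌈b / 2 * Q⌉₊, U, h3, h4, fun ω hω v w => le_T ω fun p hp => ?_⟩
  have h6 : (nrm (w - v) : ℝ) ≤ p.length := by exact_mod_cast nrm_le_length_Pei p
  have h7 : (0 : ℝ) ≤ nrm v := by exact_mod_cast nrm_nonneg_Pei v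
  have h8 := Nat.le_ceil (b / 2 * Q)
  have h9 : b / 2 * (nrm (w - v) : ℝ) ≤ b / 2 * p.length := by gcongr
  by_cases h : ε / (b / 2) * (nrm v : ℝ) + Q ≤ p.length
  · have k1 := h5 ω hω v w p hp h
    have k2 := count_le_Pei ω (b := b) (D := Set.Icc b G.M) Set.Icc_subset_Ici_self p.edges
    have k3 := (Nat.cast_le (α := ℝ)).2 k1
    rw [Nat.cast_mul, Nat.cast_ofNat] at k3
    have k5 := mul_le_mul_of_nonneg_left k3 hc.le
    have k6 := mul_nonneg hε.le h7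
    have k4 : (0 : ℝ) ≤ ⌈b / 2 * Q⌉₊ := Nat.cast_nonneg _
    unfold wt
    linarith
  · have k1 : b / 2 * p.length ≤ b / 2 * (ε / (b / 2) * (nrm v : ℝ) + Q) := by
      gcongr; exact (not_le.1 h).le
    have k2 : b / 2 * (ε / (b / 2) * (nrm v : ℝ) + Q) = ε * nrm v + b / 2 * Q := by
      have : b ≠ 0 := by linarith
      field_simp
    linarith [wt_nonneg ω p]

end P158.Gen
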