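import Vale.Agent.P158.GBase
import Vale.Agent.P158.Sym

open scoped NNReal ENNReal
open MeasureTheory Filter Topology

namespace P158.Gen

/-! Fekete: the mean excess along a straight line is sublinear. -/

theorem mem_Strip_ColA (s : Stair) {a b k : ℤ} (y : ℤ) (h1 : a ≤ k) (h2 : k ≤ b) :
    pt s k y ∈ Strip s a b := by
  simp only [Strip, Set.mem_setOf_eq, X_pt]; exact ⟨h1, h2⟩

theorem sub_Strip_ColA (s : Stair) {a b a' b' : ℤ} (h1 : a' ≤ a) (h2 : b ≤ b') :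
    Strip s a b ⊆ Strip s a' b' := fun _ hv => ⟨h1.trans hv.1, hv.2.trans h2⟩

theorem intS_ColA {G : Mdl} (hG : Law G) (s : Stair) {a b k k' : ℤ} (y y' : ℤ)
    (hab : a < b) (h1 : a ≤ k) (h2 : k ≤ b) (h3 : a ≤ k') (h4 : k' ≤ b) :
    Integrable (fun ω => TS ω (Strip s a b) (pt s k y) (pt s k' y')) (PP G) :=
  integrable_TS hG (conn_Strip s hab (mem_Strip_ColA s y h1 h2) (mem_Strip_ColA s y' h3 h4))

theorem integrable_defect {G : Mdl} (hG : Law G) (s : Stair) {n₁ n₂ : ℕ} (h₁ : 1 ≤ n₁)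
    (h₂ : 2 ≤ n₂) (a b : ℤ) : Integrable (defect s n₁ n₂ a b) (PP G) := by
  unfold defect
  exact (((intS_ColA hG s _ _ (by omega) le_rfl (by omega) (by omega) le_rfl).add
    (integrable_tau hG _)).add
    (intS_ColA hG s _ _ (by omega) le_rfl (by omega) (by omega) le_rfl)).sub
    (intS_ColA hG s _ _ (by omega) le_rfl (by omega) (by omega) le_rfl)

/-- Mean crossing time of a strip. -/
noncomputable def DD_ColA (G : Mdl) (s : Stair) (k y k' y' : ℤ) : ℝ :=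
  ∫ ω, TS ω (Strip s k k') (pt s k y) (pt s k' y') ∂PP G

theorem DD_nonneg_ColA (G : Mdl) (s : Stair) (k y k' y' : ℤ) :
    0 ≤ DD_ColA G s k y k' y' := integral_nonneg fun ω => TS_nonneg ω _ _ _

theorem DD_sh_ColA {G : Mdl} (hG : Law G) (s : Stair) (k y k' y' m j : ℤ) :
    DD_ColA G s (k + m) (y + j * s.q) (k' + m) (y' + j * s.q) = DD_ColA G s k y k' y' := by
  haveI := hG.prob
  have hσ := measurePreserving_act G (tr (sh s m j))
  unfold DD_ColA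
  have h1 := integral_map (μ := PP G) hσ.measurable.aemeasurable
    (measurable_TS (Strip s k k') (pt s k y) (pt s k' y')).aestronglyMeasurable
  rw [hσ.map_eq] at h1
  rw [h1]
  refine integral_congr_ae (Eventually.of_forall fun ω => ?_)
  simp only
  rw [TS_act (tr (sh s m j)) ω (S' := Strip s (k + m) (k' + m)), tr_apply, tr_apply, pt_sh, pt_sh]
  intro v
  simp only [Strip, Set.mem_setOf_eq, tr_apply, X_sh]
  omega

theorem DD_add_ColA {G : Mdl} (hG : Law G) (s : Stair) {k₁ k₂ k₃ : ℤ} (y₁ y₂ y₃ : ℤ)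
    (h : k₁ < k₂) (h' : k₂ < k₃) :
    DD_ColA G s k₁ y₁ k₃ y₃ ≤ DD_ColA G s k₁ y₁ k₂ y₂ + DD_ColA G s k₂ y₂ k₃ y₃ := by
  unfold DD_ColA
  have i1 := intS_ColA hG s y₁ y₂ h le_rfl h.le h.le le_rfl
  have i2 := intS_ColA hG s y₂ y₃ h' le_rfl h'.le h'.le le_rfl
  have i3 := intS_ColA hG s y₁ y₃ (h.trans h') le_rfl (h.trans h').le (h.trans h').le le_rfl
  rw [← integral_add i1 i2]
  refine integral_mono i3 (i1.add i2) fun ω => ?_
  have c1 := conn_Strip s h (mem_Strip_ColA s y₁ le_rfl h.le) (mem_Strip_ColA s y₂ h.le le_rfl)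
  have c2 := conn_Strip s h' (mem_Strip_ColA s y₂ le_rfl h'.le) (mem_Strip_ColA s y₃ h'.le le_rfl)
  have s1 : Strip s k₁ k₂ ⊆ Strip s k₁ k₃ := sub_Strip_ColA s le_rfl h'.le
  have s2 : Strip s k₂ k₃ ⊆ Strip s k₁ k₃ := sub_Strip_ColA s h.le le_rfl
  have t1 := TS_tri ω (c1.mono s1) (c2.mono s2)
  have t2 := TS_mono ω c1 s1
  have t3 := TS_mono ω c2 s2
  simp only
  linarith

theorem DD_le_ColA {G : Mdl} (hG : Law G) (s : Stair) {k₁ k₂ k₃ k₄ : ℤ}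
    (y₁ y₂ y₃ y₄ : ℤ) (h₁ : k₁ ≤ k₂) (h₂ : k₂ < k₃) (h₃ : k₃ ≤ k₄) {B : ℤ}
    (hB : |k₁ - k₂| + 2 * |y₁ - y₂| + (|k₃ - k₄| + 2 * |y₃ - y₄|) ≤ B) :
    DD_ColA G s k₁ y₁ k₄ y₄ ≤ DD_ColA G s k₂ y₂ k₃ y₃ + B * mean G := by
  have h14 : k₁ < k₄ := by omega
  have i0 := intS_ColA hG s y₁ y₄ h14 le_rfl h14.le h14.le le_rfl
  have i1 := intS_ColA hG s y₁ y₂ h14 le_rfl h14.le h₁ (by omega)
  have i2 := intS_ColA hG s y₂ y₃ h₂ le_rfl h₂.le h₂.le le_rfl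
  have i3 := intS_ColA hG s y₃ y₄ h14 (k := k₃) (by omega) h₃ h14.le le_rfl
  have m1 := mem_Strip_ColA s y₁ (a := k₁) (b := k₄) le_rfl h14.le
  have m2 := mem_Strip_ColA s y₂ (a := k₁) (b := k₄) h₁ (by omega)
  have m3 := mem_Strip_ColA s y₃ (a := k₁) (b := k₄) (k := k₃) (by omega) h₃
  have m4 := mem_Strip_ColA s y₄ (a := k₁) (b := k₄) h14.le le_rfl
  have e1 := integral_TS_strip hG s h14 subset_rfl m1 m2
  have e3 := integral_TS_strip hG s h14 subset_rfl m3 m4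
  simp only [X_pt, pt_snd] at e1 e3
  have hle : DD_ColA G s k₁ y₁ k₄ y₄ ≤
      ∫ ω, (TS ω (Strip s k₁ k₄) (pt s k₁ y₁) (pt s k₂ y₂) +
        TS ω (Strip s k₂ k₃) (pt s k₂ y₂) (pt s k₃ y₃) +
        TS ω (Strip s k₁ k₄) (pt s k₃ y₃) (pt s k₄ y₄)) ∂PP G := by
    refine integral_mono i0 ((i1.add i2).add i3) fun ω => ?_
    have c2 := conn_Strip s h₂ (mem_Strip_ColA s y₂ le_rfl h₂.le)
      (mem_Strip_ColA s y₃ h₂.le le_rfl)
    have t1 := TS_tri ω (conn_Strip s h14 m1 m3) (conn_Strip s h14 m3 m4)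
    have t2 := TS_tri ω (conn_Strip s h14 m1 m2) (conn_Strip s h14 m2 m3)
    have t3 := TS_mono ω c2 (sub_Strip_ColA s h₁ h₃)
    simp only
    linarith
  rw [integral_add (i1.fun_add i2) i3, integral_add i1 i2] at hle
  have hB' : ((|k₁ - k₂| + 2 * |y₁ - y₂| : ℤ) : ℝ) + ((|k₃ - k₄| + 2 * |y₃ - y₄| : ℤ) : ℝ) ≤ B := by
    exact_mod_cast hB
  have := mul_le_mul_of_nonneg_right hB' (mean_nonneg G)
  unfold DD_ColA at hle ⊢
  linarith

theorem subadd_ColA {G : Mdl} (hG : Law G) (s : Stair) (h : ℕ) (hh : 1 ≤ h) (j : ℤ) :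
    Subadditive fun m : ℕ => DD_ColA G s 0 0 (m * h) (m * j * s.q) := by
  intro m m'
  rcases Nat.eq_zero_or_pos m with rfl | hm
  · simp only [zero_add]; linarith [DD_nonneg_ColA G s 0 0 ((0 : ℕ) * h) ((0 : ℕ) * j * s.q)]
  rcases Nat.eq_zero_or_pos m' with rfl | hm'
  · simp only [add_zero]; linarith [DD_nonneg_ColA G s 0 0 ((0 : ℕ) * h) ((0 : ℕ) * j * s.q)]
  have p1 : (0 : ℤ) < m * h := by positivity
  have p2 : (0 : ℤ) < m' * h := by positivity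
  have h1 := DD_add_ColA hG s (k₁ := 0) (k₂ := m * h) (k₃ := (m + m' : ℕ) * h) 0 (m * j * s.q)
    ((m + m' : ℕ) * j * s.q) p1 (by push_cast; linarith)
  have h2 := DD_sh_ColA hG s 0 0 (m' * h) (m' * j * s.q) (m * h) (m * j)
  rw [zero_add, zero_add, show (m' : ℤ) * h + m * h = (m + m' : ℕ) * h by push_cast; ring,
    show (m' : ℤ) * j * s.q + m * j * s.q = (m + m' : ℕ) * j * s.q by push_cast; ring] at h2
  simp only
  linarith

theorem fek_ColA {G : Mdl} (hG : Law G) (s : Stair) (h : ℕ) (hh : 1 ≤ h) (j : ℤ) {ε : ℝ}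
    (hε : 0 < ε) : ∃ (μ : ℝ) (m₀ : ℕ), 0 ≤ μ ∧
      (∀ m : ℕ, μ * m ≤ DD_ColA G s 0 0 (m * h) (m * j * s.q)) ∧
      ∀ m : ℕ, m₀ ≤ m → DD_ColA G s 0 0 (m * h) (m * j * s.q) ≤ (μ + ε) * m := by
  have hs := subadd_ColA hG s h hh j
  have hb : BddBelow (Set.range fun n : ℕ =>
      (fun m : ℕ => DD_ColA G s 0 0 (m * h) (m * j * s.q)) n / n) := by
    refine ⟨0, ?_⟩
    rintro _ ⟨n, rfl⟩
    exact div_nonneg (DD_nonneg_ColA _ _ _ _ _ _) (Nat.cast_nonneg _)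
  have ht := hs.tendsto_lim hb
  have h0 : 0 ≤ hs.lim := ge_of_tendsto' ht fun n =>
    div_nonneg (DD_nonneg_ColA _ _ _ _ _ _) (Nat.cast_nonneg _)
  obtain ⟨m₀, hm₀⟩ := eventually_atTop.1 (ht.eventually (gt_mem_nhds (lt_add_of_pos_right _ hε)))
  refine ⟨hs.lim, max m₀ 1, h0, fun m => ?_, fun m hm => ?_⟩
  · rcases Nat.eq_zero_or_pos m with rfl | hm
    · simpa using DD_nonneg_ColA _ _ _ _ _ _
    · have := hs.lim_le_div hb hm.ne'
      rwa [le_div_iff₀ (by exact_mod_cast hm)] at this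
  · have := (hm₀ m (le_of_max_le_left hm)).le
    rwa [div_le_iff₀ (by exact_mod_cast le_of_max_le_right hm)] at this

theorem near_ColA {h c a n m : ℤ} (hh : 0 < h) (h1 : |h * a - c * n| ≤ h)
    (h2 : |n - m * h| ≤ 2 * h) : |a - m * c| ≤ 1 + 2 * |c| := by
  have e : h * (a - m * c) = (h * a - c * n) + c * (n - m * h) := by ring
  have h3 : h * |a - m * c| ≤ h * (1 + 2 * |c|) := by
    calc h * |a - m * c| = |h * (a - m * c)| := by rw [abs_mul, abs_of_pos hh]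
      _ ≤ |h * a - c * n| + |c| * |n - m * h| := by
          rw [e, ← abs_mul]; exact abs_add_le _ _
      _ ≤ h + |c| * (2 * h) := by gcongr
      _ = h * (1 + 2 * |c|) := by ring
  exact le_of_mul_le_mul_left h3 hh

theorem colA {G : Mdl} (hG : Law G) (s : Stair) (h : ℕ) (hh : 1 ≤ h) (j : ℤ) {ε : ℝ}
    (hε : 0 < ε) : ∃ n₀ : ℕ, ∀ n₁ n₂ : ℕ, n₀ ≤ n₁ → n₀ ≤ n₂ → ∀ a b : ℤ,
      |h * a + j * s.q * n₁| ≤ h → |h * b - j * s.q * n₂| ≤ h →
      ∫ ω, defect s n₁ n₂ a b ω ∂PP G ≤ ε * (n₁ + n₂) := by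
  obtain ⟨μ, m₀, hμ, hlo, hup⟩ := fek_ColA hG s h hh j (half_pos hε)
  set c : ℤ := j * s.q with hc
  set B : ℤ := 2 * (2 * h + 2 * (1 + 2 * |c|)) with hB
  obtain ⟨N, hN⟩ := exists_nat_ge ((3 * B + 1) * mean G / (ε / 2))
  refine ⟨(m₀ + 1) * h + 2 + N, fun n₁ n₂ h₁ h₂ a b ha hb => ?_⟩
  have hh0 : (0 : ℤ) < h := by exact_mod_cast hh
  obtain ⟨m₁, hm₁⟩ : ∃ m, m = n₁ / h := ⟨_, rfl⟩
  obtain ⟨m₂, hm₂⟩ : ∃ m, m = (n₂ - 1) / h := ⟨_, rfl⟩
  have a1 : m₁ * h ≤ n₁ := hm₁ ▸ Nat.div_mul_le_self _ _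
  have a2 : n₁ < m₁ * h + h := hm₁ ▸ Nat.lt_div_mul_add (by omega)
  have a3 : m₂ * h ≤ n₂ - 1 := hm₂ ▸ Nat.div_mul_le_self _ _
  have a4 : n₂ - 1 < m₂ * h + h := hm₂ ▸ Nat.lt_div_mul_add (by omega)
  have a5 : m₀ + 1 ≤ m₁ := by
    rw [hm₁, Nat.le_div_iff_mul_le (by omega)]; omega
  have a6 : m₀ + 1 ≤ m₂ := by
    rw [hm₂, Nat.le_div_iff_mul_le (by omega)]; omega
  have a7 : m₁ ≤ n₁ := hm₁ ▸ Nat.div_le_self _ _
  have a8 : m₂ ≤ n₂ := by rw [hm₂]; exact (Nat.div_le_self _ _).trans (by omega)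
  have p1 : 0 < m₁ * h := Nat.mul_pos (by omega) (by omega)
  have p2 : 0 < m₂ * h := Nat.mul_pos (by omega) (by omega)
  have z1 : ((m₁ * h : ℕ) : ℤ) = (m₁ : ℤ) * h := by push_cast; ring
  have z2 : ((m₂ * h : ℕ) : ℤ) = (m₂ : ℤ) * h := by push_cast; ring
  have ha' : |h * (-a) - c * n₁| ≤ h := by
    rw [show h * (-a) - c * n₁ = -(h * a + c * n₁) by ring, abs_neg]; exact ha
  have n1 := near_ColA (m := m₁) hh0 ha' (by rw [← z1, abs_le]; omega)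
  have n2 := near_ColA (m := m₁ + 1) hh0 ha' (by rw [add_mul, one_mul, ← z1, abs_le]; omega)
  have n3 := near_ColA (m := m₂) hh0 hb (by rw [← z2, abs_le]; omega)
  have n4 := near_ColA (m := m₂ + 1) hh0 hb (by rw [add_mul, one_mul, ← z2, abs_le]; omega)
  have hc0 := abs_nonneg c
  have u1 : DD_ColA G s (-n₁) a 0 0 ≤ (μ + ε / 2) * m₁ + B * mean G := by
    have e1 := DD_le_ColA hG s (k₁ := -n₁) (k₂ := -(m₁ * h)) (k₃ := 0) (k₄ := 0) a (-(m₁ * c)) 0 0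
      (by omega) (by omega) le_rfl (B := B) (by
        rw [show a - -(m₁ * c) = -(-a - m₁ * c) by ring, abs_neg, sub_self, abs_zero]
        have : |-(n₁ : ℤ) - -(m₁ * h)| ≤ 2 * h := by rw [abs_le]; omega
        omega)
    have e2 := DD_sh_ColA hG s 0 0 (m₁ * h) (m₁ * j * s.q) (-(m₁ * h)) (-(m₁ * j))
    rw [zero_add, zero_add, add_neg_cancel, show -((m₁ : ℤ) * j) * s.q = -(m₁ * c) by
      rw [hc]; ring, show (m₁ : ℤ) * j * s.q + -(m₁ * c) = 0 by rw [hc]; ring] at e2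
    have e3 := hup m₁ (by omega)
    linarith
  have u2 : DD_ColA G s 1 0 n₂ b ≤ (μ + ε / 2) * m₂ + B * mean G := by
    have e1 := DD_le_ColA hG s (k₁ := 1) (k₂ := 1) (k₃ := m₂ * h + 1) (k₄ := n₂) 0 0 (m₂ * c) b
      le_rfl (by omega) (by omega) (B := B) (by
        rw [abs_sub_comm ((m₂ : ℤ) * c) b, sub_self, sub_self, abs_zero]
        have : |(m₂ : ℤ) * h + 1 - n₂| ≤ 2 * h := by rw [abs_le]; omega
        omega)
    have e2 := DD_sh_ColA hG s 0 0 (m₂ * h) (m₂ * j * s.q) 1 0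
    rw [zero_add, zero_mul, add_zero, add_zero, show (m₂ : ℤ) * j * s.q = m₂ * c by
      rw [hc]; ring] at e2
    have e3 := hup m₂ (by omega)
    rw [show (m₂ : ℤ) * j * s.q = m₂ * c by rw [hc]; ring] at e3
    linarith
  have u3 : μ * (m₁ + m₂) ≤ DD_ColA G s (-n₁) a n₂ b + B * mean G := by
    have e1 := DD_le_ColA hG s (k₁ := -(m₁ * h + h)) (k₂ := -n₁) (k₃ := n₂) (k₄ := m₂ * h + h)
      (-((m₁ + 1) * c)) a b ((m₂ + 1) * c) (by omega) (by omega) (by omega) (B := B) (by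
        rw [show -(((m₁ : ℤ) + 1) * c) - a = -a - (m₁ + 1) * c by ring]
        have t1 : |-((m₁ : ℤ) * h + h) - -n₁| ≤ 2 * h := by rw [abs_le]; omega
        have t2 : |(n₂ : ℤ) - (m₂ * h + h)| ≤ 2 * h := by rw [abs_le]; omega
        omega)
    have e2 := DD_sh_ColA hG s 0 0 ((m₁ + m₂ + 2 : ℕ) * h) ((m₁ + m₂ + 2 : ℕ) * j * s.q)
      (-(m₁ * h + h)) (-((m₁ + 1) * j))
    rw [zero_add, zero_add,
      show ((m₁ + m₂ + 2 : ℕ) : ℤ) * h + -(m₁ * h + h) = m₂ * h + h by push_cast; ring,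
      show -(((m₁ : ℤ) + 1) * j) * s.q = -((m₁ + 1) * c) by rw [hc]; ring,
      show ((m₁ + m₂ + 2 : ℕ) : ℤ) * j * s.q + -((m₁ + 1) * c) = (m₂ + 1) * c by
        rw [hc]; push_cast; ring] at e2
    have e3 := hlo (m₁ + m₂ + 2)
    push_cast at e3 e2
    nlinarith
  have hd : ∫ ω, defect s n₁ n₂ a b ω ∂PP G ≤ DD_ColA G s (-n₁) a 0 0 + mean G +
      DD_ColA G s 1 0 n₂ b - DD_ColA G s (-n₁) a n₂ b := by
    have i1 := intS_ColA hG s (a := -n₁) (b := 0) a 0 (by omega) le_rfl (by omega) (by omega) le_rfl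
    have i2 := integrable_tau hG s(pt s 0 0, pt s 1 0)
    have i3 := intS_ColA hG s (a := 1) (b := n₂) 0 b (by omega) le_rfl (by omega) (by omega) le_rfl
    have i4 := intS_ColA hG s (a := -n₁) (b := n₂) a b (by omega) le_rfl (by omega) (by omega)
      le_rfl
    unfold defect DD_ColA
    rw [integral_sub ((i1.fun_add i2).fun_add i3) i4, integral_add (i1.fun_add i2) i3,
      integral_add i1 i2]
    linarith [integral_tau_le hG s(pt s 0 0, pt s 1 0)]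
  refine hd.trans ?_
  rw [div_le_iff₀ (half_pos hε)] at hN
  have b1 : (m₁ : ℝ) ≤ n₁ := by exact_mod_cast a7
  have b2 : (m₂ : ℝ) ≤ n₂ := by exact_mod_cast a8
  have b3 : (N : ℝ) ≤ n₁ + n₂ := by exact_mod_cast (by omega : N ≤ n₁ + n₂)
  nlinarith

end P158.Gen
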