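import Vale.Agent.P158.Obj

open scoped NNReal ENNReal

namespace P158.Gen

/-- Local quality needed to create records in row `0`, using only light edges. -/
structure LocP (s : Stair) (b₀ M₀ : ℝ) (R K : ℕ) (C : ℝ) (ω : Env) : Prop where
  heavy : ∀ k : ℤ, (k = 0 ∨ k = 1) → ∀ w (p : Zd.Walk (pt s k 0) w), p.IsPath → p.length + 1 = R →
    p.length ≤ 2 * p.edges.countP (fun e => @decide (b₀ ≤ tau ω e ∧ tau ω e ≤ M₀) (Classical.dec _))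
  small : ∀ σ : Finset E, (∀ e ∈ σ, ∀ v ∈ e.1, v ∈ Box s 0 0 R) → ∑ e ∈ σ, (ω e : ℝ) ≤ C
  far : ∀ u ∈ Box s 0 0 R, ∀ u' ∈ Box s 0 0 R, ∀ y' : ℤ, (K : ℤ) ≤ |y'| →
    T ω u u' + 3 * C ≤ T ω u (pt s 0 y') + T ω (pt s 0 y') u'

end P158.Gen
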