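import Vale.Agent.P158.GBase
import Vale.Agent.P158.GLocP
import Vale.Agent.P158.NiceB

open scoped NNReal ENNReal
open MeasureTheory Filter Topology

namespace P158.Gen

/-! The local quality event has high probability. -/

theorem exists_small_LocA {Ω : Type} [MeasurableSpace Ω] (μ : Measure Ω) [IsFiniteMeasure μ]
    (B : ℕ → Set Ω) (hm : ∀ n, MeasurableSet (B n)) (mono : Monotone B)
    (h : ∀ᵐ ω ∂μ, ∃ n, ω ∈ B n) {δ : ℝ≥0∞} (hδ : 0 < δ) : ∃ n, μ (B n)ᶜ ≤ δ := by
  have ht := tendsto_measure_iInter_atTop (μ := μ) (s := fun n => (B n)ᶜ)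
    (fun n => (hm n).compl.nullMeasurableSet) (fun a b hab => Set.compl_subset_compl.2 (mono hab))
    ⟨0, measure_ne_top _ _⟩
  have h0 : μ (⋂ n, (B n)ᶜ) = 0 := by
    rw [ae_iff] at h
    convert h using 2
    ext ω; simp
  rw [h0] at ht
  exact (ht.eventually (ge_mem_nhds hδ)).exists

theorem finite_boxEdges (s : Stair) (R : ℕ) :
    {e : E | ∀ v ∈ e.1, v ∈ Box s 0 0 R}.Finite := by
  have h := ((finite_Box s 0 0 R).prod (finite_Box s 0 0 R)).image fun x : V × V => s(x.1, x.2)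
  refine (h.preimage (f := fun e : E => e.1) Subtype.val_injective.injOn).subset ?_
  rintro ⟨e, he⟩ hb
  induction e using Sym2.ind with
  | h x y => exact ⟨(x, y), ⟨hb x (by simp), hb y (by simp)⟩, rfl⟩

theorem locA {G : Mdl} (hG : Law G) (s : Stair) {b₀ : ℝ}
    (hb : G.G {t | (t : ℝ) ∉ Set.Icc b₀ (G.M : ℝ)} ≤ 1 / 256) (R₀ : ℕ) (C₀ : ℝ) {δ : ℝ≥0∞} (hδ : 0 < δ) :
    ∃ (R K : ℕ) (C : ℝ) (U : Set Env), R₀ ≤ R ∧ C₀ ≤ C ∧ MeasurableSet U ∧ PP G Uᶜ ≤ δ ∧
      ∀ ω ∈ U, LocP s b₀ G.M R K C ω := by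
  classical
  haveI := hG.prob
  have hδ3 : 0 < δ / 3 := ENNReal.div_pos hδ.ne' (by norm_num)
  obtain ⟨Q, U₁, hU₁, hP₁, h₁⟩ := pei hG measurableSet_Icc Set.Icc_subset_Iic_self hb one_pos hδ3
  set R : ℕ := R₀ + Q + 2 with hR
  set F : Finset E := (finite_boxEdges s R).toFinset with hF
  have hSm : Measurable fun ω : Env => ∑ e ∈ F, (ω e : ℝ) :=
    Finset.measurable_sum _ fun e _ => (measurable_pi_apply e).coe_nnreal_real
  obtain ⟨n, hP₂⟩ := exists_small_LocA (PP G) (fun n => {ω | ∑ e ∈ F, (ω e : ℝ) ≤ C₀ + n})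
    (fun n => measurableSet_le hSm measurable_const)
    (fun a b hab ω hω => by
      have : (a : ℝ) ≤ b := by exact_mod_cast hab
      simp only [Set.mem_setOf_eq] at hω ⊢
      linarith)
    (Eventually.of_forall fun ω => by
      obtain ⟨n, hn⟩ := exists_nat_ge (∑ e ∈ F, (ω e : ℝ) - C₀)
      exact ⟨n, by simp only [Set.mem_setOf_eq]; linarith⟩) hδ3
  set C : ℝ := C₀ + n with hC
  have hBm : ∀ K : ℕ, MeasurableSet {ω : Env | ∀ u ∈ Box s 0 0 R, ∀ u' ∈ Box s 0 0 R, ∀ y' : ℤ,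
      (K : ℤ) ≤ |y'| → T ω u u' + 3 * C ≤ T ω u (pt s 0 y') + T ω (pt s 0 y') u'} := by
    intro K
    simp only [Set.setOf_forall]
    exact MeasurableSet.iInter fun u => MeasurableSet.iInter fun _ =>
      MeasurableSet.iInter fun u' => MeasurableSet.iInter fun _ =>
      MeasurableSet.iInter fun y' => MeasurableSet.iInter fun _ =>
        measurableSet_le ((measurable_T _ _).add_const _)
          ((measurable_T _ _).add (measurable_T _ _))
  obtain ⟨K, hP₃⟩ := exists_small_LocA (PP G) _ hBm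
    (fun a b hab ω hω u hu u' hu' y' hy' =>
      hω u hu u' hu' y' (le_trans (by exact_mod_cast hab) hy'))
    (by
      filter_upwards [ae_nice hG] with ω hN
      obtain ⟨M, hM⟩ := (((finite_Box s 0 0 R).prod (finite_Box s 0 0 R)).image
        fun x : V × V => T ω x.1 x.2).bddAbove
      obtain ⟨L, hL⟩ := ((hN.finite_near (finite_Box s 0 0 R) (M + 3 * C)).image
        fun v : V => |v.2|).bddAbove
      refine ⟨L.toNat + 1, fun u hu u' hu' y' hy' => ?_⟩
      have h1 : T ω u u' ≤ M := hM ⟨(u, u'), ⟨hu, hu'⟩, rfl⟩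
      have h2 : M + 3 * C < T ω u (pt s 0 y') := by
        by_contra hc
        have h3 : |y'| ≤ L := hL ⟨pt s 0 y', ⟨u, hu, not_lt.1 hc⟩, rfl⟩
        have h4 := Int.self_le_toNat L
        push_cast at hy'
        omega
      linarith [T_nonneg ω (pt s 0 y') u']) hδ3
  refine ⟨R, K, C, U₁ ∩ ({ω | ∑ e ∈ F, (ω e : ℝ) ≤ C} ∩ _), by omega,
    by rw [hC]; linarith [(Nat.cast_nonneg n : (0 : ℝ) ≤ n)],
    hU₁.inter ((measurableSet_le hSm measurable_const).inter (hBm K)), ?_, ?_⟩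
  · rw [Set.compl_inter, Set.compl_inter]
    refine (measure_union_le _ _).trans ((add_le_add hP₁ ((measure_union_le _ _).trans
      (add_le_add hP₂ hP₃))).trans (le_of_eq ?_))
    rw [← add_assoc, ENNReal.add_thirds]
  · rintro ω ⟨hω₁, hω₂, hω₃⟩
    refine ⟨fun k hk w p hp hl => ?_, fun σ hσ => ?_, hω₃⟩
    · have h := h₁ ω hω₁ _ w p hp (by
        have e1 : nrm (pt s k 0) ≤ 1 := by
          rcases hk with rfl | rfl <;> simp [nrm, pt, s.c0]
        have e2 : (nrm (pt s k 0) : ℝ) ≤ 1 := by exact_mod_cast e1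
        have e3 : Q + 1 ≤ p.length := by omega
        have e4 : (Q : ℝ) + 1 ≤ p.length := by exact_mod_cast e3
        linarith)
      convert h using 4
      exact decide_eq_decide.2 Iff.rfl
    · refine le_trans (Finset.sum_le_sum_of_subset_of_nonneg (fun e he => ?_)
        fun e _ _ => NNReal.coe_nonneg _) hω₂
      rw [hF, Set.Finite.mem_toFinset]
      exact hσ e he

end P158.Gen
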