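import Vale.Agent.P158.Obj

open scoped NNReal ENNReal
open MeasureTheory Filter Topology

namespace P158

/-! The strict order on pairs of functions; sorting and the total budget. -/

theorem Prec.trans {P Q R : FF} (h : Prec P Q) (h' : Prec Q R) : Prec P R :=   ⟨fun y y' e => (h.1 y y' e).trans (h'.1 y y' e),
    fun M => (h.2.1 M).imp fun y => Exists.imp fun y' e =>
      ⟨e.1, by linarith [e.2, h'.1 y y' e.1]⟩,
    fun y y' e => (h'.2.2.1 y y' e).trans (h.2.2.1 y y' e),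
    fun M => (h.2.2.2 M).imp fun y => Exists.imp fun y' e =>
      ⟨e.1, by linarith [e.2, h'.2.2.1 y y' e.1]⟩⟩
theorem Prec.irrefl (P : FF) : ¬ Prec P P :=   fun h => by
    obtain ⟨y, y', _, e⟩ := h.2.1 1
    linarith
theorem Prec.dm_nonneg {P Q : FF} (h : Prec P Q) {a b : ℤ} (hab : a ≤ b) : 0 ≤ Dm P Q a b :=   by
  unfold Dm
  linarith [h.1 a b hab, h.2.2.1 a b hab]
theorem Prec.dm_mono {P Q : FF} (h : Prec P Q) {a b a' b' : ℤ} (ha : a' ≤ a) (hab : a ≤ b)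
    (hb : b ≤ b') : Dm P Q a b ≤ Dm P Q a' b' :=   by
  have h1 := h.dm_nonneg ha
  have h2 := h.dm_nonneg hb
  unfold Dm at *
  linarith
theorem Prec.dm_large {P Q : FF} (h : Prec P Q) (M : ℝ) :
    ∀ᶠ L : ℕ in atTop, M ≤ Dm P Q (-L) L :=   by
  obtain ⟨y, y', h1, h2⟩ := h.2.1 M
  filter_upwards [eventually_ge_atTop (y.natAbs + y'.natAbs)] with L hL
  refine le_trans ?_ (h.dm_mono (a := y) (b := y') (by omega) h1 (by omega))
  unfold Dm
  linarith [h.2.2.1 y y' h1]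
/-- The gap controls the change of the sum of the two functions between two rows. -/
theorem Prec.abs_le {P Q : FF} (h : Prec P Q) {a b y y' : ℤ} (hy : a ≤ y ∧ y ≤ b)
    (hy' : a ≤ y' ∧ y' ≤ b) :
    |((P.1 y' + P.2 y') - (P.1 y + P.2 y)) - ((Q.1 y' + Q.2 y') - (Q.1 y + Q.2 y))| ≤
      Dm P Q a b :=   by
  rcases le_total y y' with e | e
  · have h1 := h.dm_mono hy.1 e hy'.2
    have h2 := h.1 y y' e
    have h3 := h.2.2.1 y y' e
    unfold Dm at *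
    rw [_root_.abs_le]; constructor <;> linarith
  · have h1 := h.dm_mono hy'.1 e hy.2
    have h2 := h.1 y' y e
    have h3 := h.2.2.1 y' y e
    unfold Dm at *
    rw [_root_.abs_le]; constructor <;> linarith
theorem ub_bdd_Srt {f g f' g' : ℤ → ℝ} (h : Ub f g) (h1 : ∃ M : ℝ, ∀ y, |f' y - f y| ≤ M)
    (h2 : ∃ M : ℝ, ∀ y, |g' y - g y| ≤ M) (c : Le f' g' ∨ Le g' f') : Le f' g' ∧ Ub f' g' := by
  obtain ⟨M, h1⟩ := h1
  obtain ⟨M', h2⟩ := h2
  have key : Ub f' g' := fun N => by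
    obtain ⟨y, y', e1, e2⟩ := h (N + 2 * M + 2 * M')
    refine ⟨y, y', e1, ?_⟩
    linarith [abs_le.1 (h1 y), abs_le.1 (h1 y'), abs_le.1 (h2 y), abs_le.1 (h2 y')]
  refine ⟨c.resolve_right fun c => ?_, key⟩
  obtain ⟨y, y', e1, e2⟩ := key 1
  linarith [c y y' e1]
/-- The order is stable under bounded perturbations. -/
theorem Prec.of_bdd {P P' Q Q' : FF} (h : Prec P P')
    (h1 : ∃ M : ℝ, ∀ y, |Q.1 y - P.1 y| ≤ M) (h2 : ∃ M : ℝ, ∀ y, |Q.2 y - P.2 y| ≤ M)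
    (h1' : ∃ M : ℝ, ∀ y, |Q'.1 y - P'.1 y| ≤ M) (h2' : ∃ M : ℝ, ∀ y, |Q'.2 y - P'.2 y| ≤ M)
    (c1 : Le Q.1 Q'.1 ∨ Le Q'.1 Q.1) (c2 : Le Q.2 Q'.2 ∨ Le Q'.2 Q.2) : Prec Q Q' :=   ⟨(ub_bdd_Srt h.2.1 h1 h1' c1).1, (ub_bdd_Srt h.2.1 h1 h1' c1).2,
    (ub_bdd_Srt h.2.2.2 h2' h2 c2.symm).1, (ub_bdd_Srt h.2.2.2 h2' h2 c2.symm).2⟩
/-- A finite family of pairwise comparable pairs can be enumerated increasingly. -/
theorem exists_enum {ι : Type} (I : Finset ι) (P : ι → FF)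
    (h : ∀ i ∈ I, ∀ j ∈ I, i ≠ j → Prec (P i) (P j) ∨ Prec (P j) (P i)) :
    ∃ f : Fin I.card → ι, Function.Injective f ∧ (∀ k, f k ∈ I) ∧
      ∀ k k', k < k' → Prec (P (f k)) (P (f k')) :=   by
  classical
  let rk : ι → ℕ := fun i => (I.filter fun j => Prec (P j) (P i)).card
  have h1 : ∀ i ∈ I, ∀ j, Prec (P i) (P j) → rk i < rk j := fun i hi j e =>
    Finset.card_lt_card ⟨fun x hx => Finset.mem_filter.2 ⟨(Finset.mem_filter.1 hx).1,
      (Finset.mem_filter.1 hx).2.trans e⟩, fun hs =>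
      Prec.irrefl _ (Finset.mem_filter.1 (hs (Finset.mem_filter.2 ⟨hi, e⟩))).2⟩
  have h2 : ∀ i ∈ I, rk i < I.card := fun i hi =>
    Finset.card_lt_card ⟨Finset.filter_subset _ _, fun hs =>
      Prec.irrefl _ (Finset.mem_filter.1 (hs hi)).2⟩
  let g : I → Fin I.card := fun i => ⟨rk i, h2 i i.2⟩
  have h3 : Function.Injective g := fun i j e => by
    by_contra hn
    have e' : rk i = rk j := congrArg Fin.val e
    rcases h i i.2 j j.2 (fun e => hn (Subtype.ext e)) with c | c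
    · exact (h1 i i.2 j c).ne e'
    · exact (h1 j j.2 i c).ne e'.symm
  let e := Equiv.ofBijective g ((Fintype.bijective_iff_injective_and_card g).2 ⟨h3, by simp⟩)
  have h4 : ∀ k, rk (e.symm k) = k := fun k => congrArg Fin.val (e.apply_symm_apply k)
  refine ⟨fun k => e.symm k, Subtype.val_injective.comp e.symm.injective, fun k => (e.symm k).2,
    fun k k' hk => ?_⟩
  refine (h _ (e.symm k).2 _ (e.symm k').2 fun c =>
    hk.ne (e.symm.injective (Subtype.ext c))).resolve_right fun c => ?_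
  have := h1 _ (e.symm k').2 _ c
  rw [h4, h4] at this
  exact lt_asymm hk this
/-- Successor map and total budget. -/
theorem exists_succ {ι : Type} (I : Finset ι) (P : ι → FF)
    (h : ∀ i ∈ I, ∀ j ∈ I, i ≠ j → Prec (P i) (P j) ∨ Prec (P j) (P i)) {a b : ℤ} {B₁ B₂ : ℝ}
    (hB₁ : 0 ≤ B₁) (hB₂ : 0 ≤ B₂)
    (h1 : ∀ i ∈ I, |(P i).1 b - (P i).1 a| ≤ B₁) (h2 : ∀ i ∈ I, |(P i).2 b - (P i).2 a| ≤ B₂) :
    ∃ (J : Finset ι) (nx : ι → ι), J ⊆ I ∧ I.card ≤ J.card + 1 ∧ Set.InjOn nx J ∧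
      (∀ i ∈ J, nx i ∈ I ∧ Prec (P i) (P (nx i))) ∧
      ∑ i ∈ J, Dm (P i) (P (nx i)) a b ≤ 2 * B₁ + 2 * B₂ :=   by
  classical
  rcases I.eq_empty_or_nonempty with rfl | ⟨i₀, hi₀⟩
  · exact ⟨∅, id, by simp, by simp, by simp, by simp, by simp; linarith⟩
  obtain ⟨f, f1, f2, f3⟩ := exists_enum I P h
  obtain ⟨n, hn⟩ : ∃ n, I.card = n + 1 := ⟨_, (Nat.succ_pred_eq_of_pos
    (Finset.card_pos.2 ⟨i₀, hi₀⟩)).symm⟩
  let F : ℕ → ι := fun k => if h : k < I.card then f ⟨k, h⟩ else i₀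
  have F1 : ∀ k, F k ∈ I := fun k => by
    unfold F; split_ifs
    · exact f2 _
    · exact hi₀
  have F2 : ∀ k k', k < k' → k' ≤ n → Prec (P (F k)) (P (F k')) := fun k k' e1 e2 => by
    simp only [F, dif_pos (show k < I.card by omega), dif_pos (show k' < I.card by omega)]
    exact f3 _ _ e1
  have F3 : ∀ k k', k ≤ n → k' ≤ n → F k = F k' → k = k' := fun k k' e1 e2 e => by
    rcases lt_trichotomy k k' with c | c | c
    · exact absurd (e ▸ F2 k k' c e2) (Prec.irrefl _)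
    · exact c
    · exact absurd (e ▸ F2 k' k c e1) (Prec.irrefl _)
  let rk : ι → ℕ := fun i => if h : ∃ k ≤ n, F k = i then h.choose else 0
  have F4 : ∀ k ≤ n, rk (F k) = k := fun k hk => by
    have h : ∃ k' ≤ n, F k' = F k := ⟨k, hk, rfl⟩
    simp only [rk, dif_pos h]
    exact F3 _ _ h.choose_spec.1 hk h.choose_spec.2
  have F5 : Set.InjOn F (Finset.range n) := fun k hk k' hk' =>
    F3 k k' (Finset.mem_range.1 hk).le (Finset.mem_range.1 hk').le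
  refine ⟨(Finset.range n).image F, fun i => F (rk i + 1), fun i hi => ?_, ?_, ?_, fun i hi => ?_,
    ?_⟩
  · obtain ⟨k, _, rfl⟩ := Finset.mem_image.1 hi
    exact F1 k
  · rw [Finset.card_image_of_injOn F5, Finset.card_range, hn]
  · intro i hi j hj e
    obtain ⟨k, hk, rfl⟩ := Finset.mem_image.1 hi
    obtain ⟨k', hk', rfl⟩ := Finset.mem_image.1 hj
    rw [Finset.mem_range] at hk hk'
    simp only [F4 k hk.le, F4 k' hk'.le] at e
    rw [Nat.succ_injective (F3 _ _ hk hk' e)]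
  · obtain ⟨k, hk, rfl⟩ := Finset.mem_image.1 hi
    rw [Finset.mem_range] at hk
    simp only [F4 k hk.le]
    exact ⟨F1 _, F2 _ _ (Nat.lt_succ_self k) hk⟩
  · rw [Finset.sum_image F5]
    let φ : ℕ → ℝ := fun k => ((P (F k)).1 b - (P (F k)).1 a) - ((P (F k)).2 b - (P (F k)).2 a)
    rw [Finset.sum_congr rfl (g := fun k => φ (k + 1) - φ k) fun k hk => by
      simp only [F4 k (Finset.mem_range.1 hk).le]; unfold Dm φ; ring, Finset.sum_range_sub]
    unfold φ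
    linarith [abs_le.1 (h1 _ (F1 0)), abs_le.1 (h1 _ (F1 n)), abs_le.1 (h2 _ (F1 0)),
      abs_le.1 (h2 _ (F1 n))]

end P158
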