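import Vale.Agent.P158.GBase
import Vale.Agent.P158.Srt
import Vale.Agent.P158.RecA
import Vale.Agent.P158.Sym2
import Vale.Agent.P158.NM
import Vale.Agent.P158.Sel

open scoped NNReal ENNReal
open MeasureTheory Filter Topology

namespace P158.Gen

/-! If records exist, the expected number of records for which row `0` is near optimal is
infinite. -/

/-- Vertical shift of a pair of functions. -/
def shF_StB (c : ℤ) (P : FF) : FF := (fun y => P.1 (y + c), fun y => P.2 (y + c))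

theorem prec_shF_StB {P Q : FF} (h : Prec P Q) (c : ℤ) : Prec (shF_StB c P) (shF_StB c Q) := by
  obtain ⟨h1, h2, h3, h4⟩ := h
  refine ⟨fun y y' hy => h1 _ _ (by omega), fun M => ?_, fun y y' hy => h3 _ _ (by omega),
    fun M => ?_⟩
  · obtain ⟨y, y', hy, hM⟩ := h2 M
    exact ⟨y - c, y' - c, by omega, by simpa [shF_StB] using hM⟩
  · obtain ⟨y, y', hy, hM⟩ := h4 M
    exact ⟨y - c, y' - c, by omega, by simpa [shF_StB] using hM⟩

theorem dm_shF_StB (P Q : FF) (c a b : ℤ) :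
    Dm (shF_StB c P) (shF_StB c Q) a b = Dm P Q (a + c) (b + c) := rfl

/-- The shift by `n * (K + 1)` periods. -/
def th_StB (s : Stair) (K : ℕ) (n : ℤ) : Env → Env := act (tr (sh s 0 (n * (K + 1))))

theorem th_add_StB (s : Stair) (K : ℕ) (n m : ℤ) (ω : Env) :
    th_StB s K n (th_StB s K m ω) = th_StB s K (n + m) ω := by
  unfold th_StB
  rw [act_tr_add, sh_add, add_mul, add_zero]

/-- The selected left ray in row `n * (K + 1) * q`. -/
def LL_StB (s : Stair) (K : ℕ) (f : Env → (ℕ → V) × (ℕ → V)) (n : ℤ) (ω : Env) : ℕ → V :=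
  fun i => (f (th_StB s K n ω)).1 i + sh s 0 (n * (K + 1))

/-- The selected right ray in row `n * (K + 1) * q`. -/
def RR_StB (s : Stair) (K : ℕ) (f : Env → (ℕ → V) × (ℕ → V)) (n : ℤ) (ω : Env) : ℕ → V :=
  fun i => (f (th_StB s K n ω)).2 i + sh s 0 (n * (K + 1))

/-- The selected pair of functions. -/
noncomputable def FF_StB (s : Stair) (K : ℕ) (f : Env → (ℕ → V) × (ℕ → V)) (n : ℤ) (ω : Env) :
    FF := pr s ω (LL_StB s K f n ω) (RR_StB s K f n ω)

theorem FF_cov_StB (s : Stair) (K : ℕ) (f : Env → (ℕ → V) × (ℕ → V)) (n m : ℤ) (ω : Env) :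
    FF_StB s K f n (th_StB s K m ω) =
      shF_StB (m * (K + 1) * s.q) (FF_StB s K f (n + m) ω) := by
  have h1 : (fun i => LL_StB s K f n (th_StB s K m ω) i + sh s 0 (m * (K + 1))) =
      LL_StB s K f (n + m) ω := by
    funext i
    simp only [LL_StB]
    rw [th_add_StB, add_assoc, sh_add, add_mul, add_zero]
  have h2 : (fun i => RR_StB s K f n (th_StB s K m ω) i + sh s 0 (m * (K + 1))) =
      RR_StB s K f (n + m) ω := by
    funext i
    simp only [RR_StB]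
    rw [th_add_StB, add_assoc, sh_add, add_mul, add_zero]
  refine Prod.ext ?_ ?_
  · funext y
    show bL s (act (tr (sh s 0 (m * (K + 1)))) ω) (LL_StB s K f n (th_StB s K m ω)) y =
      bL s ω (LL_StB s K f (n + m) ω) (y + m * (K + 1) * s.q)
    rw [bL_sh, h1]
  · funext y
    show bR s (act (tr (sh s 0 (m * (K + 1)))) ω) (RR_StB s K f n (th_StB s K m ω)) y =
      bR s ω (RR_StB s K f (n + m) ω) (y + m * (K + 1) * s.q)
    rw [bR_sh, h2]

/-- The selected pair is a record. -/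
def Ev_StB (s : Stair) (A R Λ K : ℕ) (f : Env → (ℕ → V) × (ℕ → V)) : Set Env :=
  {ω | Rec s A R Λ K 0 ω (f ω).1 (f ω).2}

theorem rec_cov_StB {s : Stair} {A R Λ K : ℕ} {f : Env → (ℕ → V) × (ℕ → V)} {n : ℤ} {ω : Env}
    (h : th_StB s K n ω ∈ Ev_StB s A R Λ K f) :
    Rec s A R Λ K (n * (K + 1) * s.q) ω (LL_StB s K f n ω) (RR_StB s K f n ω) := by
  have h' := (Rec_sh s A R Λ K ω (n * (K + 1)) 0 (f (th_StB s K n ω)).1
    (f (th_StB s K n ω)).2).1 h
  rw [zero_add] at h'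
  exact h'

theorem far_StB (s : Stair) (K : ℕ) {n m : ℤ} (h : n ≠ m) :
    (K : ℤ) ≤ |n * (K + 1) * s.q - m * (K + 1) * s.q| := by
  have hq : (1 : ℤ) ≤ s.q := by exact_mod_cast s.hq
  have h1 : (1 : ℤ) ≤ |n - m| := Int.one_le_abs (sub_ne_zero.2 h)
  have hK : (0 : ℤ) ≤ K := Nat.cast_nonneg K
  rw [show n * (K + 1) * s.q - m * (K + 1) * s.q = (n - m) * (((K : ℤ) + 1) * s.q) by ring,
    abs_mul, abs_of_nonneg (by positivity : (0 : ℤ) ≤ ((K : ℤ) + 1) * s.q)]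
  have h2 : (K : ℤ) + 1 ≤ ((K : ℤ) + 1) * s.q := by nlinarith
  nlinarith

theorem near_StB {s : Stair} {A R Λ K Λ₂ : ℕ} {f : Env → (ℕ → V) × (ℕ → V)} {j : ℤ} {ω : Env}
    (hj : j ≠ 0) (h0 : th_StB s K 0 ω ∈ Ev_StB s A R Λ K f)
    (h1 : th_StB s K j ω ∈ Ev_StB s A R Λ K f)
    (hP : Prec (FF_StB s K f 0 ω) (FF_StB s K f j ω)) {a b : ℤ} (ha : a ≤ 0 ∧ 0 ≤ b)
    (hb : a ≤ j * (K + 1) * s.q ∧ j * (K + 1) * s.q ≤ b)
    (hD : Dm (FF_StB s K f 0 ω) (FF_StB s K f j ω) a b ≤ Λ₂) : ω ∈ NearE s A R Λ K Λ₂ j := by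
  have r0 := rec_cov_StB h0
  have r1 := rec_cov_StB h1
  refine ⟨_, _, r1, ?_⟩
  have g := r0.gap (y' := j * (K + 1) * s.q) (far_StB s K hj)
  have h2 := hP.abs_le ha hb
  rw [abs_le] at h2
  simp only [zero_mul] at g
  simp only [WW] at g ⊢
  simp only [FF_StB, pr] at h2 hD
  linarith [h2.1, h2.2]

theorem measurable_th_StB (s : Stair) (K : ℕ) (n : ℤ) : Measurable (th_StB s K n) :=
  measurable_act _

theorem measurable_FF_StB (s : Stair) (K : ℕ) {f : Env → (ℕ → V) × (ℕ → V)} (hf : Measurable f)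
    (n : ℤ) : Measurable (FF_StB s K f n) := by
  have h := hf.comp (measurable_th_StB s K n)
  refine measurable_pr s measurable_id ?_ ?_
  · refine measurable_pi_lambda _ fun i => ?_
    exact (measurable_of_countable (fun v : V => v + sh s 0 (n * (K + 1)))).comp
      ((measurable_pi_apply i).comp h.fst)
  · refine measurable_pi_lambda _ fun i => ?_
    exact (measurable_of_countable (fun v : V => v + sh s 0 (n * (K + 1)))).comp
      ((measurable_pi_apply i).comp h.snd)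

/-- The two selected pairs are ordered but close on the window. -/
def E2_StB (s : Stair) (K Λ₂ : ℕ) (f : Env → (ℕ → V) × (ℕ → V)) (j : ℤ) (L : ℕ) : Set Env :=
  {ω | Prec (FF_StB s K f 0 ω) (FF_StB s K f j ω)} ∩
    {ω | Dm (FF_StB s K f 0 ω) (FF_StB s K f j ω) (-L) L ≤ Λ₂}

theorem measurableSet_E2_StB (s : Stair) (K Λ₂ : ℕ) {f : Env → (ℕ → V) × (ℕ → V)}
    (hf : Measurable f) (j : ℤ) (L : ℕ) : MeasurableSet (E2_StB s K Λ₂ f j L) :=
  (measurableSet_Prec (measurable_FF_StB s K hf 0) (measurable_FF_StB s K hf j)).inter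
    (measurableSet_le (measurable_Dm (measurable_FF_StB s K hf 0) (measurable_FF_StB s K hf j) _ _)
      measurable_const)

theorem tendsto_E2_StB (μ : Measure Env) [IsFiniteMeasure μ] (s : Stair) (K Λ₂ : ℕ)
    {f : Env → (ℕ → V) × (ℕ → V)} (hf : Measurable f) (j : ℤ) :
    Tendsto (fun L => μ (E2_StB s K Λ₂ f j L)) atTop (𝓝 0) := by
  have hanti : Antitone (E2_StB s K Λ₂ f j) := by
    intro L L' hL ω hω
    refine ⟨hω.1, ?_⟩
    have h1 : (L : ℤ) ≤ L' := by exact_mod_cast hL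
    exact le_trans (Prec.dm_mono hω.1 (by omega) (by omega) h1) hω.2
  have h := tendsto_measure_iInter_atTop (μ := μ)
    (fun L => (measurableSet_E2_StB s K Λ₂ hf j L).nullMeasurableSet) hanti
    ⟨0, measure_ne_top _ _⟩
  have he : ⋂ L, E2_StB s K Λ₂ f j L = ∅ := by
    refine Set.eq_empty_of_forall_notMem fun ω hω => ?_
    rw [Set.mem_iInter] at hω
    obtain ⟨L, hL⟩ := (Prec.dm_large (hω 0).1 ((Λ₂ : ℝ) + 1)).exists
    have := (hω L).2
    simp only [Set.mem_setOf_eq] at this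
    linarith
  rw [he, measure_empty] at h
  exact h

/-- The deterministic count. -/
theorem count_StB {s : Stair} {A R Λ K Λ₂ : ℕ} {f : Env → (ℕ → V) × (ℕ → V)} {ω : Env}
    (hO : OrdP s A ω) (L m : ℕ) (I : Finset ℕ) (hI : I ⊆ Finset.range m)
    (h1 : ∀ n ∈ I, th_StB s K n ω ∈ Ev_StB s A R Λ K f)
    (h2 : ∀ n ∈ I, ∀ j : ℤ, th_StB s K n ω ∉ NearE s A R Λ K Λ₂ j ∨
      th_StB s K n ω ∉ E2_StB s K Λ₂ f j L) :
    ((I.card : ℝ) - 1) * Λ₂ ≤
      2 * TS ω (HLe s 0) (pt s 0 (-L)) (pt s 0 (m * (K + 1) * s.q + L)) +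
        2 * TS ω (HGe s 1) (pt s 1 (-L)) (pt s 1 (m * (K + 1) * s.q + L)) := by
  obtain ⟨J, nx, hJI, hcard, -, hnx, hsum⟩ := exists_succ I (fun n : ℕ => FF_StB s K f n ω)
    (fun i hi j hj hij => hO R Λ K _ _ _ _ _ _ (rec_cov_StB (h1 i hi)) (rec_cov_StB (h1 j hj))
      (far_StB s K (by exact_mod_cast hij)))
    (a := -L) (b := m * (K + 1) * s.q + L) (TS_nonneg ω (HLe s 0) _ _) (TS_nonneg ω (HGe s 1) _ _)
    (fun i hi => bL_lip (rec_cov_StB (h1 i hi)).hl _ _)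
    (fun i hi => bR_lip (rec_cov_StB (h1 i hi)).hr _ _)
  have hrow : ∀ n ∈ I, (0 : ℤ) ≤ n * (K + 1) * s.q ∧
      (n : ℤ) * (K + 1) * s.q ≤ m * (K + 1) * s.q := by
    intro n hn
    have hnm : (n : ℤ) ≤ m := by exact_mod_cast (Finset.mem_range.1 (hI hn)).le
    refine ⟨by positivity, ?_⟩
    gcongr
  have hbig : ∀ n ∈ J, (Λ₂ : ℝ) ≤ Dm (FF_StB s K f n ω) (FF_StB s K f (nx n) ω) (-L)
      (m * (K + 1) * s.q + L) := by
    intro n hn
    by_contra hlt
    push Not at hlt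
    obtain ⟨hn', hP⟩ := hnx n hn
    have hnI := hJI hn
    have hne : ((nx n : ℕ) : ℤ) - n ≠ 0 := by
      intro h0
      have : nx n = n := by omega
      rw [this] at hP
      exact Prec.irrefl _ hP
    have e0 := FF_cov_StB s K f 0 n ω
    have e1 := FF_cov_StB s K f (((nx n : ℕ) : ℤ) - n) n ω
    rw [zero_add] at e0
    rw [sub_add_cancel] at e1
    have hP' : Prec (FF_StB s K f 0 (th_StB s K n ω))
        (FF_StB s K f (((nx n : ℕ) : ℤ) - n) (th_StB s K n ω)) := by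
      rw [e0, e1]; exact prec_shF_StB hP _
    have hL0 : (0 : ℤ) ≤ L := Nat.cast_nonneg L
    obtain ⟨r1, r2⟩ := hrow n hnI
    obtain ⟨r3, r4⟩ := hrow _ hn'
    rcases h2 n hnI (((nx n : ℕ) : ℤ) - n) with h | h
    · refine h (near_StB hne ?_ ?_ hP' (a := -L - n * (K + 1) * s.q)
        (b := m * (K + 1) * s.q + L - n * (K + 1) * s.q) ⟨by linarith, by linarith⟩
        ⟨by linarith, by linarith⟩ ?_)
      · rw [th_add_StB, zero_add]; exact h1 n hnI
      · rw [th_add_StB, sub_add_cancel]; exact h1 _ hn'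
      · rw [e0, e1, dm_shF_StB, sub_add_cancel, sub_add_cancel]; exact hlt.le
    · refine h ⟨hP', ?_⟩
      show Dm _ _ _ _ ≤ _
      rw [e0, e1, dm_shF_StB]
      exact le_trans (Prec.dm_mono hP (by linarith) (by linarith) (by linarith)) hlt.le
  have h3 : (J.card : ℝ) * Λ₂ ≤ ∑ n ∈ J, Dm (FF_StB s K f n ω) (FF_StB s K f (nx n) ω) (-L)
      (m * (K + 1) * s.q + L) := by
    have := Finset.card_nsmul_le_sum J _ _ hbig
    rwa [nsmul_eq_mul] at this
  have h4 : (I.card : ℝ) ≤ J.card + 1 := by exact_mod_cast hcard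
  have h5 : (0 : ℝ) ≤ Λ₂ := Nat.cast_nonneg _
  nlinarith

/-- The probabilistic count. -/
theorem prob_StB {G : Mdl} (hG : Law G) {s : Stair} {A R Λ K Λ₂ : ℕ}
    {f : Env → (ℕ → V) × (ℕ → V)} (hO : ∀ᵐ ω ∂PP G, OrdP s A ω) (hΛ : 0 < Λ₂) (L : ℕ)
    {D : Set Env} (hD : MeasurableSet D) (h1 : D ⊆ Ev_StB s A R Λ K f)
    (h2 : ∀ ω ∈ D, ∀ j : ℤ, ω ∉ NearE s A R Λ K Λ₂ j ∨ ω ∉ E2_StB s K Λ₂ f j L) :
    (PP G).real D ≤ 8 * (K + 1) * s.q * mean G / Λ₂ := by
  haveI := hG.prob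
  have hΛ' : (0 : ℝ) < Λ₂ := by exact_mod_cast hΛ
  have hm0 := mean_nonneg G
  have key : ∀ m : ℕ, (m : ℝ) * (PP G).real D ≤
      1 + 8 * (m * (K + 1) * s.q + 2 * L) * mean G / Λ₂ := by
    intro m
    have c1 : Conn (HLe s 0) (pt s 0 (-L)) (pt s 0 (m * (K + 1) * s.q + L)) :=
      conn_HLe s (by simp) (by simp)
    have c2 : Conn (HGe s 1) (pt s 1 (-L)) (pt s 1 (m * (K + 1) * s.q + L)) :=
      conn_HGe s (by simp) (by simp)
    have i1 := integrable_TS hG c1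
    have i2 := integrable_TS hG c2
    have hnn : (0 : ℤ) ≤ m * (K + 1) * s.q + 2 * L := by positivity
    have habs : |(-(L : ℤ)) - (m * (K + 1) * s.q + L)| = m * (K + 1) * s.q + 2 * L := by
      rw [abs_sub_comm, show (m : ℤ) * (K + 1) * s.q + L - -L = m * (K + 1) * s.q + 2 * L by ring,
        abs_of_nonneg hnn]
    have b1 := integral_TS_strip hG s (a := -1) (b := 0) (by norm_num) (S := HLe s 0)
      (fun v hv => hv.2) (x := pt s 0 (-L)) (y := pt s 0 (m * (K + 1) * s.q + L))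
      (by simp [Strip]) (by simp [Strip])
    have b2 := integral_TS_strip hG s (a := 1) (b := 2) (by norm_num) (S := HGe s 1)
      (fun v hv => hv.1) (x := pt s 1 (-L)) (y := pt s 1 (m * (K + 1) * s.q + L))
      (by simp [Strip]) (by simp [Strip])
    simp only [X_pt, pt_snd, sub_self, abs_zero, zero_add, habs] at b1 b2
    push_cast at b1 b2
    have hc := sum_le_of_count (PP G) (Finset.range m) (fun n : ℕ => th_StB s K n ⁻¹' D)
      (fun n _ => (measurable_th_StB s K n hD).nullMeasurableSet)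
      (fun ω => 1 + (2 * TS ω (HLe s 0) (pt s 0 (-L)) (pt s 0 (m * (K + 1) * s.q + L)) +
        2 * TS ω (HGe s 1) (pt s 1 (-L)) (pt s 1 (m * (K + 1) * s.q + L))) / Λ₂)
      ((integrable_const _).add (((i1.const_mul 2).add (i2.const_mul 2)).div_const _))
      (by
        filter_upwards [hO] with ω hω J hJ hJ'
        have := count_StB (Λ₂ := Λ₂) (f := f) hω L m J hJ (fun n hn => h1 (hJ' n hn))
          (fun n hn => h2 _ (hJ' n hn))
        rw [← le_div_iff₀ hΛ'] at this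
        linarith)
    have hinv : ∀ n : ℕ, (PP G).real (th_StB s K n ⁻¹' D) = (PP G).real D := by
      intro n
      simp only [Measure.real, th_StB]
      rw [PP_act]
    simp only [hinv, Finset.sum_const, Finset.card_range, nsmul_eq_mul] at hc
    have i3 : Integrable (fun ω => (2 * TS ω (HLe s 0) (pt s 0 (-L))
        (pt s 0 (m * (K + 1) * s.q + L)) +
        2 * TS ω (HGe s 1) (pt s 1 (-L)) (pt s 1 (m * (K + 1) * s.q + L))) / Λ₂) (PP G) :=
      ((i1.const_mul 2).add (i2.const_mul 2)).div_const _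
    rw [integral_add (integrable_const _) i3,
      integral_div, integral_add (i1.const_mul 2) (i2.const_mul 2), integral_const_mul,
      integral_const_mul] at hc
    simp only [integral_const, probReal_univ, smul_eq_mul, mul_one] at hc
    refine hc.trans ?_
    gcongr
    linarith
  by_contra hlt
  push Not at hlt
  obtain ⟨m, hm⟩ := exists_nat_gt ((1 + 16 * L * mean G / Λ₂) /
    ((PP G).real D - 8 * (K + 1) * s.q * mean G / Λ₂))
  rw [div_lt_iff₀ (by linarith)] at hm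
  have := key m
  have e : 8 * ((m : ℝ) * (K + 1) * s.q + 2 * L) * mean G / Λ₂ =
      m * (8 * (K + 1) * s.q * mean G / Λ₂) + 16 * L * mean G / Λ₂ := by ring
  rw [e] at this
  linarith

theorem stB {G : Mdl} (hG : Law G) (s : Stair) (A R Λ K : ℕ)
    (hO : ∀ᵐ ω ∂PP G, OrdP s A ω) (hp : PP G {ω | ∃ l r, Rec s A R Λ K 0 ω l r} ≠ 0) :
    ∃ (Λ₂ : ℕ) (δ : ℝ≥0∞), 0 < δ ∧ ∀ U : Set Env, MeasurableSet U → PP G Uᶜ ≤ δ →
      ∑' n : ℤ, PP G (U ∩ NearE s A R Λ K Λ₂ n) = ∞ := by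
  haveI := hG.prob
  obtain ⟨f, hf, hsel⟩ := exists_sel (Y := (ℕ → V) × (ℕ → V)) (PP G)
    (S := {z | Rec s A R Λ K 0 z.1 z.2.1 z.2.2})
    (measurableSet_Rec s A R Λ K 0 measurable_fst measurable_snd.fst measurable_snd.snd)
  have hEv : MeasurableSet (Ev_StB s A R Λ K f) :=
    measurableSet_Rec s A R Λ K 0 measurable_id hf.fst hf.snd
  have hp' : PP G (Ev_StB s A R Λ K f) ≠ 0 := by
    intro h0
    apply hp
    refine le_antisymm (le_trans (measure_mono_ae ?_) h0.le) zero_le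
    filter_upwards [hsel] with ω hω hω'
    obtain ⟨l, r, hlr⟩ := hω'
    exact hω ⟨(l, r), hlr⟩
  obtain ⟨p, hpdef⟩ : ∃ p, p = (PP G).real (Ev_StB s A R Λ K f) := ⟨_, rfl⟩
  have hp0 : 0 < p := by
    rw [hpdef]
    exact ENNReal.toReal_pos hp' (measure_ne_top _ _)
  have hm0 := mean_nonneg G
  obtain ⟨Λ₂, hΛ₂⟩ := exists_nat_gt (8 * (K + 1) * s.q * mean G / (p / 4))
  have hΛ' : (0 : ℝ) < Λ₂ := lt_of_le_of_lt (by positivity) hΛ₂
  have hΛ : 0 < Λ₂ := by exact_mod_cast hΛ'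
  have hδ : 0 < ENNReal.ofReal (p / 4) := ENNReal.ofReal_pos.2 (by positivity)
  refine ⟨Λ₂, ENNReal.ofReal (p / 4), hδ, fun U hU hUc => ?_⟩
  by_contra hfin
  obtain ⟨F, hF⟩ := ((ENNReal.tendsto_tsum_compl_atTop_zero hfin).eventually
    (ge_mem_nhds hδ)).exists
  have ht : Tendsto (fun L => ∑ j ∈ F, PP G (E2_StB s K Λ₂ f j L)) atTop (𝓝 0) := by
    have := tendsto_finset_sum F fun j _ => tendsto_E2_StB (PP G) s K Λ₂ hf j
    simpa using this
  obtain ⟨L, hL⟩ := (ht.eventually (ge_mem_nhds hδ)).exists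
  obtain ⟨E₁, hE₁⟩ : ∃ E₁, E₁ = toMeasurable (PP G)
      (⋃ j : {x // x ∉ F}, U ∩ NearE s A R Λ K Λ₂ j) := ⟨_, rfl⟩
  obtain ⟨E₂, hE₂⟩ : ∃ E₂, E₂ = ⋃ j ∈ F, E2_StB s K Λ₂ f j L := ⟨_, rfl⟩
  have m1 : MeasurableSet E₁ := hE₁ ▸ measurableSet_toMeasurable _ _
  have m2 : MeasurableSet E₂ := hE₂ ▸
    Finset.measurableSet_biUnion _ fun j _ => measurableSet_E2_StB s K Λ₂ hf j L
  have p1 : PP G E₁ ≤ ENNReal.ofReal (p / 4) := by
    rw [hE₁, measure_toMeasurable]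
    exact (measure_iUnion_le _).trans hF
  have p2 : PP G E₂ ≤ ENNReal.ofReal (p / 4) := by
    rw [hE₂]
    exact (measure_biUnion_finset_le _ _).trans hL
  have hD := prob_StB (Λ₂ := Λ₂) (f := f) hG hO hΛ L
    (D := Ev_StB s A R Λ K f ∩ U ∩ E₁ᶜ ∩ E₂ᶜ) (((hEv.inter hU).inter m1.compl).inter m2.compl)
    (fun ω hω => hω.1.1.1) (by
      intro ω hω j
      by_cases hj : j ∈ F
      · right
        intro h
        apply hω.2
        rw [hE₂]
        exact Set.mem_biUnion hj h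
      · left
        intro h
        apply hω.1.2
        rw [hE₁]
        exact subset_toMeasurable _ _ (Set.mem_iUnion.2 ⟨⟨j, hj⟩, hω.1.1.2, h⟩))
  have hsub : Ev_StB s A R Λ K f ⊆ (Ev_StB s A R Λ K f ∩ U ∩ E₁ᶜ ∩ E₂ᶜ) ∪ Uᶜ ∪ E₁ ∪ E₂ := by
    intro ω hω
    by_cases a1 : ω ∈ U <;> by_cases a2 : ω ∈ E₁ <;> by_cases a3 : ω ∈ E₂ <;>
      simp [hω, a1, a2, a3]
  have r : ∀ B : Set Env, PP G B ≤ ENNReal.ofReal (p / 4) → (PP G).real B ≤ p / 4 :=
    fun B hB => ENNReal.toReal_le_of_le_ofReal (by positivity) hB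
  have u1 := measureReal_mono (μ := PP G) hsub
  have u2 := measureReal_union_le (μ := PP G)
    ((Ev_StB s A R Λ K f ∩ U ∩ E₁ᶜ ∩ E₂ᶜ) ∪ Uᶜ ∪ E₁) E₂
  have u3 := measureReal_union_le (μ := PP G) ((Ev_StB s A R Λ K f ∩ U ∩ E₁ᶜ ∩ E₂ᶜ) ∪ Uᶜ) E₁
  have u4 := measureReal_union_le (μ := PP G) (Ev_StB s A R Λ K f ∩ U ∩ E₁ᶜ ∩ E₂ᶜ) Uᶜ
  have v1 := r _ hUc
  have v2 := r _ p1
  have v3 := r _ p2
  have w : 8 * (K + 1) * s.q * mean G / Λ₂ < p / 4 := by
    rw [div_lt_iff₀ (by positivity)] at hΛ₂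
    rw [div_lt_iff₀ hΛ']
    linarith
  rw [← hpdef] at u1
  linarith

end P158.Gen
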