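import Vale.Agent.P158.GBase
import Vale.Agent.P158.GRob
import Vale.Agent.P158.GLocA

open scoped NNReal ENNReal
open MeasureTheory Filter Topology

namespace P158.Gen

/-! Without records there are no quasi-bigeodesics across the cut. -/

theorem step_MainB {G : Mdl} (hG : Law G) (s : Stair) (A : ℕ)
    (h : ∀ R Λ K : ℕ, PP G {ω | ∃ l r, Rec s A R Λ K 0 ω l r} = 0) (Λ : ℕ) :
    PP G {ω | ∃ l r, RayL s A ω l ∧ RayR s A ω r ∧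
      ∀ i j, W ω l i + W ω r j + WW s ω l r 0 - Λ ≤ T ω (l i) (r j)} = 0 := by
  classical
  haveI := hG.prob
  refine le_antisymm (ENNReal.le_of_forall_pos_le_add fun δ hδ _ => ?_) zero_le
  obtain ⟨a₀, b₀, -, hab, hρ, -, hbM, hb⟩ := exists_ab hG
  obtain ⟨R₀, hR₀⟩ := exists_nat_ge (2 * ((Λ : ℝ) + 1) / (b₀ - a₀) + 1)
  obtain ⟨R, K, C, U, hR, hC, hU, hUc, hL⟩ := locA hG s (b₀ := b₀)
    hb R₀ ((Λ : ℝ) + 2) (δ := δ) (by exact_mod_cast hδ)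
  have hR' : 2 * ((Λ : ℝ) + 1) ≤ (b₀ - a₀) * (R - 1) := by
    have h1 : (R₀ : ℝ) ≤ R := by exact_mod_cast hR
    rw [mul_comm (b₀ - a₀), ← div_le_iff₀ (sub_pos.2 hab)]
    linarith
  have hD : MeasurableSet {t : ℝ≥0 | (t : ℝ) ≤ a₀} :=
    measurableSet_le measurable_coe_nnreal_real measurable_const
  set Lo : Finset E → Set Env := fun σ => {ω | (∀ e ∈ σ, (ω e : ℝ) ≤ G.M) ∧ ∀ ω' : Env, (∀ e ∉ σ, ω' e = ω e) →
    (∀ e ∈ σ, (ω' e : ℝ) ≤ a₀) → ω' ∈ {ω | ∃ l r, Rec s A R Λ K 0 ω l r}} with hLo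
  have md : ∀ σ, PP G (Lo σ) = 0 := fun σ => by
    have h1 := G.h.modify σ (fun _ => {t : ℝ≥0 | (t : ℝ) ≤ a₀}) (fun _ => hD)
      (fun _ t ht => le_trans ht (hab.le.trans hbM)) (Lo σ)
      {ω | ∃ l r, Rec s A R Λ K 0 ω l r} (fun ω hω => hω.1) fun ω hω => hω.2
    rw [show G.μ _ = 0 from h R Λ K, Finset.prod_const, nonpos_iff_eq_zero, mul_eq_zero] at h1
    exact h1.resolve_left (pow_ne_zero _ hρ.ne')
  have h0 : ∀ᵐ ω ∂PP G, ∀ σ ∈ (finite_boxEdges s R).toFinset.powerset, ω ∉ Lo σ :=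
    (Finset.eventually_all _).2 fun σ _ => measure_eq_zero_iff_ae_notMem.1 (md σ)
  rw [zero_add]
  refine le_trans (measure_mono_ae ?_) hUc
  filter_upwards [h0, ae_nice hG] with ω h1 h2 ⟨l, r, hl, hr, hn⟩ hω
  obtain ⟨σ, h3, h3', h4⟩ := rob h2 hab (hL ω hω) hC hR' hl hr hn
  refine h1 σ (Finset.mem_powerset.2 fun e he => by simpa using h3 e he) ⟨h3', fun ω' h5 h6 => ?_⟩
  obtain ⟨l', r', h7, -⟩ := h4 ω' h5 h6
  exact ⟨l', r', h7⟩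

theorem mainB {G : Mdl} (hG : Law G) (s : Stair) (A : ℕ)
    (h : ∀ R Λ K : ℕ, PP G {ω | ∃ l r, Rec s A R Λ K 0 ω l r} = 0) :
    ∀ᵐ ω ∂PP G, ∀ l r, RayL s A ω l → RayR s A ω r → ¬ Quasi ω l r := by
  have h1 := ae_all_iff.2 fun Λ : ℕ => measure_eq_zero_iff_ae_notMem.1 (step_MainB hG s A h Λ)
  filter_upwards [h1] with ω h2 l r hl hr ⟨m, hm⟩
  obtain ⟨Λ, hΛ⟩ := exists_nat_ge (WW s ω l r 0 - m)
  exact h2 Λ ⟨l, r, hl, hr, fun i j => by linarith [hm i j]⟩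

end P158.Gen
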