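import Vale.Agent.P158.NiceB

open scoped NNReal ENNReal
open MeasureTheory Filter Topology

namespace P158

/-! Lowering three far edges turns a branching triple into two robust bigeodesics. -/

theorem tau_le_n1a {ω ω' : Env} (h : ∀ e, ω' e ≤ ω e) (e : Sym2 V) : tau ω' e ≤ tau ω e := by
  unfold tau
  split_ifs with he
  · exact_mod_cast h _
  · exact le_rfl

theorem T_le_n1a {ω ω' : Env} (h : ∀ e, ω' e ≤ ω e) (x y : V) : T ω' x y ≤ T ω x y :=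
  le_T ω fun p _ => (T_le ω' p).trans (List.sum_le_sum fun e _ => tau_le_n1a h e)

theorem W_le_n1a {ω ω' : Env} (h : ∀ e, ω' e ≤ ω e) (f : ℕ → V) {i j : ℕ} (hij : i ≤ j) :
    W ω' f j - W ω' f i ≤ W ω f j - W ω f i := by
  induction hij with
  | refl => simp
  | @step m _ ih =>
    rw [W_succ, W_succ]
    linarith [tau_le_n1a h s(f m, f (m + 1))]

theorem ray_n1a {ω ω' : Env} (h : ∀ e, ω' e ≤ ω e) {f : ℕ → V} (hf : Ray ω f) (n : ℕ)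
    (H : ∀ i j, n ≤ i → i ≤ j → W ω f j - W ω f i ≤ T ω' (f i) (f j)) :
    Ray ω' (fun k => f (k + n)) ∧ ∀ i, W ω' (fun k => f (k + n)) i = W ω f (i + n) - W ω f n := by
  have key : ∀ i j, n ≤ i → i ≤ j → T ω' (f i) (f j) = W ω' f j - W ω' f i ∧
      W ω' f j - W ω' f i = W ω f j - W ω f i := fun i j hi hij => by
    obtain ⟨p, hp, -⟩ := exists_seg hf.adj hij
    have h1 := T_le ω' p
    rw [hp] at h1
    have h2 := H i j hi hij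
    have h3 := W_le_n1a h f hij
    constructor <;> linarith
  refine ⟨⟨(hf.tail n).inj, (hf.tail n).adj, fun i j hij => ?_⟩, fun i => ?_⟩
  · rw [W_tail, W_tail, (key (i + n) (j + n) (by omega) (by omega)).1]
    ring
  · rw [W_tail, (key n (i + n) le_rfl (by omega)).2]

theorem lb_n1a {ω : Env} {f : ℕ → V} (hf : Ray ω f) (i j : ℕ) :
    W ω f j - W ω f i ≤ T ω (f i) (f j) ∧ W ω f i - W ω f j ≤ T ω (f i) (f j) := by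
  rcases le_total i j with h | h
  · have h1 := hf.geo i j h
    have h2 := W_mono ω f h
    constructor <;> linarith
  · have h1 := hf.geo j i h
    have h2 := W_mono ω f h
    rw [T_comm] at h1
    constructor <;> linarith

theorem low_n1a {ω ω' : Env} {f : Fin 3 → E} (hf : Function.Injective f)
    (h : ∀ e, (∀ i, e ≠ f i) → ω' e = ω e) (h0 : ∀ i, 0 ≤ (ω (f i) : ℝ) - ω' (f i)) {x y : V}
    (p : Zd.Walk x y) :
    ∃ (q : Zd.Walk x y) (z : Fin 3 → ℝ), (∀ v ∈ q.support, v ∈ p.support) ∧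
      wt ω q - (z 0 + z 1 + z 2) ≤ wt ω' p ∧ (∀ i, z i ≤ (ω (f i) : ℝ) - ω' (f i)) ∧
      ∀ i, z i = 0 ∨ (f i).1 ∈ q.edges := by
  classical
  refine ⟨p.bypass, fun i => if (f i).1 ∈ p.bypass.edges then (ω (f i) : ℝ) - ω' (f i) else 0,
    fun v hv => p.support_bypass_subset hv, ?_, fun i => ?_, fun i => ?_⟩
  · have h1 := wt_sub_wt ω ω' (Finset.univ.image f) (fun e he => h e fun i hi =>
      he (Finset.mem_image.2 ⟨i, Finset.mem_univ _, hi.symm⟩)) p.bypass p.bypass_isPath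
    rw [Finset.sum_filter, Finset.sum_image fun i _ j _ hij => hf hij, Fin.sum_univ_three] at h1
    have h2 := wt_bypass_le ω' p
    linarith
  · dsimp only
    split_ifs
    · exact le_rfl
    · exact h0 i
  · by_cases hi : (f i).1 ∈ p.bypass.edges
    · exact Or.inr hi
    · exact Or.inl (if_neg hi)

theorem rc_n1a {s : Stair} {A R K : ℕ} {η : ℝ} {ω : Env} {l r : ℕ → V} (hη : 0 ≤ η)
    (hl : Ray ω l) (hr : Ray ω r) (sl : ∀ i, X s (l i) ≤ 0) (sr : ∀ j, 0 + 1 ≤ X s (r j))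
    (cl : Cone s A R 0 0 l) (cr : Cone s A R 0 0 r) (bl : l 0 ∈ Box s 0 0 R)
    (br : r 0 ∈ Box s 0 0 R) (hT : TS ω (Box s 0 0 R) (l 0) (r 0) = T ω (l 0) (r 0))
    (hB : ∀ i j, W ω l i + W ω r j ≤ T ω (l i) (r 0) + T ω (l 0) (r j))
    (hrob : ∀ i j (p : Zd.Walk (l i) (r j)), (l 0 ∉ p.support ∨ r 0 ∉ p.support) →
      W ω l i + T ω (l 0) (r 0) + W ω r j + η ≤ wt ω p)
    (loc : ∀ u ∈ Box s 0 0 R, ∀ u' ∈ Box s 0 0 R, ∀ y' : ℤ, (K : ℤ) ≤ |y' - 0| →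
      T ω u u' + η ≤ T ω u (pt s 0 y') + T ω (pt s 0 y') u') :
    RC s A R K η 0 0 ω l r ∧ ∀ i j, T ω (l i) (r j) = W ω l i + T ω (l 0) (r 0) + W ω r j := by
  have add : ∀ i j, T ω (l i) (r j) = W ω l i + T ω (l 0) (r 0) + W ω r j := fun i j => by
    have h1 := hl.geo 0 i (Nat.zero_le _)
    have h2 := hr.geo 0 j (Nat.zero_le _)
    rw [W_zero] at h1 h2
    rw [T_comm] at h1
    refine le_antisymm ?_ (le_T ω fun p _ => ?_)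
    · have h3 := T_tri ω (l i) (l 0) (r j)
      have h4 := T_tri ω (l 0) (r 0) (r j)
      linarith
    · by_cases h3 : l 0 ∈ p.support
      · by_cases h4 : r 0 ∈ p.support
        · have h6 := hB i j
          have h7 := T_comm ω (l 0) (r 0)
          rcases T_add_le_of_mem₂ ω p h3 h4 with h5 | h5 <;> linarith
        · linarith [hrob i j p (Or.inr h4)]
      · linarith [hrob i j p (Or.inl h3)]
  exact ⟨⟨hl, hr, sl, sr, cl, cr, bl, br, fun i j => by rw [hT, add],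
    fun i j p hp => by rw [add]; exact hrob i j p hp, loc⟩, add⟩

theorem box_n1a (s : Stair) {S : Set V} (hS : S.Finite) (R₀ : ℕ) :
    ∃ R : ℕ, 1 ≤ R ∧ R₀ ≤ R ∧ S ⊆ Box s 0 0 R := by
  obtain ⟨M, hM⟩ := (hS.image fun v => (X s v).natAbs + v.2.natAbs).bddAbove
  refine ⟨M + R₀ + 1, by omega, by omega, fun v hv => ?_⟩
  have h1 : (X s v).natAbs + v.2.natAbs ≤ M := hM ⟨v, hv, rfl⟩
  simp only [Box, Set.mem_setOf_eq, sub_zero, abs_le]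
  omega

theorem TS_n1a {s : Stair} {R : ℕ} (hR : 1 ≤ R) {ω ω' : Env} {B c : ℝ} {x y : V}
    (hB : 0 ≤ B) (h1 : ∀ u v, T ω' u v ≤ T ω u v) (h2 : ∀ u v, T ω u v - B ≤ T ω' u v)
    (hc : T ω x y + 1 + B ≤ c) (hS : ∀ v, T ω x v ≤ c → v ∈ Box s 0 0 R) :
    x ∈ Box s 0 0 R ∧ y ∈ Box s 0 0 R ∧ TS ω' (Box s 0 0 R) x y = T ω' x y := by
  have h0 := T_nonneg ω x y
  have hx : x ∈ Box s 0 0 R := hS x (by rw [T_self]; linarith)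
  have hy : y ∈ Box s 0 0 R := hS y (by linarith)
  refine ⟨hx, hy, le_antisymm (le_of_forall_pos_le_add fun ε hε => ?_)
    (T_le_TS ω' (conn_Box s hR hx hy))⟩
  obtain ⟨p, -, hp⟩ := exists_lt_T ω' x y (lt_min hε one_pos)
  have h3 := min_le_left ε 1
  have h4 := min_le_right ε 1
  have h5 : In (Box s 0 0 R) p := fun v hv => hS v (by
    have h6 := T_add_le_of_mem ω' p hv
    have h7 := T_nonneg ω' v y
    have h8 := h2 x v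
    have h9 := h1 x y
    linarith)
  linarith [TS_le ω' p h5]

theorem loc_n1a (s : Stair) (R : ℕ) {ω : Env} (hN : Nice ω) (B : ℝ) :
    ∃ K : ℕ, ∀ u ∈ Box s 0 0 R, ∀ u' ∈ Box s 0 0 R, ∀ y' : ℤ, (K : ℤ) ≤ |y' - 0| →
      T ω u u' + B ≤ T ω u (pt s 0 y') := by
  have hb := finite_Box s 0 0 R
  obtain ⟨C, hC⟩ := ((hb.prod hb).image fun w : V × V => T ω w.1 w.2).bddAbove
  obtain ⟨M, hM⟩ := ((hN.finite_near hb (C + B)).image fun v => v.2.natAbs).bddAbove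
  refine ⟨M + 1, fun u hu u' hu' y' hy => ?_⟩
  have h1 : T ω u u' ≤ C := hC ⟨(u, u'), ⟨hu, hu'⟩, rfl⟩
  by_contra h2
  have h3 : (pt s 0 y').2.natAbs ≤ M := hM ⟨pt s 0 y', ⟨u, hu, by linarith⟩, rfl⟩
  rw [pt_snd] at h3
  rw [sub_zero, le_abs] at hy
  omega

theorem inf_n1a {ω : Env} {l r : ℕ → V} (hl : Ray ω l) (hr : Ray ω r) (q : Quasi ω l r) :
    ∃ m : ℝ, (∀ j k, W ω l j + W ω r k + m ≤ T ω (l j) (r k)) ∧ ∀ ε : ℝ, 0 < ε → ∃ J K : ℕ,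
      ∀ j k, J ≤ j → K ≤ k → T ω (l j) (r k) ≤ W ω l j + W ω r k + m + ε := by
  obtain ⟨m, hm⟩ := q
  have hb : BddBelow (Set.range fun w : ℕ × ℕ => T ω (l w.1) (r w.2) - W ω l w.1 - W ω r w.2) :=
    ⟨m, by rintro _ ⟨w, rfl⟩; have := hm w.1 w.2; simp only; linarith⟩
  refine ⟨⨅ w : ℕ × ℕ, (T ω (l w.1) (r w.2) - W ω l w.1 - W ω r w.2), fun j k => ?_,
    fun ε hε => ?_⟩
  · have := ciInf_le hb (j, k)
    simp only at this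
    linarith
  · obtain ⟨w, hw⟩ := exists_lt_of_ciInf_lt (lt_add_of_pos_right
      (⨅ w : ℕ × ℕ, (T ω (l w.1) (r w.2) - W ω l w.1 - W ω r w.2)) hε)
    refine ⟨w.1, w.2, fun j k hj hk => ?_⟩
    have h1 := hl.geo _ _ hj
    have h2 := hr.geo _ _ hk
    rw [T_comm] at h1
    have h3 := T_tri ω (l j) (l w.1) (r k)
    have h4 := T_tri ω (l w.1) (r w.2) (r k)
    linarith

theorem sep_n1a {ω : Env} {r₁ r₂ : ℕ → V} (h₁ : Ray ω r₁) (h₂ : Ray ω r₂) (hS : Sep ω r₁ r₂) :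
    ∃ (a₁ a₂ : ℝ) (j₁ j₂ : ℕ), 0 < a₁ + a₂ ∧
      (∀ j k, j₁ ≤ j → W ω r₂ k - W ω r₁ j + a₁ ≤ T ω (r₁ j) (r₂ k)) ∧
      ∀ j k, j₂ ≤ j → W ω r₁ k - W ω r₂ j + a₂ ≤ T ω (r₂ j) (r₁ k) := by
  obtain ⟨δ, hδ, j₁, j₂, h⟩ := hS
  have hb : BddBelow (Set.range fun k => T ω (r₁ j₁) (r₂ k) - W ω r₂ k + W ω r₁ j₁) :=
    ⟨δ - (T ω (r₂ j₂) (r₁ 0) - W ω r₁ 0 + W ω r₂ j₂), by
      rintro _ ⟨k, rfl⟩; have := h k 0; simp only; linarith⟩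
  refine ⟨⨅ k, (T ω (r₁ j₁) (r₂ k) - W ω r₂ k + W ω r₁ j₁),
    δ - ⨅ k, (T ω (r₁ j₁) (r₂ k) - W ω r₂ k + W ω r₁ j₁), j₁, j₂, by linarith, fun j k hj => ?_,
    fun j k hj => ?_⟩
  · have h1 := ciInf_le hb k
    have h2 := h₁.geo _ _ hj
    have h3 := T_tri ω (r₁ j₁) (r₁ j) (r₂ k)
    linarith
  · have h1 : δ - (T ω (r₂ j₂) (r₁ k) - W ω r₁ k + W ω r₂ j₂) ≤
        ⨅ k, (T ω (r₁ j₁) (r₂ k) - W ω r₂ k + W ω r₁ j₁) :=
      le_ciInf fun k' => by linarith [h k' k]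
    have h2 := h₂.geo _ _ hj
    have h3 := T_tri ω (r₂ j₂) (r₂ j) (r₁ k)
    linarith

theorem core_n1a {s : Stair} {A : ℕ} {ω : Env} {l r₁ r₂ : ℕ → V} (hN : Nice ω)
    (hl : RayL s A ω l) (h₁ : RayR s A ω r₁) (h₂ : RayR s A ω r₂) {m₁ m₂ a₁ a₂ : ℝ} {j₁ j₂ : ℕ}
    (hm₁ : ∀ j k, W ω l j + W ω r₁ k + m₁ ≤ T ω (l j) (r₁ k))
    (hm₂ : ∀ j k, W ω l j + W ω r₂ k + m₂ ≤ T ω (l j) (r₂ k))
    (hu₁ : ∀ ε : ℝ, 0 < ε → ∃ J K : ℕ,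
      ∀ j k, J ≤ j → K ≤ k → T ω (l j) (r₁ k) ≤ W ω l j + W ω r₁ k + m₁ + ε)
    (hu₂ : ∀ ε : ℝ, 0 < ε → ∃ J K : ℕ,
      ∀ j k, J ≤ j → K ≤ k → T ω (l j) (r₂ k) ≤ W ω l j + W ω r₂ k + m₂ + ε)
    (hδ : 0 < a₁ + a₂)
    (ha₁ : ∀ j k, j₁ ≤ j → W ω r₂ k - W ω r₁ j + a₁ ≤ T ω (r₁ j) (r₂ k))
    (ha₂ : ∀ j k, j₂ ≤ j → W ω r₁ k - W ω r₂ j + a₂ ≤ T ω (r₂ j) (r₁ k))
    (hw : m₁ + (a₁ + a₂) / 2 ≤ m₂ + a₂)
    (b : ℝ) (α β : Fin 3 → ℝ) (D : Fin 3 → Set ℝ) (hα : ∀ i, 0 < α i) (hαβ : ∀ i, α i ≤ β i)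
    (hg : β 0 + β 1 + β 2 < (a₁ + a₂) / 8) (hb : β 0 + β 1 + β 2 < b) (h12 : β 1 < α 2)
    (hD : ∀ i, D i ⊆ Set.Ici b)
    (f0 : ∃ᶠ k in atTop, tau ω s(l k, l (k + 1)) ∈ D 0)
    (f1 : ∃ᶠ k in atTop, tau ω s(r₁ k, r₁ (k + 1)) ∈ D 1)
    (f2 : ∃ᶠ k in atTop, tau ω s(r₂ k, r₂ (k + 1)) ∈ D 2) :
    ∃ (f : Fin 3 → E) (R K n : ℕ), Function.Injective f ∧ (∀ i, (ω (f i) : ℝ) ∈ D i) ∧
      ∀ ω' : Env, (∀ e, (∀ i, e ≠ f i) → ω' e = ω e) →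
        (∀ i, α i ≤ (ω (f i) : ℝ) - ω' (f i) ∧ (ω (f i) : ℝ) - ω' (f i) ≤ β i) →
        ω' ∈ NEv s A R K (1 / (n + 1)) 0 0 := by
  obtain ⟨ε, hε, e0, e1, e2, e3, e4⟩ : ∃ ε : ℝ, 0 < ε ∧ 4 * ε ≤ α 0 ∧ 4 * ε ≤ α 1 ∧
      4 * ε ≤ α 2 ∧ 4 * ε ≤ α 2 - β 1 ∧ 8 * ε ≤ a₁ + a₂ := by
    have t0 := hα 0
    have t1 := hα 1
    have t2 := hα 2
    refine ⟨min (min (α 0) (α 1)) (min (α 2) (min (α 2 - β 1) (a₁ + a₂))) / 8, ?_, ?_⟩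
    · have : 0 < α 2 - β 1 := by linarith
      positivity
    · have u1 := min_le_left (min (α 0) (α 1)) (min (α 2) (min (α 2 - β 1) (a₁ + a₂)))
      have u2 := min_le_right (min (α 0) (α 1)) (min (α 2) (min (α 2 - β 1) (a₁ + a₂)))
      have u3 := min_le_left (α 0) (α 1)
      have u4 := min_le_right (α 0) (α 1)
      have u5 := min_le_left (α 2) (min (α 2 - β 1) (a₁ + a₂))
      have u6 := min_le_right (α 2) (min (α 2 - β 1) (a₁ + a₂))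
      have u7 := min_le_left (α 2 - β 1) (a₁ + a₂)
      have u8 := min_le_right (α 2 - β 1) (a₁ + a₂)
      refine ⟨?_, ?_, ?_, ?_, ?_⟩ <;> linarith
  obtain ⟨n, hn⟩ := exists_nat_one_div_lt hε
  have hn0 : (0 : ℝ) ≤ 1 / (n + 1) := by positivity
  obtain ⟨J₁, K₁, hu₁⟩ := hu₁ ε hε
  obtain ⟨J₂, K₂, hu₂⟩ := hu₂ ε hε
  obtain ⟨k₂, d2, ⟨c1, c2⟩, c3⟩ := (f2.and_eventually (((eventually_ge_atTop K₂).and
    (eventually_ge_atTop j₂)).and ((hN.W_tendsto h₂.ray).eventually_ge_atTop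
      (β 0 + β 1 + β 2 - m₂)))).exists
  obtain ⟨k₁, d1, ⟨c4, c5⟩, c6⟩ := (f1.and_eventually (((eventually_ge_atTop K₁).and
    (eventually_ge_atTop j₁)).and ((hN.W_tendsto h₁.ray).eventually_ge_atTop
      (W ω r₂ (k₂ + 1) + |m₁| + |m₂| + |a₂| + 2 * (β 0 + β 1 + β 2) + ε)))).exists
  obtain ⟨j₀, d0, c7, c8⟩ := (f0.and_eventually ((eventually_ge_atTop J₁).and
    (eventually_ge_atTop J₂))).exists
  have b0 : b ≤ tau ω s(l j₀, l (j₀ + 1)) := hD 0 d0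
  have b1 : b ≤ tau ω s(r₁ k₁, r₁ (k₁ + 1)) := hD 1 d1
  have b2 : b ≤ tau ω s(r₂ k₂, r₂ (k₂ + 1)) := hD 2 d2
  have w0 := W_succ ω l j₀
  have w1 := W_succ ω r₁ k₁
  have w2 := W_succ ω r₂ k₂
  have p0 : ∀ f i, 0 ≤ W ω f i := fun f i => W_zero ω f ▸ W_mono ω f (Nat.zero_le i)
  have n1 := le_abs_self m₁
  have n1' := neg_abs_le m₁
  have n2 := le_abs_self m₂
  have n2' := neg_abs_le m₂
  have n3 := le_abs_self a₂
  have n3' := neg_abs_le a₂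
  have q0 := hαβ 0
  have q1 := hαβ 1
  have q2 := hαβ 2
  have p1 := p0 l j₀
  have p2 := p0 r₂ k₂
  have hm₁' : ∀ j k, W ω l j + W ω r₁ k + m₁ ≤ T ω (r₁ k) (l j) := fun j k =>
    T_comm ω (l j) (r₁ k) ▸ hm₁ j k
  have hm₂' : ∀ j k, W ω l j + W ω r₂ k + m₂ ≤ T ω (r₂ k) (l j) := fun j k =>
    T_comm ω (l j) (r₂ k) ▸ hm₂ j k
  have ha₁' : ∀ j k, j₁ ≤ j → W ω r₂ k - W ω r₁ j + a₁ ≤ T ω (r₂ k) (r₁ j) := fun j k hj =>
    T_comm ω (r₁ j) (r₂ k) ▸ ha₁ j k hj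
  have ha₂' : ∀ j k, j₂ ≤ j → W ω r₁ k - W ω r₂ j + a₂ ≤ T ω (r₁ k) (r₂ j) := fun j k hj =>
    T_comm ω (r₂ j) (r₁ k) ▸ ha₂ j k hj
  have ne1 : ∀ i j, l i ≠ r₁ j := fun i j h => by
    have t1 := hl.side i
    have t2 := h₁.side j
    rw [h] at t1
    omega
  have ne2 : ∀ i j, l i ≠ r₂ j := fun i j h => by
    have t1 := hl.side i
    have t2 := h₂.side j
    rw [h] at t1
    omega
  have ne3 : ∀ j, k₂ ≤ j → r₁ k₁ ≠ r₂ j := fun j hj h => by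
    have t1 := ha₁ k₁ j c5
    have t2 := ha₂' j k₁ (c2.trans hj)
    rw [h, T_self] at t1 t2
    linarith
  let f : Fin 3 → E := ![⟨s(l j₀, l (j₀ + 1)), hl.ray.adj j₀⟩,
    ⟨s(r₁ k₁, r₁ (k₁ + 1)), h₁.ray.adj k₁⟩, ⟨s(r₂ k₂, r₂ (k₂ + 1)), h₂.ray.adj k₂⟩]
  have g0 : (f 0).1 = s(l j₀, l (j₀ + 1)) := rfl
  have g1 : (f 1).1 = s(r₁ k₁, r₁ (k₁ + 1)) := rfl
  have g2 : (f 2).1 = s(r₂ k₂, r₂ (k₂ + 1)) := rfl
  have i01 : f 0 ≠ f 1 := fun h => by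
    have t := congrArg Subtype.val h
    rw [g0, g1, Sym2.eq_iff] at t
    rcases t with t | t <;> exact ne1 _ _ t.1
  have i02 : f 0 ≠ f 2 := fun h => by
    have t := congrArg Subtype.val h
    rw [g0, g2, Sym2.eq_iff] at t
    rcases t with t | t <;> exact ne2 _ _ t.1
  have i12 : f 1 ≠ f 2 := fun h => by
    have t := congrArg Subtype.val h
    rw [g1, g2, Sym2.eq_iff] at t
    rcases t with t | t
    · exact ne3 _ le_rfl t.1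
    · exact ne3 _ (Nat.le_succ _) t.1
  have hf : Function.Injective f := fun i j h => by
    fin_cases i <;> fin_cases j <;>
      first | rfl | exact (i01 h).elim | exact (i02 h).elim | exact (i12 h).elim |
        exact (i01 h.symm).elim | exact (i02 h.symm).elim | exact (i12 h.symm).elim
  obtain ⟨Rl, hRl⟩ := hl.cone
  obtain ⟨R1, hR1⟩ := h₁.cone
  obtain ⟨R2, hR2⟩ := h₂.cone
  obtain ⟨R, hR, hR0, hS⟩ := box_n1a s (hN.fin (l (j₀ + 1)) (T ω (l (j₀ + 1)) (r₁ (k₁ + 1)) +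
    T ω (l (j₀ + 1)) (r₂ (k₂ + 1)) + 1 + (β 0 + β 1 + β 2))) (Rl + R1 + R2)
  have cone : ∀ (g : ℕ → V) (R' m : ℕ), R' ≤ R → Cone s A R' 0 0 g →
      Cone s A R 0 0 fun k => g (k + m) := fun g R' m h1 h2 i => by
    have t1 := h2 (i + m)
    have t2 : (R' : ℤ) ≤ R := by exact_mod_cast h1
    linarith
  obtain ⟨K, hK⟩ := loc_n1a s R hN (2 * (β 0 + β 1 + β 2) + ε)
  refine ⟨f, R, K, n, hf, fun i => ?_, fun ω' hω hx => ?_⟩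
  · rw [← tau_edge]
    fin_cases i
    exacts [d0, d1, d2]
  have hx0 : ∀ i, 0 ≤ (ω (f i) : ℝ) - ω' (f i) := fun i => (hα i).le.trans (hx i).1
  have hle : ∀ e, ω' e ≤ ω e := fun e => by
    by_cases h : ∀ i, e ≠ f i
    · exact (hω e h).le
    · push Not at h
      obtain ⟨i, rfl⟩ := h
      have := hx0 i
      exact_mod_cast sub_nonneg.1 this
  obtain ⟨x0, y0⟩ := hx 0
  obtain ⟨x1, y1⟩ := hx 1
  obtain ⟨x2, y2⟩ := hx 2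
  have v0 : tau ω s(l j₀, l (j₀ + 1)) - tau ω' s(l j₀, l (j₀ + 1)) =
      (ω (f 0) : ℝ) - ω' (f 0) := by rw [← tau_edge, ← tau_edge]; rfl
  have v1 : tau ω s(r₁ k₁, r₁ (k₁ + 1)) - tau ω' s(r₁ k₁, r₁ (k₁ + 1)) =
      (ω (f 1) : ℝ) - ω' (f 1) := by rw [← tau_edge, ← tau_edge]; rfl
  have v2 : tau ω s(r₂ k₂, r₂ (k₂ + 1)) - tau ω' s(r₂ k₂, r₂ (k₂ + 1)) =
      (ω (f 2) : ℝ) - ω' (f 2) := by rw [← tau_edge, ← tau_edge]; rfl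
  have low : ∀ {x y : V} (p : Zd.Walk x y), ∃ (q : Zd.Walk x y) (z₀ z₁ z₂ : ℝ),
      (∀ v ∈ q.support, v ∈ p.support) ∧ wt ω q - (z₀ + z₁ + z₂) ≤ wt ω' p ∧
      T ω x y ≤ wt ω q ∧ z₀ ≤ (ω (f 0) : ℝ) - ω' (f 0) ∧ z₁ ≤ (ω (f 1) : ℝ) - ω' (f 1) ∧
      z₂ ≤ (ω (f 2) : ℝ) - ω' (f 2) ∧ (z₀ = 0 ∨ l j₀ ∈ q.support ∧ l (j₀ + 1) ∈ q.support) ∧
      (z₁ = 0 ∨ r₁ k₁ ∈ q.support) ∧ (z₂ = 0 ∨ r₂ k₂ ∈ q.support ∧ r₂ (k₂ + 1) ∈ q.support) ∧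
      (z₁ = 0 ∨ r₁ (k₁ + 1) ∈ q.support) := fun p => by
    obtain ⟨q, z, t1, t2, t3, t4⟩ := low_n1a hf hω hx0 p
    exact ⟨q, z 0, z 1, z 2, t1, t2, T_le ω q, t3 0, t3 1, t3 2,
      (t4 0).imp_right fun h => ⟨q.fst_mem_support_of_mem_edges h,
        q.snd_mem_support_of_mem_edges h⟩,
      (t4 1).imp_right fun h => q.fst_mem_support_of_mem_edges h,
      (t4 2).imp_right fun h => ⟨q.fst_mem_support_of_mem_edges h,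
        q.snd_mem_support_of_mem_edges h⟩,
      (t4 1).imp_right fun h => q.snd_mem_support_of_mem_edges h⟩
  generalize (ω (f 0) : ℝ) - ω' (f 0) = X0 at *
  generalize (ω (f 1) : ℝ) - ω' (f 1) = X1 at *
  generalize (ω (f 2) : ℝ) - ω' (f 2) = X2 at *
  have TB : ∀ u v, T ω u v - (β 0 + β 1 + β 2) ≤ T ω' u v := fun u v => le_T ω' fun p _ => by
    obtain ⟨q, z₀, z₁, z₂, -, t2, t3, t4, t5, t6, -⟩ := low p
    linarith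
  have TU := T_le_n1a hle
  obtain ⟨rl, Wl⟩ := ray_n1a hle hl.ray (j₀ + 1) fun i j hi hij => le_T ω' fun p _ => by
    obtain ⟨q, z₀, z₁, z₂, -, t2, t3, t4, t5, t6, s0, s1, s2, -⟩ := low p
    have o1 := W_mono ω l hi
    rcases s0 with s0 | ⟨s0, -⟩
    · rcases s1 with s1 | s1
      · rcases s2 with s2 | ⟨s2, -⟩
        · linarith [(lb_n1a hl.ray i j).1]
        · linarith [T_add_le_of_mem ω q s2, hm₂ i k₂, hm₂' j k₂]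
      · linarith [T_add_le_of_mem ω q s1, hm₁ i k₁, hm₁' j k₁]
    · linarith [T_add_le_of_mem ω q s0, (lb_n1a hl.ray i j₀).2, (lb_n1a hl.ray j₀ j).1]
  obtain ⟨rr1, W1⟩ := ray_n1a hle h₁.ray (k₁ + 1) fun i j hi hij => le_T ω' fun p _ => by
    obtain ⟨q, z₀, z₁, z₂, -, t2, t3, t4, t5, t6, s0, s1, s2, -⟩ := low p
    have o1 := W_mono ω r₁ hi
    rcases s0 with s0 | ⟨s0, -⟩
    · rcases s1 with s1 | s1
      · rcases s2 with s2 | ⟨s2, -⟩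
        · linarith [(lb_n1a h₁.ray i j).1]
        · linarith [T_add_le_of_mem ω q s2, ha₂' k₂ i c2, ha₂ k₂ j c2]
      · linarith [T_add_le_of_mem ω q s1, (lb_n1a h₁.ray i k₁).2, (lb_n1a h₁.ray k₁ j).1]
    · linarith [T_add_le_of_mem ω q s0, hm₁' j₀ i, hm₁ j₀ j]
  obtain ⟨rr2, W2⟩ := ray_n1a hle h₂.ray (k₂ + 1) fun i j hi hij => le_T ω' fun p _ => by
    obtain ⟨q, z₀, z₁, z₂, -, t2, t3, t4, t5, t6, s0, s1, s2, -⟩ := low p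
    have o1 := W_mono ω r₂ hi
    rcases s0 with s0 | ⟨s0, -⟩
    · rcases s1 with s1 | s1
      · rcases s2 with s2 | ⟨s2, -⟩
        · linarith [(lb_n1a h₂.ray i j).1]
        · linarith [T_add_le_of_mem ω q s2, (lb_n1a h₂.ray i k₂).2, (lb_n1a h₂.ray k₂ j).1]
      · linarith [T_add_le_of_mem ω q s1, ha₂ i k₁ (by omega), ha₁ k₁ j c5]
    · linarith [T_add_le_of_mem ω q s0, hm₂' j₀ i, hm₂ j₀ j]
  have U1 : T ω' (l (j₀ + 1)) (r₁ (k₁ + 1)) ≤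
      W ω l (j₀ + 1) + W ω r₁ (k₁ + 1) + m₁ + ε - X0 - X1 := by
    have t1 := T_adj ω' (hl.ray.adj j₀)
    rw [T_comm] at t1
    linarith [T_tri ω' (l (j₀ + 1)) (l j₀) (r₁ (k₁ + 1)), T_tri ω' (l j₀) (r₁ k₁) (r₁ (k₁ + 1)),
      T_adj ω' (h₁.ray.adj k₁), TU (l j₀) (r₁ k₁), hu₁ j₀ k₁ c7 c4]
  have U2 : T ω' (l (j₀ + 1)) (r₂ (k₂ + 1)) ≤
      W ω l (j₀ + 1) + W ω r₂ (k₂ + 1) + m₂ + ε - X0 - X2 := by
    have t1 := T_adj ω' (hl.ray.adj j₀)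
    rw [T_comm] at t1
    linarith [T_tri ω' (l (j₀ + 1)) (l j₀) (r₂ (k₂ + 1)), T_tri ω' (l j₀) (r₂ k₂) (r₂ (k₂ + 1)),
      T_adj ω' (h₂.ray.adj k₂), TU (l j₀) (r₂ k₂), hu₂ j₀ k₂ c8 c1]
  have hB : 0 ≤ β 0 + β 1 + β 2 := by linarith
  obtain ⟨bl, br1, ts1⟩ := TS_n1a hR hB TU TB (y := r₁ (k₁ + 1))
    (by linarith [T_nonneg ω (l (j₀ + 1)) (r₂ (k₂ + 1))]) hS
  obtain ⟨-, br2, ts2⟩ := TS_n1a hR hB TU TB (y := r₂ (k₂ + 1))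
    (by linarith [T_nonneg ω (l (j₀ + 1)) (r₁ (k₁ + 1))]) hS
  have loc : ∀ u ∈ Box s 0 0 R, ∀ u' ∈ Box s 0 0 R, ∀ y' : ℤ, (K : ℤ) ≤ |y' - 0| →
      T ω' u u' + 1 / (n + 1) ≤ T ω' u (pt s 0 y') + T ω' (pt s 0 y') u' :=
    fun u hu u' hu' y' hy => by
      linarith [hK u hu u' hu' y' hy, TU u u', TB u (pt s 0 y'), T_nonneg ω' (pt s 0 y') u']
  have z1 : 0 + (j₀ + 1) = j₀ + 1 := Nat.zero_add _
  have z2 : 0 + (k₁ + 1) = k₁ + 1 := Nat.zero_add _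
  have z3 : 0 + (k₂ + 1) = k₂ + 1 := Nat.zero_add _
  obtain ⟨C1, add1⟩ := rc_n1a (s := s) (A := A) (R := R) (K := K) hn0 rl rr1
    (fun i => hl.side _) (fun i => by simpa using h₁.side _) (cone l Rl _ (by omega) hRl)
    (cone r₁ R1 _ (by omega) hR1) (by simpa only [z1] using bl) (by simpa only [z2] using br1)
    (by simpa only [z1, z2] using ts1) (fun i j => by
      simp only [z1, z2, Wl, W1]
      linarith [TB (l (i + (j₀ + 1))) (r₁ (k₁ + 1)), TB (l (j₀ + 1)) (r₁ (j + (k₁ + 1))),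
        hm₁ (i + (j₀ + 1)) (k₁ + 1), hm₁ (j₀ + 1) (j + (k₁ + 1))])
    (fun i j p hp => by
      simp only [z1, z2, Wl, W1] at hp ⊢
      obtain ⟨q, z₀, z₁, z₂, t1, t2, t3, t4, t5, t6, s0, -, s2, s1⟩ := low p
      have o1 := hm₁ (i + (j₀ + 1)) (j + (k₁ + 1))
      rcases s2 with s2 | ⟨s2, -⟩
      · rcases hp with hp | hp
        · have s0 := s0.resolve_right fun h => hp (t1 _ h.2)
          linarith
        · have s1 := s1.resolve_right fun h => hp (t1 _ h)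
          linarith
      · linarith [T_add_le_of_mem ω q s2, hm₂ (i + (j₀ + 1)) k₂, ha₂ k₂ (j + (k₁ + 1)) c2]) loc
  obtain ⟨C2, add2⟩ := rc_n1a (s := s) (A := A) (R := R) (K := K) hn0 rl rr2
    (fun i => hl.side _) (fun i => by simpa using h₂.side _) (cone l Rl _ (by omega) hRl)
    (cone r₂ R2 _ (by omega) hR2) (by simpa only [z1] using bl) (by simpa only [z3] using br2)
    (by simpa only [z1, z3] using ts2) (fun i j => by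
      simp only [z1, z3, Wl, W2]
      linarith [TB (l (i + (j₀ + 1))) (r₂ (k₂ + 1)), TB (l (j₀ + 1)) (r₂ (j + (k₂ + 1))),
        hm₂ (i + (j₀ + 1)) (k₂ + 1), hm₂ (j₀ + 1) (j + (k₂ + 1))])
    (fun i j p hp => by
      simp only [z1, z3, Wl, W2] at hp ⊢
      obtain ⟨q, z₀, z₁, z₂, t1, t2, t3, t4, t5, t6, s0, s1, s2, -⟩ := low p
      have o1 := hm₂ (i + (j₀ + 1)) (j + (k₂ + 1))
      rcases s2 with s2 | ⟨s2, s2'⟩
      · linarith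
      · rcases s1 with s1 | s1
        · have s0 := s0.resolve_right fun h => hp.elim (fun h' => h' (t1 _ h.2))
            fun h' => h' (t1 _ s2')
          linarith
        · rcases T_add_le_of_mem₂ ω q s1 s2 with o2 | o2
          · linarith [hm₁ (i + (j₀ + 1)) k₁, ha₂' k₂ k₁ c2,
              (lb_n1a h₂.ray k₂ (j + (k₂ + 1))).1]
          · linarith [hm₂ (i + (j₀ + 1)) k₂, ha₂ k₂ k₁ c2, ha₁ k₁ (j + (k₂ + 1)) c5]) loc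
  refine ⟨_, _, _, C1, C2, fun i j => ?_, fun i j => ?_⟩
  · rw [add1]
    simp only [z1, z2, z3, Wl, W1]
    linarith [TB (l (i + (j₀ + 1))) (r₂ (k₂ + 1)), TB (r₂ (k₂ + 1)) (r₁ (j + (k₁ + 1))),
      hm₂ (i + (j₀ + 1)) (k₂ + 1), ha₂ (k₂ + 1) (j + (k₁ + 1)) (by omega)]
  · rw [add2]
    simp only [z1, z2, z3, Wl, W2]
    have key : ∀ (p : Zd.Walk (l (i + (j₀ + 1))) (r₁ (k₁ + 1)))
        (p' : Zd.Walk (r₁ (k₁ + 1)) (r₂ (j + (k₂ + 1)))),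
        W ω l (i + (j₀ + 1)) + W ω r₂ (j + (k₂ + 1)) + m₂ + 2 * ε - X0 - X2 ≤
          wt ω' p + wt ω' p' := fun p p' => by
      obtain ⟨q, z₀, z₁, z₂, -, t2, t3, t4, t5, t6, -, -, s2, -⟩ := low p
      obtain ⟨q', z₀', z₁', z₂', -, t2', t3', t4', t5', t6', s0', s1', s2', -⟩ := low p'
      have o1 := hm₁ (i + (j₀ + 1)) (k₁ + 1)
      have o2 := hm₂ (i + (j₀ + 1)) (j + (k₂ + 1))
      rcases s0' with s0' | ⟨s0', -⟩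
      · rcases s1' with s1' | s1'
        · rcases s2' with s2' | ⟨s2', -⟩
          · rcases s2 with s2 | ⟨s2, -⟩
            · linarith [T_tri ω (l (i + (j₀ + 1))) (r₁ (k₁ + 1)) (r₂ (j + (k₂ + 1)))]
            · linarith [T_add_le_of_mem ω q s2, hm₂ (i + (j₀ + 1)) k₂, ha₂ k₂ (k₁ + 1) c2,
                ha₁ (k₁ + 1) (j + (k₂ + 1)) (by omega)]
          · linarith [T_add_le_of_mem ω q' s2', ha₂' k₂ (k₁ + 1) c2,
              (lb_n1a h₂.ray k₂ (j + (k₂ + 1))).1]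
        · linarith [T_add_le_of_mem ω q' s1', (lb_n1a h₁.ray (k₁ + 1) k₁).2,
            hu₁ (i + (j₀ + 1)) k₁ (by omega) c4,
            T_tri ω (l (i + (j₀ + 1))) (r₁ k₁) (r₂ (j + (k₂ + 1)))]
      · linarith [T_add_le_of_mem ω q' s0', hm₁' j₀ (k₁ + 1), hm₂ j₀ (j + (k₂ + 1))]
    have k2 : W ω l (i + (j₀ + 1)) + W ω r₂ (j + (k₂ + 1)) + m₂ + 2 * ε - X0 - X2 -
        T ω' (l (i + (j₀ + 1))) (r₁ (k₁ + 1)) ≤ T ω' (r₁ (k₁ + 1)) (r₂ (j + (k₂ + 1))) :=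
      le_T ω' fun p' _ => by
        have k3 : W ω l (i + (j₀ + 1)) + W ω r₂ (j + (k₂ + 1)) + m₂ + 2 * ε - X0 - X2 -
            wt ω' p' ≤ T ω' (l (i + (j₀ + 1))) (r₁ (k₁ + 1)) :=
          le_T ω' fun p _ => by linarith [key p p']
        linarith
    linarith

theorem n1a {s : Stair} {A : ℕ} {ω : Env} {l r₁ r₂ : ℕ → V} (hN : Nice ω) (hl : RayL s A ω l)
    (h₁ : RayR s A ω r₁) (h₂ : RayR s A ω r₂) (q₁ : Quasi ω l r₁) (q₂ : Quasi ω l r₂)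
    (hS : Sep ω r₁ r₂) :
    ∃ g : ℝ, 0 < g ∧ ∀ (b : ℝ) (α β : Fin 3 → ℝ) (D : Fin 3 → Set ℝ), (∀ i, 0 < α i) →
      (∀ i, α i ≤ β i) → β 0 + β 1 + β 2 < g → β 0 + β 1 + β 2 < b → β 1 < α 2 →
      (∀ i, D i ⊆ Set.Ici b) →
      (∀ i, (∃ᶠ k in atTop, tau ω s(l k, l (k + 1)) ∈ D i) ∧
        (∃ᶠ k in atTop, tau ω s(r₁ k, r₁ (k + 1)) ∈ D i) ∧
        (∃ᶠ k in atTop, tau ω s(r₂ k, r₂ (k + 1)) ∈ D i)) →
      ∃ (f : Fin 3 → E) (R K n : ℕ), Function.Injective f ∧ (∀ i, (ω (f i) : ℝ) ∈ D i) ∧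
        ∀ ω' : Env, (∀ e, (∀ i, e ≠ f i) → ω' e = ω e) →
          (∀ i, α i ≤ (ω (f i) : ℝ) - ω' (f i) ∧ (ω (f i) : ℝ) - ω' (f i) ≤ β i) →
          ω' ∈ NEv s A R K (1 / (n + 1)) 0 0 := by
  obtain ⟨m₁, hm₁, hu₁⟩ := inf_n1a hl.ray h₁.ray q₁
  obtain ⟨m₂, hm₂, hu₂⟩ := inf_n1a hl.ray h₂.ray q₂
  obtain ⟨a₁, a₂, j₁, j₂, hδ, ha₁, ha₂⟩ := sep_n1a h₁.ray h₂.ray hS
  refine ⟨(a₁ + a₂) / 8, by positivity, fun b α β D hα hαβ hg hb h12 hD hf => ?_⟩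
  by_cases hw : m₁ + (a₁ + a₂) / 2 ≤ m₂ + a₂
  · exact core_n1a hN hl h₁ h₂ hm₁ hm₂ hu₁ hu₂ hδ ha₁ ha₂ hw b α β D hα hαβ hg hb h12 hD
      (hf 0).1 (hf 1).2.1 (hf 2).2.2
  · exact core_n1a hN hl h₂ h₁ hm₂ hm₁ hu₂ hu₁ (by linarith) ha₂ ha₁ (by linarith) b α β D hα
      hαβ (by linarith) hb h12 hD (hf 0).1 (hf 1).2.2 (hf 2).2.1

end P158
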