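import Vale.Agent.P158.GBase
import Vale.Agent.P158.N1a

open scoped NNReal ENNReal
open MeasureTheory Filter Topology

namespace P158.Gen

/-! If branching events are null there is no branching triple. -/

theorem left_null_N1b (G : Measure ℝ≥0) [IsProbabilityMeasure G] [NullSingletonClass G]
    {β : ℝ} (hβ : 0 < β) :
    G {t | G {t' | (t : ℝ) - β < t' ∧ (t' : ℝ) < t} = 0} = 0 := by
  let Z : Set ℝ≥0 := ⋃ (a : ℚ) (b : ℚ) (_ : G {t | (a : ℝ) < t ∧ (t : ℝ) < b} = 0),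
    {t | (a : ℝ) < t ∧ (t : ℝ) < b}
  have hZ : G Z = 0 := measure_iUnion_null fun a => measure_iUnion_null fun b =>
    measure_iUnion_null fun h => h
  let M : ℕ → Set ℝ≥0 := fun k => {t | G {t' | (t : ℝ) - β < t' ∧ (t' : ℝ) < t} = 0 ∧ t ∉ Z ∧
    k * β ≤ t ∧ (t : ℝ) < (k + 1) * β}
  have key : ∀ k, ∀ t ∈ M k, ∀ t' ∈ M k, ¬ (t : ℝ) < t' := fun k t ht t' ht' h => by
    obtain ⟨a, a1, a2⟩ := exists_rat_btwn (show (t' : ℝ) - β < t by linarith [ht.2.2.1, ht'.2.2.2])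
    obtain ⟨b, b1, b2⟩ := exists_rat_btwn h
    refine ht.2.1 (Set.mem_iUnion.2 ⟨a, Set.mem_iUnion.2 ⟨b, Set.mem_iUnion.2 ⟨?_, a2, b1⟩⟩⟩)
    refine measure_mono_null (fun x hx => ?_) ht'.1
    exact ⟨a1.trans hx.1, hx.2.trans b2⟩
  have hM : G (⋃ k, M k) = 0 := measure_iUnion_null fun k =>
    Set.Subsingleton.measure_zero (fun a ha b hb => NNReal.eq
      (le_antisymm (not_lt.1 (key k b hb a ha)) (not_lt.1 (key k a ha b hb)))) _
  refine measure_mono_null (fun t ht => ?_) (measure_union_null hZ hM)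
  by_cases h : t ∈ Z
  · exact Or.inl h
  · refine Or.inr (Set.mem_iUnion.2 ⟨⌊(t : ℝ) / β⌋₊, ht, h, ?_, ?_⟩)
    · exact (le_div_iff₀ hβ).1 (Nat.floor_le (div_nonneg t.2 hβ.le))
    · exact (div_lt_iff₀ hβ).1 (Nat.lt_floor_add_one _)

/-- Most weights can be lowered, with positive probability, by an amount in `[α, β]`. -/
theorem lowerable (G : Measure ℝ≥0) [IsProbabilityMeasure G] [NullSingletonClass G]
    {β : ℝ} (hβ : 0 < β) :
    ∃ (α : ℝ) (D : Set ℝ), 0 < α ∧ α ≤ β ∧ MeasurableSet D ∧ G {t | (t : ℝ) ∉ D} ≤ 1 / 512 ∧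
      ∀ t ∈ D, ∃ u v : ℚ, (u : ℝ) ≤ t ∧ t < v ∧
        0 < G {t' | (v : ℝ) - β ≤ t' ∧ (t' : ℝ) ≤ u - α} := by
  let D : ℕ → Set ℝ := fun n => ⋃ (u : ℚ) (v : ℚ)
    (_ : 0 < G {t' | (v : ℝ) - β ≤ t' ∧ (t' : ℝ) ≤ u - β * (1 / ((n : ℝ) + 1))}), Set.Ico (u : ℝ) v
  have hD : ∀ n, MeasurableSet (D n) := fun n => MeasurableSet.iUnion fun u =>
    MeasurableSet.iUnion fun v => MeasurableSet.iUnion fun _ => measurableSet_Ico
  have mem : ∀ n t, t ∈ D n ↔ ∃ u v : ℚ, (u : ℝ) ≤ t ∧ t < v ∧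
      0 < G {t' | (v : ℝ) - β ≤ t' ∧ (t' : ℝ) ≤ u - β * (1 / ((n : ℝ) + 1))} := fun n t => by
    simp only [D, Set.mem_iUnion, Set.mem_Ico]
    exact ⟨fun ⟨u, v, h, h1, h2⟩ => ⟨u, v, h1, h2, h⟩, fun ⟨u, v, h1, h2, h⟩ => ⟨u, v, h, h1, h2⟩⟩
  have h2 := tendsto_measure_iInter_atTop (μ := G) (s := fun n : ℕ => {t : ℝ≥0 | (t : ℝ) ∉ D n})
    (fun n => (measurable_coe_nnreal_real (hD n)).compl.nullMeasurableSet)
    (fun a b hab t ht h => by
      obtain ⟨u, v, h1, h2, h3⟩ := (mem _ _).1 h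
      refine ht ((mem _ _).2 ⟨u, v, h1, h2, h3.trans_le (measure_mono fun x hx => ⟨hx.1, ?_⟩)⟩)
      have : β * (1 / ((b : ℝ) + 1)) ≤ β * (1 / ((a : ℝ) + 1)) :=
        mul_le_mul_of_nonneg_left (Nat.one_div_le_one_div hab) hβ.le
      linarith [hx.2]) ⟨0, measure_ne_top _ _⟩
  have h3 : G (⋂ n : ℕ, {t : ℝ≥0 | (t : ℝ) ∉ D n}) = 0 := by
    refine measure_mono_null (fun t ht => ?_) (left_null_N1b G hβ)
    have h4 : G (⋃ (n : ℕ) (u : ℚ) (v : ℚ) (_ : (u : ℝ) ≤ t ∧ (t : ℝ) < v),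
        {t' | (v : ℝ) - β ≤ t' ∧ (t' : ℝ) ≤ u - β * (1 / ((n : ℝ) + 1))}) = 0 :=
      measure_iUnion_null fun n => measure_iUnion_null fun u => measure_iUnion_null fun v =>
        measure_iUnion_null fun h => by
          by_contra h5
          exact Set.mem_iInter.1 ht n ((mem _ _).2 ⟨u, v, h.1, h.2, pos_iff_ne_zero.2 h5⟩)
    refine measure_mono_null (fun x hx => ?_) h4
    obtain ⟨v, v1, v2⟩ := exists_rat_btwn (show (t : ℝ) < x + β by linarith [hx.1])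
    obtain ⟨n, hn⟩ := exists_nat_one_div_lt (div_pos (sub_pos.2 hx.2) hβ)
    rw [lt_div_iff₀' hβ] at hn
    obtain ⟨u, u1, u2⟩ := exists_rat_btwn
      (show (x : ℝ) + β * (1 / ((n : ℝ) + 1)) < t by linarith)
    simp only [Set.mem_iUnion]
    exact ⟨n, u, v, ⟨u2.le, v1⟩, by linarith, by linarith⟩
  rw [h3] at h2
  obtain ⟨n, hn⟩ := (h2.eventually (ge_mem_nhds (show (0 : ℝ≥0∞) < 1 / 512 by simp))).exists
  refine ⟨β * (1 / ((n : ℝ) + 1)), D n, mul_pos hβ Nat.one_div_pos_of_nat, ?_, hD n, hn,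
    fun t ht => (mem _ _).1 ht⟩
  refine mul_le_of_le_one_right hβ.le ?_
  rw [div_le_one (by positivity)]
  linarith [Nat.cast_nonneg (α := ℝ) n]

theorem null_N1b (G : Mdl) {f : Fin 3 → E}
    (hf : Function.Injective f) {I : Fin 3 → Set ℝ≥0} (hI : ∀ i, MeasurableSet (I i))
    (h0 : ∀ i, 0 < G.G (I i)) (hIM : ∀ i, ∀ t ∈ I i, (t : ℝ) ≤ G.M) {A B : Set Env}
    (hB : PP G B = 0) (hA : ∀ ω ∈ A, ∀ i, (ω (f i) : ℝ) ≤ G.M)
    (h : ∀ ω ∈ A, ∀ ω' : Env, (∀ e, (∀ i, e ≠ f i) → ω' e = ω e) → (∀ i, ω' (f i) ∈ I i) →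
      ω' ∈ B) : PP G A = 0 := by
  classical
  have e : ∀ i, (⋂ (j) (_ : f j = f i), I j) ∩ {t | (t : ℝ) ≤ G.M} = I i := fun i => by
    ext t
    simp only [Set.mem_inter_iff, Set.mem_iInter, hf.eq_iff, forall_eq]
    exact ⟨fun h => h.1, fun h => ⟨h, hIM i t h⟩⟩
  have h1 := G.h.modify (Finset.univ.image f)
    (fun e => (⋂ (j) (_ : f j = e), I j) ∩ {t | (t : ℝ) ≤ G.M})
    (fun e => (MeasurableSet.iInter fun j => MeasurableSet.iInter fun _ => hI j).inter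
      (measurableSet_le measurable_coe_nnreal_real measurable_const)) (fun _ _ ht => ht.2) A B
    (fun ω hω x hx => by
      obtain ⟨i, -, rfl⟩ := Finset.mem_image.1 hx
      exact hA ω hω i)
    fun ω hω ω' h1 h2 => h ω hω ω'
      (fun e he => h1 e fun h3 => by
        obtain ⟨i, -, rfl⟩ := Finset.mem_image.1 h3
        exact he i rfl)
      fun i => e i ▸ h2 _ (Finset.mem_image_of_mem f (Finset.mem_univ i))
  rw [show G.μ B = 0 from hB, nonpos_iff_eq_zero, mul_eq_zero] at h1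
  refine h1.resolve_left (Finset.prod_ne_zero_iff.2 fun x hx => ?_)
  obtain ⟨i, -, rfl⟩ := Finset.mem_image.1 hx
  rw [e]
  exact (h0 i).ne'

theorem par_N1b {G : Mdl} (_hG : Law G) {b g : ℝ} (hb : 0 < b) (hg : 0 < g)
    (hGb : G.G {t | (t : ℝ) ∉ Set.Ici b} ≤ 1 / 1024) :
    ∃ (α β : Fin 3 → ℝ) (D : Fin 3 → Set ℝ), (∀ i, 0 < α i) ∧ (∀ i, α i ≤ β i) ∧
      β 0 + β 1 + β 2 < g ∧ β 0 + β 1 + β 2 < b ∧ β 1 < α 2 ∧ (∀ i, D i ⊆ Set.Icc b G.M) ∧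
      (∀ i, MeasurableSet (D i)) ∧ (∀ i, G.G {t | (t : ℝ) ∉ D i} ≤ 1 / 256) ∧
      ∀ i, ∀ t ∈ D i, ∃ u v : ℚ, (u : ℝ) ≤ t ∧ t < v ∧
        0 < G.G {t' | (v : ℝ) - β i ≤ t' ∧ (t' : ℝ) ≤ u - α i} := by
  have h0 : 0 < min b g / 4 := by positivity
  obtain ⟨a, D, a1, a2, a3, a4, a5⟩ := lowerable G.G h0
  obtain ⟨a', D', b1, b2, b3, b4, b5⟩ := lowerable G.G (half_pos a1)
  have hu : ∀ D : Set ℝ, G.G {t | (t : ℝ) ∉ D} ≤ 1 / 512 →
      G.G {t | (t : ℝ) ∉ D ∩ Set.Icc b G.M} ≤ 1 / 256 := fun D hD => by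
    calc _ ≤ G.G ({t | (t : ℝ) ∉ D} ∪ ({t | (t : ℝ) ∉ Set.Ici b} ∪ {t | (G.M : ℝ) < t})) :=
          measure_mono fun t ht => by
            simp only [Set.mem_ofPred_eq, Set.mem_inter_iff, Set.mem_Icc, Set.mem_Ici,
              Set.mem_union, not_and_or, not_le] at ht ⊢
            exact ht
      _ ≤ 1 / 512 + (1 / 1024 + 1 / 1024) := (measure_union_le _ _).trans
          (add_le_add hD ((measure_union_le _ _).trans (add_le_add hGb G.h.light)))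
      _ = _ := by
          rw [← ENNReal.toReal_eq_toReal_iff' (by finiteness) (by finiteness),
            ENNReal.toReal_add (by finiteness) (by finiteness),
            ENNReal.toReal_add (by finiteness) (by finiteness)]
          norm_num
  have m1 := min_le_left b g
  have m2 := min_le_right b g
  refine ⟨![a, a', a], ![min b g / 4, a / 2, min b g / 4],
    ![D ∩ Set.Icc b G.M, D' ∩ Set.Icc b G.M, D ∩ Set.Icc b G.M], ?_, ?_, ?_, ?_, ?_, ?_, ?_, ?_, ?_⟩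
  · intro i; fin_cases i <;> assumption
  · intro i; fin_cases i <;> assumption
  · change min b g / 4 + a / 2 + min b g / 4 < g
    linarith
  · change min b g / 4 + a / 2 + min b g / 4 < b
    linarith
  · change a / 2 < a
    linarith
  · intro i; fin_cases i <;> exact Set.inter_subset_right
  · intro i; fin_cases i
    exacts [a3.inter measurableSet_Icc, b3.inter measurableSet_Icc, a3.inter measurableSet_Icc]
  · intro i; fin_cases i
    exacts [hu D a4, hu D' b4, hu D a4]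
  · intro i; fin_cases i
    exacts [fun t ht => a5 t ht.1, fun t ht => b5 t ht.1, fun t ht => a5 t ht.1]

theorem n1b {G : Mdl} (hG : Law G) (s : Stair) (A : ℕ)
    (h : ∀ R K n : ℕ, PP G (NEv s A R K (1 / (n + 1)) 0 0) = 0) :
    ∀ᵐ ω ∂PP G, NoTriple s A ω := by
  have := hG.prob
  obtain ⟨a₀, b, h0, h1, -, h2, -, -⟩ := exists_ab hG
  choose α β D p1 p2 p3 p4 p5 p6 p7 p8 p9 using fun m : ℕ =>
    par_N1b hG (h0.trans_lt h1) (Nat.one_div_pos_of_nat (n := m)) h2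
  have k1 : ∀ᵐ ω ∂PP G, ∀ (m : ℕ) (i : Fin 3), ∀ f : ℕ → V, Function.Injective f →
      (∀ i, Zd.Adj (f i) (f (i + 1))) → ∃ᶠ k in atTop, tau ω s(f k, f (k + 1)) ∈ D m i :=
    ae_all_iff.2 fun m => ae_all_iff.2 fun i => ae_freq hG (p7 m i)
      ((p6 m i).trans Set.Icc_subset_Iic_self) (p8 m i)
  have k2 : ∀ᵐ ω ∂PP G, ∀ (m : ℕ) (f : Fin 3 → E) (R K n : ℕ) (u v : Fin 3 → ℚ),
      Function.Injective f → (∀ i, (u i : ℝ) ≤ G.M) →
      (∀ i, 0 < G.G {t' | (v i : ℝ) - β m i ≤ t' ∧ (t' : ℝ) ≤ u i - α m i}) →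
      ¬ ((∀ i, (u i : ℝ) ≤ ω (f i) ∧ (ω (f i) : ℝ) < v i ∧ (ω (f i) : ℝ) ≤ G.M) ∧
        ∀ ω' : Env, (∀ e, (∀ i, e ≠ f i) → ω' e = ω e) →
          (∀ i, α m i ≤ (ω (f i) : ℝ) - ω' (f i) ∧ (ω (f i) : ℝ) - ω' (f i) ≤ β m i) →
          ω' ∈ NEv s A R K (1 / (n + 1)) 0 0) := by
    simp only [ae_all_iff]
    intro m f R K n u v hf hu hI
    rw [ae_iff]
    simp only [not_not]
    refine null_N1b G hf (fun i => ?_) hI (fun i t ht => by linarith [ht.2, hu i, p1 m i])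
      (h R K n) (fun ω hω i => (hω.1 i).2.2) fun ω hω ω' e1 e2 => hω.2 ω' e1 fun i => ?_
    · exact (measurableSet_le measurable_const measurable_coe_nnreal_real).inter
        (measurableSet_le measurable_coe_nnreal_real measurable_const)
    · have := hω.1 i
      have := e2 i
      simp only [Set.mem_ofPred_eq] at this
      constructor <;> linarith [(hω.1 i).1, (hω.1 i).2.1]
  filter_upwards [k1, k2, ae_nice hG] with ω k1 k2 hN l r₁ r₂ hl h₁ h₂ q₁ q₂ hS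
  obtain ⟨g, hg, H⟩ := n1a hN hl h₁ h₂ q₁ q₂ hS
  obtain ⟨m, hm⟩ := exists_nat_one_div_lt hg
  obtain ⟨f, R, K, n, hf, f1, f2⟩ := H b (α m) (β m) (D m) (p1 m) (p2 m) ((p3 m).trans hm) (p4 m)
    (p5 m) (fun i => (p6 m i).trans Set.Icc_subset_Ici_self) fun i => ⟨k1 m i l hl.ray.inj hl.ray.adj, k1 m i r₁ h₁.ray.inj h₁.ray.adj,
      k1 m i r₂ h₂.ray.inj h₂.ray.adj⟩
  choose u v u1 u2 u3 using fun i => p9 m i _ (f1 i)
  exact k2 m f R K n u v hf (fun i => (u1 i).trans (p6 m i (f1 i)).2) u3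
    ⟨fun i => ⟨u1 i, u2 i, (p6 m i (f1 i)).2⟩, f2⟩

end P158.Gen
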