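import Vale.Agent.P158.Term
import Vale.Agent.P158.Cell
import Vale.Agent.P158.Cross
import Vale.Agent.P158.NiceB

open scoped NNReal ENNReal
open MeasureTheory Filter Topology

namespace P158

/-! Deterministic bound on the number of aligned branching events. -/

theorem rc_data_NcD {s : Stair} {A R K n : ℕ} {η bb : ℝ} {ω : Env} {k y : ℤ} {l r : ℕ → V}
    (hR : R < n) (hk : 0 ≤ k ∧ k < n ∧ 0 ≤ y ∧ y < n) (h : RC s A R K η k y ω l r)
    (ht : TubeOK s n bb l r) {i : ℕ} (hi : FirstHit s l (-n) i) :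
    ∃ (j : ℕ) (p q : ℤ), r j = pt s (3 * n) q ∧
      Btw ω (l i) (r 0) (r j) ∧ Btw ω (l i) (pt s (2 * n) p) (r j) ∧
      TS ω (Strip s (2 * n) (3 * n)) (pt s (2 * n) p) (r j) = T ω (pt s (2 * n) p) (r j) ∧
      |p| ≤ ((3 * A + 2) * n : ℕ) ∧ |q| ≤ ((3 * A + 2) * n : ℕ) ∧
      ((|4 * p - (l i).2 - 3 * q| : ℤ) : ℝ) ≤ bb := by
  have hb := abs_le.1 h.br.1
  have hR' : (R : ℤ) < n := by exact_mod_cast hR
  obtain ⟨j, hj, hj'⟩ := exists_hitR s h.hr.inj h.hr.adj h.sr h.cr (N := 3 * n) (by omega)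
  obtain ⟨w, hw1, hw2, -, -⟩ := exists_seg h.hr.adj (Nat.zero_le j)
  obtain ⟨z, p₁, p₂, e, hp₂⟩ := split_last s w (k := 2 * n) (by omega) (by rw [hj.1]; omega)
  have hz : pt s (2 * n) z ∈ w.support := by
    rw [e, SimpleGraph.Walk.mem_support_append_iff]; exact Or.inl p₁.end_mem_support
  obtain ⟨j', -, hj2, hj3⟩ := (hw2 _).1 hz
  have hin : In (Strip s (2 * n) (3 * n)) p₂ := by
    intro v hv
    refine ⟨hp₂ v hv, ?_⟩
    obtain ⟨t, -, t2, rfl⟩ := (hw2 v).1 (by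
      rw [e, SimpleGraph.Walk.mem_support_append_iff]; exact Or.inr hv)
    exact hj' t t2
  have g0 := h.hr.geo 0 j (Nat.zero_le _)
  have g1 := h.hr.geo 0 j' (Nat.zero_le _)
  have g2 := h.hr.geo j' j hj2
  have a0 := h.add i 0
  have a1 := h.add i j'
  have a2 := h.add i j
  have hX : X s (r j') = 2 * n := by rw [hj3, X_pt]
  have hA : (0 : ℤ) ≤ A := Int.natCast_nonneg A
  refine ⟨j, z, (r j).2, by rw [← hj.1]; exact eq_pt s _, ?_, ?_, ?_, ?_, ?_, ?_⟩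
  · unfold Btw; linarith
  · unfold Btw; rw [← hj3]; linarith
  · refine le_antisymm ?_ (T_le_TS ω ⟨p₂, hin⟩)
    have b1 := TS_le ω p₂ hin
    have b2 := T_le ω p₁
    have b3 := hw1 ω
    rw [e, wt_append] at b3
    rw [hj3] at g1 g2
    linarith
  · have c := h.cr j'
    rw [hX, hj3, pt_snd, abs_of_nonneg (by omega : (0:ℤ) ≤ 2 * n - k)] at c
    have c := abs_le.1 c
    push_cast
    rw [abs_le]; constructor <;> nlinarith
  · have c := h.cr j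
    rw [hj.1, abs_of_nonneg (by omega : (0:ℤ) ≤ 3 * n - k)] at c
    have c := abs_le.1 c
    push_cast
    rw [abs_le]; constructor <;> nlinarith
  · have := ht i j j' hi hj hj2 hX
    rwa [hj3, pt_snd] at this

theorem gap_NcD {s : Stair} {n : ℕ} {η : ℝ} {ω : Env} (hN : Nice ω) (hn : 0 < n) {ρ u : V}
    {p q p' q' : ℤ} (hu : X s u < 2 * n)
    (h1 : Btw ω ρ (pt s (2 * n) p) (pt s (3 * n) q))
    (h2 : Btw ω ρ (pt s (2 * n) p') (pt s (3 * n) q'))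
    (e1 : TS ω (Strip s (2 * n) (3 * n)) (pt s (2 * n) p) (pt s (3 * n) q) =
      T ω (pt s (2 * n) p) (pt s (3 * n) q))
    (e2 : TS ω (Strip s (2 * n) (3 * n)) (pt s (2 * n) p') (pt s (3 * n) q') =
      T ω (pt s (2 * n) p') (pt s (3 * n) q'))
    (rob : ∀ w : Zd.Walk ρ (pt s (3 * n) q), u ∉ w.support →
      T ω ρ (pt s (3 * n) q) + η ≤ wt ω w)
    (hu' : ¬ Btw ω ρ u (pt s (3 * n) q')) :
    η ≤ TS ω (Strip s (2 * n) (3 * n)) (pt s (2 * n) p) (pt s (3 * n) q') +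
      TS ω (Strip s (2 * n) (3 * n)) (pt s (2 * n) p') (pt s (3 * n) q) -
      TS ω (Strip s (2 * n) (3 * n)) (pt s (2 * n) p) (pt s (3 * n) q) -
      TS ω (Strip s (2 * n) (3 * n)) (pt s (2 * n) p') (pt s (3 * n) q') := by
  have hc : ∀ a b : ℤ, Conn (Strip s (2 * n) (3 * n)) (pt s (2 * n) a) (pt s (3 * n) b) :=
    fun a b => conn_Strip s (by omega) ⟨by rw [X_pt], by rw [X_pt]; omega⟩
      ⟨by rw [X_pt]; omega, by rw [X_pt]⟩
  obtain ⟨w₁, -, -, hw₁⟩ := hN.exists_geo (conn_univ ρ (pt s (2 * n) p'))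
  rw [← T_eq_TS] at hw₁
  obtain ⟨w₂, hw₂, -, hw₃⟩ := hN.exists_geo (hc p' q)
  have a := rob (w₁.append w₂) (by
    rw [SimpleGraph.Walk.mem_support_append_iff]
    rintro (c | c)
    · exact hu' (Btw.trans ((hN.mem_geo w₁ hw₁ u).1 c) h2)
    · have := (hw₂ u c).1; omega)
  rw [wt_append, hw₁, hw₃] at a
  have b := T_tri ω ρ (pt s (2 * n) p) (pt s (3 * n) q')
  have c := T_le_TS ω (hc p q')
  unfold Btw at h1 h2
  linarith

theorem box_NcD {s : Stair} {A R K : ℕ} {η : ℝ} {ω : Env} (hN : Nice ω) {k y : ℤ} {l r : ℕ → V}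
    (h : RC s A R K η k y ω l r) (i : ℕ) : Btw ω (l i) (l 0) (r 0) ∧
      ∀ u, Btw ω (l 0) u (r 0) → u ∈ Box s k y R := by
  have a0 := h.add i 0
  have a1 := h.add 0 0
  have g := h.hl.geo 0 i (Nat.zero_le _)
  rw [W_zero] at a0 g
  rw [W_zero, W_zero] at a1
  refine ⟨by unfold Btw; rw [T_comm ω (l i) (l 0)]; linarith, fun u hu => ?_⟩
  have hR : 1 ≤ R := by
    have b1 := (abs_le.1 h.br.1).2
    have b2 := h.sr 0
    omega
  obtain ⟨w, hw, -, hw'⟩ := hN.exists_geo (conn_Box s hR h.bl h.br)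
  exact hw u ((hN.mem_geo w (by linarith) u).2 hu)

theorem ncD {s : Stair} {A R K n b : ℕ} {η : ℝ} {ω : Env} (hN : Nice ω) (hη : 0 < η)
    (hb : 1 ≤ b) (hR : R < n) (I : Finset (ℤ × ℤ))
    (hI : ∀ x ∈ I, 0 ≤ x.1 ∧ x.1 < n ∧ 0 ≤ x.2 ∧ x.2 < n)
    (hII : ∀ x ∈ I, ∀ x' ∈ I, x ≠ x' → (2 * R : ℤ) < |x.1 - x'.1| ∨ (2 * R : ℤ) < |x.2 - x'.2|)
    (h : ∀ x ∈ I, ∃ l r₁ r₂, NC s A R K η x.1 x.2 ω l r₁ r₂ ∧ TubeOK s n b l r₁ ∧
      TubeOK s n b l r₂) :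
    η * I.card ≤ η * (2 * ((3 * A + 2) * n : ℕ) + 1) * (2 * ((3 * A + 2) * n : ℕ) / b + 2) +
      12 * b * TS ω (Strip s (2 * n) (3 * n)) (pt s (3 * n) (-((3 * A + 2) * n : ℕ)))
        (pt s (3 * n) ((3 * A + 2) * n : ℕ)) := by
  classical
  have hn : 0 < n := by omega
  have hR' : (R : ℤ) < n := by exact_mod_cast hR
  obtain ⟨N, hNN⟩ : ∃ N : ℕ, N = (3 * A + 2) * n := ⟨_, rfl⟩
  rw [← hNN]
  have key : ∀ x ∈ I, ∃ (a : ℤ) (l0 : V) (u : Bool → V) (p q : Bool → ℤ), |a| ≤ N ∧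
      (∀ c, u c ∈ Box s x.1 x.2 R ∧ Btw ω (pt s (-n) a) (u c) (pt s (3 * n) (q c)) ∧
        ¬ Btw ω (pt s (-n) a) (u (!c)) (pt s (3 * n) (q c)) ∧
        Btw ω (pt s (-n) a) l0 (u c) ∧ (∀ v, Btw ω l0 v (u c) → v ∈ Box s x.1 x.2 R) ∧
        Btw ω (pt s (-n) a) (pt s (2 * n) (p c)) (pt s (3 * n) (q c)) ∧
        TS ω (Strip s (2 * n) (3 * n)) (pt s (2 * n) (p c)) (pt s (3 * n) (q c)) =
          T ω (pt s (2 * n) (p c)) (pt s (3 * n) (q c)) ∧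
        |p c| ≤ N ∧ |q c| ≤ N ∧ |4 * p c - a - 3 * q c| ≤ b ∧
        ∀ w : Zd.Walk (pt s (-n) a) (pt s (3 * n) (q c)), u c ∉ w.support →
          T ω (pt s (-n) a) (pt s (3 * n) (q c)) + η ≤ wt ω w) := by
    intro x hx
    obtain ⟨l, r₁, r₂, hc, t1, t2⟩ := h x hx
    have hk := hI x hx
    have hb' := abs_le.1 hc.c1.bl.1
    obtain ⟨i, hi, -⟩ := exists_hitL s hc.c1.hl.inj hc.c1.hl.adj hc.c1.sl hc.c1.cl (N := -n)
      (by omega)
    have el : l i = pt s (-n) (l i).2 := by rw [← hi.1]; exact eq_pt s _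
    obtain ⟨j₁, p₁, q₁, e1, b1, b2, b3, b4, b5, b6⟩ := rc_data_NcD hR hk hc.c1 t1 hi
    obtain ⟨j₂, p₂, q₂, e2, d1, d2, d3, d4, d5, d6⟩ := rc_data_NcD hR hk hc.c2 t2 hi
    obtain ⟨f1, f2⟩ := box_NcD hN hc.c1 i
    obtain ⟨g1, g2⟩ := box_NcD hN hc.c2 i
    have x1 := hc.x1 i j₁
    have x2 := hc.x2 i j₂
    have r1 := fun w hw => hc.c1.rob i j₁ w (Or.inr hw)
    have r2 := fun w hw => hc.c2.rob i j₂ w (Or.inr hw)
    refine ⟨(l i).2, l 0, fun c => cond c (r₁ 0) (r₂ 0), fun c => cond c p₁ p₂,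
      fun c => cond c q₁ q₂, ?_, ?_⟩
    · have c := hc.c1.cl i
      rw [hi.1, abs_of_nonpos (by omega : -(n:ℤ) - x.1 ≤ 0)] at c
      have c := abs_le.1 c
      have hA : (0 : ℤ) ≤ A := Int.natCast_nonneg A
      rw [hNN]; push_cast
      rw [abs_le]; constructor <;> nlinarith
    · rw [← el]
      rintro (_ | _)
      · simp only [cond_false, Bool.not_false, cond_true]
        rw [← e2, hNN]
        refine ⟨hc.c2.br, d1, ?_, g1, g2, d2, d3, d4, d5, by exact_mod_cast d6, r2⟩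
        unfold Btw; intro c; linarith
      · simp only [cond_false, Bool.not_true, cond_true]
        rw [← e1, hNN]
        refine ⟨hc.c1.br, b1, ?_, f1, f2, b2, b3, b4, b5, by exact_mod_cast b6, r1⟩
        unfold Btw; intro c; linarith
  choose! a l0 u p q ha H using key
  have hdis : ∀ e ∈ I, ∀ e' ∈ I, e ≠ e' → ∀ v, v ∈ Box s e.1 e.2 R → v ∉ Box s e'.1 e'.2 R := by
    intro e he e' he' hne v h1 h2
    have c1 := abs_le.1 h1.1
    have c2 := abs_le.1 h1.2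
    have c3 := abs_le.1 h2.1
    have c4 := abs_le.1 h2.2
    rcases hII e he e' he' hne with c | c <;> rcases lt_abs.1 c with c | c <;> omega
  obtain ⟨P, hP1, hP2, hP3⟩ := term (α := ℤ × V)
    (fun v w => v.1 = w.1 ∧ Btw ω (pt s (-n) v.1) v.2 w.2)
    (fun v w z h1 h2 => ⟨h1.1.trans h2.1, h1.2.trans (h1.1 ▸ h2.2)⟩)
    (fun v w h1 h2 => Prod.ext h1.1 (hN.btw_antisymm h1.2 (h1.1 ▸ h2.2)))
    (fun v v' w h1 h2 => by
      have e : v'.1 = v.1 := h2.1.trans h1.1.symm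
      rcases hN.btw_chain h1.2 (e ▸ h2.2) with c | c
      · exact Or.inl ⟨e.symm, c⟩
      · exact Or.inr ⟨e, e ▸ c⟩)
    I (fun e c => (a e, u e c)) (fun e c => (a e, pt s (3 * n) (q e c)))
    (fun e he c => ⟨rfl, (H e he c).2.1⟩) (fun e he c hh => (H e he c).2.2.1 hh.2)
    (fun e he e' he' hne c c' hh => by
      refine ⟨hh.1, ?_⟩
      have e1 : a e = a e' := hh.1
      have h2 : Btw ω (pt s (-n) (a e')) (u e c) (u e' c') := e1 ▸ hh.2
      change Btw ω (pt s (-n) (a e)) (u e c) (u e' (!c'))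
      rw [e1]
      rcases hN.btw_chain h2 (H e' he' c').2.2.2.1 with d | d
      · exact d.trans (H e' he' (!c')).2.2.2.1
      · exact absurd ((H e' he' c').2.2.2.2.1 _ (d.right h2)) (hdis e he e' he' hne _ (H e he c).1))
    (fun e he e' he' hne c c' hh => hdis e he e' he' hne _ (H e he c).1
      (by have : u e c = u e' c' := congrArg Prod.snd hh
          rw [this]; exact (H e' he' c').1))
  obtain ⟨F, hF⟩ : ∃ F : ℤ → ℤ → ℝ, F = fun i j =>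
    TS ω (Strip s (2 * n) (3 * n)) (pt s (2 * n) i) (pt s (3 * n) j) := ⟨_, rfl⟩
  have gap : ∀ x ∈ P, ∀ x' ∈ P, x ≠ x' → a x.1 = a x'.1 →
      η ≤ F (p x.1 x.2) (q x'.1 x'.2) + F (p x'.1 x'.2) (q x.1 x.2) - F (p x.1 x.2) (q x.1 x.2)
        - F (p x'.1 x'.2) (q x'.1 x'.2) := by
    have one : ∀ x ∈ P, ∀ x' ∈ P, a x.1 = a x'.1 →
        ¬ Btw ω (pt s (-n) (a x.1)) (u x.1 x.2) (pt s (3 * n) (q x'.1 x'.2)) →
        η ≤ F (p x.1 x.2) (q x'.1 x'.2) + F (p x'.1 x'.2) (q x.1 x.2) - F (p x.1 x.2) (q x.1 x.2)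
        - F (p x'.1 x'.2) (q x'.1 x'.2) := by
      intro x hx x' hx' e hh
      obtain ⟨b1, -, -, -, -, b2, b3, -, -, -, b4⟩ := H x.1 (hP1 x hx) x.2
      obtain ⟨-, -, -, -, -, d2, d3, -, -, -, -⟩ := H x'.1 (hP1 x' hx') x'.2
      rw [hF]
      refine gap_NcD hN hn (u := u x.1 x.2) ?_ b2 (e ▸ d2) b3 d3 b4 hh
      have := (abs_le.1 b1.1).2
      have := (hI _ (hP1 x hx)).2.1
      omega
    intro x hx x' hx' hne e
    rcases hP3 x hx x' hx' hne with c | c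
    · exact one x hx x' hx' e fun d => c ⟨e, d⟩
    · have := one x' hx' x hx e.symm fun d => c ⟨e.symm, d⟩
      linarith
  have hinj : Set.InjOn (fun x : (ℤ × ℤ) × Bool => (a x.1, p x.1 x.2, q x.1 x.2)) P := by
    intro x hx x' hx' e
    by_contra hne
    simp only [Prod.mk.injEq] at e
    have := gap x hx x' hx' hne e.1
    rw [e.2.1, e.2.2] at this
    linarith
  have hc := cell F (fun i i' j j' h1 h2 => by
      rw [hF]; exact monge_strip s ω (by omega) h1 h2)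
    (P.image fun x => (a x.1, p x.1 x.2, q x.1 x.2)) N b hb hη
    (by
      intro t ht
      obtain ⟨x, hx, rfl⟩ := Finset.mem_image.1 ht
      obtain ⟨-, -, -, -, -, -, -, b2, b3, -⟩ := H x.1 (hP1 x hx) x.2
      exact ⟨ha _ (hP1 x hx), b2, b3⟩)
    (by
      intro t ht
      obtain ⟨x, hx, rfl⟩ := Finset.mem_image.1 ht
      exact (H x.1 (hP1 x hx) x.2).2.2.2.2.2.2.2.2.2.1)
    (by
      intro t ht t' ht' hne e
      obtain ⟨x, hx, rfl⟩ := Finset.mem_image.1 ht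
      obtain ⟨x', hx', rfl⟩ := Finset.mem_image.1 ht'
      exact gap x hx x' hx' (fun c => hne (by rw [c])) e)
  rw [Finset.card_image_of_injOn hinj] at hc
  have m2 : ∀ i : ℤ, pt s (2 * n) i ∈ Strip s (2 * n) (3 * n) :=
    fun i => ⟨by rw [X_pt], by rw [X_pt]; omega⟩
  have m3 : ∀ i : ℤ, pt s (3 * n) i ∈ Strip s (2 * n) (3 * n) :=
    fun i => ⟨by rw [X_pt]; omega, by rw [X_pt]⟩
  have hab : 2 * (n : ℤ) < 3 * n := by omega
  have t1 := TS_tri ω (conn_Strip s hab (m2 (-N)) (m3 (-N))) (conn_Strip s hab (m3 (-N)) (m3 N))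
  have t2 := TS_tri ω (conn_Strip s hab (m2 N) (m3 N)) (conn_Strip s hab (m3 N) (m3 (-N)))
  rw [TS_comm ω _ (pt s (3 * n) N)] at t2
  have hI' : (I.card : ℝ) ≤ P.card := by exact_mod_cast hP2
  have hb0 : (0 : ℝ) ≤ b := Nat.cast_nonneg b
  simp only [hF] at hc
  nlinarith [mul_le_mul_of_nonneg_left hI' hη.le]

end P158
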