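import Vale.Agent.P158.BuseL
import Vale.Agent.P158.BuseR

open scoped NNReal ENNReal
open MeasureTheory Filter Topology

namespace P158

/-! Two quasi-bigeodesics are strictly antitone or have a bounded hybrid. -/

variable {s : Stair} {A : ℕ} {ω : Env} {l r l' r' : ℕ → V}

theorem bdd_Ord0 {f g : ℤ → ℝ} (h : ¬ Ub f g) (h' : ¬ Ub g f) : ∃ M : ℝ, ∀ y, g y - M ≤ f y := by
  simp only [Ub, not_forall, not_exists, not_and, not_le] at h h'
  obtain ⟨M, hM⟩ := h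
  obtain ⟨M', hM'⟩ := h'
  refine ⟨g 0 - f 0 + max M M', fun y => ?_⟩
  rcases le_total 0 y with hy | hy
  · linarith [hM 0 y hy, le_max_left M M']
  · linarith [hM' y 0 hy, le_max_right M M']

theorem not_le_Ord0 {f g : ℤ → ℝ} (h : Ub f g) : ¬ Le g f := fun h' => by
  obtain ⟨y, y', hy, h1⟩ := h 1
  linarith [h' y y' hy]

theorem hybL_Ord0 (hl : RayL s A ω l) (hl' : RayL s A ω l') (hr : RayR s A ω r)
    (hq : Quasi ω l' r) {M : ℝ} (hM : ∀ y, bL s ω l' y - M ≤ bL s ω l y) : Quasi ω l r := by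
  obtain ⟨m, hm⟩ := hq
  refine ⟨m - M, fun i j => le_T ω fun p _ => ?_⟩
  obtain ⟨z, p₁, p₂, rfl, h1⟩ := split_first s p (k := 0) (hl.side i) (by linarith [hr.side j])
  have h2 : W ω r j + m - T ω (pt s 0 z) (r j) ≤ bL s ω l' z := le_ciInf fun i' => by
    have h3 := T_le_TS ω (conn_HLe s (k := 0) (hl'.side i') (y := pt s 0 z) (by simp [X, pt]))
    linarith [hm i' j, T_tri ω (l' i') (pt s 0 z) (r j)]
  rw [wt_append]
  linarith [bL_le hl z i, TS_le ω p₁ h1, T_le ω p₂, hM z]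

theorem hybR_Ord0 (hl : RayL s A ω l) (hr : RayR s A ω r) (hr' : RayR s A ω r')
    (hq : Quasi ω l r') {M : ℝ} (hM : ∀ y, bR s ω r' y - M ≤ bR s ω r y) : Quasi ω l r := by
  obtain ⟨m, hm⟩ := hq
  refine ⟨m - M, fun i j => le_T ω fun p _ => ?_⟩
  obtain ⟨z, p₁, p₂, rfl, h1⟩ := split_last s p (k := 1) (by linarith [hl.side i]) (hr.side j)
  have h2 : W ω l i + m - T ω (l i) (pt s 1 z) ≤ bR s ω r' z := le_ciInf fun j' => by
    have h3 := T_le_TS ω (conn_HGe s (k := 1) (hr'.side j') (y := pt s 1 z) (by simp [X, pt]))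
    linarith [hm i j', T_tri ω (l i) (pt s 1 z) (r' j'), T_comm ω (pt s 1 z) (r' j')]
  rw [wt_append]
  linarith [bR_le hr z j, TS_le ω p₂ h1, T_le ω p₁, hM z,
    TS_comm ω (HGe s 1) (pt s 1 z) (r j)]

theorem ext_Ord0 (hl : RayL s A ω l) (hr : RayR s A ω r) {i j : ℕ → ℕ}
    (hi : Tendsto i atTop atTop) (hj : Tendsto j atTop atTop)
    (hi' : ∀ᶠ N : ℕ in atTop, ∀ k, k ≤ i N → -(N : ℤ) ≤ X s (l k))
    (hj' : ∀ᶠ N : ℕ in atTop, ∀ k, k ≤ j N → X s (r k) ≤ N) {i₀ j₀ : ℕ}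
    (p : Zd.Walk (l i₀) (r j₀)) :
    ∀ᶠ N : ℕ in atTop, TS ω (Strip s (-N) N) (l (i N)) (r (j N)) ≤
      (W ω l (i N) - W ω l i₀) + wt ω p + (W ω r (j N) - W ω r j₀) := by
  classical
  have h0 : ∀ᶠ N : ℕ in atTop, ∀ v ∈ p.support.toFinset, v ∈ Strip s (-N) N :=
    (Finset.eventually_all _).2 fun v _ => by
      filter_upwards [eventually_ge_atTop (X s v).natAbs] with N hN
      exact ⟨by omega, by omega⟩
  filter_upwards [h0, hi', hj', hi.eventually_ge_atTop i₀, hj.eventually_ge_atTop j₀] with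
    N h1 h2 h3 h4 h5
  obtain ⟨q₁, w₁, s₁, -⟩ := exists_seg hl.ray.adj h4
  obtain ⟨q₂, w₂, s₂, -⟩ := exists_seg hr.ray.adj h5
  have i₁ : In (Strip s (-N) N) q₁ := fun v hv => by
    obtain ⟨k, -, hk, rfl⟩ := (s₁ v).1 hv
    exact ⟨h2 k hk, (hl.side k).trans (by positivity)⟩
  have i₂ : In (Strip s (-N) N) q₂ := fun v hv => by
    obtain ⟨k, -, hk, rfl⟩ := (s₂ v).1 hv
    exact ⟨by have := hr.side k; omega, h3 k hk⟩
  have := TS_le ω ((q₁.reverse.append p).append q₂)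
    ((i₁.reverse.append fun v hv => h1 v (List.mem_toFinset.2 hv)).append i₂)
  rwa [wt_append, wt_append, wt_reverse, w₁, w₂] at this

theorem par_Ord0 (hl : RayL s A ω l) (hr : RayR s A ω r) (hl' : RayL s A ω l')
    (hr' : RayR s A ω r') (hq : Quasi ω l r) (hq' : Quasi ω l' r')
    (h1 : ¬ Le (bL s ω l') (bL s ω l)) (h2 : ¬ Le (bR s ω r') (bR s ω r)) : Quasi ω l r' := by
  obtain ⟨i, ti, hi⟩ := hl.hits
  obtain ⟨i', ti', hi'⟩ := hl'.hits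
  obtain ⟨j, tj, hj⟩ := hr.hits
  obtain ⟨j', tj', hj'⟩ := hr'.hits
  have a1 := not_frequently.1 fun h => h1 (bL_Le hl' hl (hi'.mono fun _ h => h.1)
    (hi.mono fun _ h => h.1) h)
  have a2 := not_frequently.1 fun h => h2 (bR_Le hr' hr (hj'.mono fun _ h => h.1)
    (hj.mono fun _ h => h.1) h)
  obtain ⟨m, hm⟩ := hq
  obtain ⟨m', hm'⟩ := hq'
  obtain ⟨p₀, -⟩ := conn_univ (l' 0) (r 0)
  refine ⟨m + m' - wt ω p₀, fun i₀ j₀ => le_T ω fun p _ => ?_⟩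
  obtain ⟨N, ⟨⟨b1, b2⟩, ⟨⟨b3, -⟩, b4, -⟩, ⟨b5, -⟩, b6, -⟩, ⟨b7, b8⟩, b9⟩ := (((a1.and a2).and
    ((hi.and hi').and (hj.and hj'))).and (((ext_Ord0 hl' hr ti' tj (hi'.mono fun _ h => h.2)
    (hj.mono fun _ h => h.2) p₀).and (ext_Ord0 hl hr' ti tj' (hi.mono fun _ h => h.2)
    (hj'.mono fun _ h => h.2) p)).and (eventually_ge_atTop 1))).exists
  have hN : -(N : ℤ) < N := by omega
  have mg := monge_strip s ω hN (not_le.1 b1).le (not_le.1 b2).le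
  have e : ∀ {v : V} {k : ℤ}, X s v = k → pt s k v.2 = v := fun h => by
    rw [← h]; exact (eq_pt s _).symm
  rw [e b3.1, e b4.1, e b5.1, e b6.1] at mg
  have c : ∀ {u v : V}, X s u = -N → X s v = N → T ω u v ≤ TS ω (Strip s (-N) N) u v :=
    fun hu hv => T_le_TS ω (conn_Strip s hN ⟨by omega, by omega⟩ ⟨by omega, by omega⟩)
  rw [W_zero, W_zero] at b7
  linarith [c b3.1 b5.1, c b4.1 b6.1, hm (i N) (j N), hm' (i' N) (j' N)]

theorem ord0 {s : Stair} {A : ℕ} {ω : Env} {l r l' r' : ℕ → V} (hl : RayL s A ω l)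
    (hr : RayR s A ω r) (hl' : RayL s A ω l') (hr' : RayR s A ω r') (hq : Quasi ω l r)
    (hq' : Quasi ω l' r') :
    Prec (pr s ω l r) (pr s ω l' r') ∨ Prec (pr s ω l' r') (pr s ω l r) ∨
      Quasi ω l r' ∨ Quasi ω l' r := by
  by_cases h1 : Ub (bL s ω l) (bL s ω l') ∨ Ub (bL s ω l') (bL s ω l)
  swap
  · rw [not_or] at h1
    obtain ⟨M, hM⟩ := bdd_Ord0 h1.1 h1.2
    exact Or.inr (Or.inr (Or.inl (hybL_Ord0 hl hl' hr' hq' hM)))
  by_cases h2 : Ub (bR s ω r) (bR s ω r') ∨ Ub (bR s ω r') (bR s ω r)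
  swap
  · rw [not_or] at h2
    obtain ⟨M, hM⟩ := bdd_Ord0 h2.1 h2.2
    exact Or.inr (Or.inr (Or.inr (hybR_Ord0 hl' hr hr' hq' hM)))
  rcases h1 with h1 | h1 <;> rcases h2 with h2 | h2
  · exact Or.inr (Or.inr (Or.inl (par_Ord0 hl hr hl' hr' hq hq' (not_le_Ord0 h1)
      (not_le_Ord0 h2))))
  · exact Or.inl ⟨(bL_chain hl hl').resolve_right (not_le_Ord0 h1), h1,
      (bR_chain hr hr').resolve_left (not_le_Ord0 h2), h2⟩
  · exact Or.inr (Or.inl ⟨(bL_chain hl hl').resolve_left (not_le_Ord0 h1), h1,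
      (bR_chain hr hr').resolve_right (not_le_Ord0 h2), h2⟩)
  · exact Or.inr (Or.inr (Or.inr (par_Ord0 hl' hr' hl hr hq' hq (not_le_Ord0 h1)
      (not_le_Ord0 h2))))

end P158
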