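import Vale.Agent.P158.GBase
import Vale.Agent.P158.Ord0
import Vale.Agent.P158.RecA
import Vale.Agent.P158.Sym

open scoped NNReal ENNReal
open MeasureTheory Filter Topology

namespace P158.Gen

/-! No branching (on either side) gives the order of distant records. -/

theorem rx_rx_Ord (v : V) : rx 1 (rx 1 v) = v := (rx 1).toEquiv.left_inv v

theorem X_negx_Ord (s : Stair) (v : V) : X s.negx (rx 1 v) = 1 - X s v := by
  have := X_rx s 1 (rx 1 v)
  rw [rx_rx_Ord] at this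
  linarith

theorem cone_Ord {s : Stair} {A R : ℕ} {f : ℕ → V} (h : Cone s A R 0 0 f) :
    Cone s.negx A (R + A) 0 0 fun i => rx 1 (f i) := fun i => by
  have h1 := h i
  have h2 : (rx 1 (f i)).2 = (f i).2 := rfl
  have h3 : |X s (f i) - 0| ≤ |1 - X s (f i) - 0| + 1 := by
    rw [abs_le]; constructor <;> cases abs_cases (1 - X s (f i) - 0) <;> linarith
  have h4 : (0 : ℤ) ≤ A := by positivity
  simp only [X_negx_Ord, h2]
  push_cast
  nlinarith

theorem ray_Ord {ω : Env} {f : ℕ → V} (h : Ray ω f) :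
    Ray (act (rx 1) ω) fun i => rx 1 (f i) := by
  rw [Ray_act]; simpa only [rx_rx_Ord] using h

theorem mirror_Ord {s : Stair} {A : ℕ} {ω : Env} (H : NoTriple s.negx A (act (rx 1) ω))
    {l l' r : ℕ → V} (hl : RayL s A ω l) (hl' : RayL s A ω l') (hr : RayR s A ω r)
    (hq : Quasi ω l r) (hq' : Quasi ω l' r) : ¬ Sep ω l l' := by
  have hR : ∀ {l : ℕ → V}, RayL s A ω l → RayR s.negx A (act (rx 1) ω) fun i => rx 1 (l i) :=
    fun hl => ⟨ray_Ord hl.ray, fun i => by rw [X_negx_Ord]; linarith [hl.side i],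
      hl.cone.elim fun R h => ⟨_, cone_Ord h⟩⟩
  have hQ : ∀ {l : ℕ → V}, Quasi ω l r →
      Quasi (act (rx 1) ω) (fun i => rx 1 (r i)) fun i => rx 1 (l i) := fun ⟨m, hm⟩ => by
    rw [Quasi_act]
    simp only [rx_rx_Ord]
    exact ⟨m, fun i j => by rw [T_comm]; linarith [hm j i]⟩
  have := H (fun i => rx 1 (r i)) (fun i => rx 1 (l i)) (fun i => rx 1 (l' i))
    ⟨ray_Ord hr.ray, fun i => by rw [X_negx_Ord]; linarith [hr.side i],
      hr.cone.elim fun R h => ⟨_, cone_Ord h⟩⟩ (hR hl) (hR hl') (hQ hq) (hQ hq')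
  rw [Sep_act] at this
  simpa only [rx_rx_Ord] using this

theorem ord {G : Mdl} (hG : Law G) (A : ℕ)
    (hT : ∀ s : Stair, ∀ᵐ ω ∂PP G, NoTriple s A ω) (s : Stair) :
    ∀ᵐ ω ∂PP G, OrdP s A ω := by
  haveI := hG.prob
  filter_upwards [hT s, ae_act G (rx 1) (hT s.negx), ae_nice hG] with ω h1 h2 hN
    R Λ K y y' l r l' r' h h' hy
  rcases ord0 h.hl h.hr h'.hl h'.hr h.quasi h'.quasi with h3 | h3 | h3 | h3
  · exact Or.inl h3
  · exact Or.inr h3
  · rcases far_sep hN h h' hy with h4 | h4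
    · exact absurd h4 (mirror_Ord h2 h.hl h'.hl h'.hr h3 h'.quasi)
    · exact absurd h4 (h1 _ _ _ h.hl h.hr h'.hr h.quasi h3)
  · rcases far_sep hN h h' hy with h4 | h4
    · exact absurd h4 (mirror_Ord h2 h.hl h'.hl h.hr h.quasi h3)
    · exact absurd h4 (h1 _ _ _ h'.hl h.hr h'.hr h3 h'.quasi)

end P158.Gen
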