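import Vale.Agent.P158.GBase
import Vale.Agent.P158.GSA
import Vale.Agent.P158.Max

open scoped NNReal ENNReal
open MeasureTheory Filter Topology

namespace P158.Gen

/-! Almost sure form, for both half-planes. -/

/-- Two-sided initial sums. -/
noncomputable def cumSB (x : ℤ → ℝ) (j : ℤ) : ℝ :=
  ∑ k ∈ Finset.range j.toNat, x k - ∑ k ∈ Finset.range (-j).toNat, x (-(k + 1))

theorem cumSB_succ (x : ℤ → ℝ) (j : ℤ) : cumSB x (j + 1) = cumSB x j + x j := by
  rcases le_or_gt 0 j with h | h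
  · obtain ⟨n, rfl⟩ := Int.eq_ofNat_of_zero_le h
    have e1 : ((n : ℤ) + 1).toNat = n + 1 := by omega
    have e2 : (-((n : ℤ) + 1)).toNat = 0 := by omega
    have e3 : (-(n : ℤ)).toNat = 0 := by omega
    simp only [cumSB, e1, e2, e3, Int.toNat_natCast, Finset.sum_range_succ]
    ring
  · obtain ⟨n, rfl⟩ : ∃ n : ℕ, j = -((n : ℤ) + 1) := ⟨(-j - 1).toNat, by omega⟩
    have e1 : (-((n : ℤ) + 1) + 1).toNat = 0 := by omega
    have e2 : (-(-((n : ℤ) + 1) + 1)).toNat = n := by omega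
    have e3 : (-((n : ℤ) + 1)).toNat = 0 := by omega
    have e4 : (-(-((n : ℤ) + 1))).toNat = n + 1 := by omega
    simp only [cumSB, e1, e2, e3, e4, Finset.sum_range_succ]
    ring

theorem cumSB_abs {x : ℤ → ℝ} (h0 : ∀ j, 0 ≤ x j) {A : ℝ}
    (h1 : ∀ n : ℕ, ∑ k ∈ Finset.range n, x k ≤ A * n)
    (h2 : ∀ n : ℕ, ∑ k ∈ Finset.range n, x (-(k + 1)) ≤ A * n) (j : ℤ) :
    |cumSB x j| ≤ A * |(j : ℝ)| := by
  obtain ⟨n, rfl | rfl⟩ := j.eq_nat_or_neg
  · have e : (-(n : ℤ)).toNat = 0 := by omega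
    simp only [cumSB, e, Int.toNat_natCast, Finset.sum_range_zero, sub_zero, Int.cast_natCast,
      Nat.abs_cast]
    rw [abs_of_nonneg (Finset.sum_nonneg fun k _ => h0 _)]
    exact h1 n
  · have e : (-(n : ℤ)).toNat = 0 := by omega
    simp only [cumSB, e, neg_neg, Int.toNat_natCast, Finset.sum_range_zero, zero_sub, abs_neg,
      Int.cast_neg, Int.cast_natCast, Nat.abs_cast]
    rw [abs_of_nonneg (Finset.sum_nonneg fun k _ => h0 _)]
    exact h2 n

theorem tele_SB {t : ℤ → ℤ → ℝ} (tri : ∀ a b c, t a c ≤ t a b + t b c) (t0 : ∀ a, t a a = 0)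
    {N : ℤ} (hN : 0 ≤ N) {x : ℤ → ℝ} {b : ℤ}
    (hx : ∀ j, (j + 1) * N ≤ b → t (j * N) ((j + 1) * N) - x j ≤ t (j * N) b - t ((j + 1) * N) b)
    {α β : ℤ} (h : α ≤ β) : β * N ≤ b →
      t (α * N) (β * N) - (cumSB x β - cumSB x α) ≤ t (α * N) b - t (β * N) b := by
  induction β, h using Int.le_induction with
  | base => intro _; simp [t0]
  | succ β _ ih =>
    intro hb
    have h1 := ih (by nlinarith)
    have h2 := hx β hb
    have h3 := tri (α * N) (β * N) ((β + 1) * N)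
    rw [cumSB_succ]
    linarith

theorem div_SB (a : ℤ) {N M : ℤ} (hM : 1 ≤ M) (hN : M ≤ N) :
    |((a / N : ℤ) : ℝ)| * M ≤ |(a : ℝ)| + M ∧ |((a / N : ℤ) : ℝ)| ≤ |(a : ℝ)| := by
  have h1 := Int.mul_ediv_add_emod a N
  have h2 := Int.emod_nonneg a (by omega : N ≠ 0)
  have h3 := Int.emod_lt_of_pos a (by omega : 0 < N)
  have h4 : |a / N| * M ≤ |a| + M ∧ |a / N| ≤ |a| := by
    rcases le_or_gt 0 (a / N) with h | h
    · have : 0 ≤ a := by nlinarith
      rw [abs_of_nonneg h, abs_of_nonneg this]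
      constructor <;> nlinarith
    · have : a < 0 := by nlinarith
      rw [abs_of_neg h, abs_of_neg this]
      constructor <;> nlinarith
  exact ⟨by exact_mod_cast h4.1, by exact_mod_cast h4.2⟩

theorem det_SB {t : ℤ → ℤ → ℝ} (tri : ∀ a b c, t a c ≤ t a b + t b c) (t0 : ∀ a, t a a = 0)
    (tc : ∀ a b, t a b = t b a) {N M : ℤ} (hM : 1 ≤ M) (hN : M ≤ N) {x ρ : ℤ → ℝ} {ε Q : ℝ}
    (hε : 0 < ε)
    (hx : ∀ j b, (j + 1) * N ≤ b →
      t (j * N) ((j + 1) * N) - x j ≤ t (j * N) b - t ((j + 1) * N) b)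
    (hc : ∀ j : ℤ, |cumSB x j| ≤ ε * M * |(j : ℝ)|)
    (hρ : ∀ j i, 0 ≤ i → i < N → t (j * N) (j * N + i) ≤ ρ j)
    (hQ : ∀ j : ℤ, ρ j ≤ ε * |(j : ℝ)| + Q) {a u b : ℤ} (hau : a ≤ u) (hub : u ≤ b) :
    t a u - 3 * ε * (|(a : ℝ)| + |(u : ℝ)|) - (2 * ε * M + 4 * Q) ≤ t a b - t u b := by
  have hN0 : 0 < N := by omega
  have ha := Int.mul_ediv_add_emod a N
  have hu := Int.mul_ediv_add_emod u N
  have h1 := tele_SB tri t0 hN0.le (hx · b) (Int.ediv_le_ediv hN0 hau)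
    (by have := Int.emod_nonneg u hN0.ne'; linarith)
  have r1 := hρ (a / N) (a % N) (Int.emod_nonneg a hN0.ne') (Int.emod_lt_of_pos a hN0)
  have r2 := hρ (u / N) (u % N) (Int.emod_nonneg u hN0.ne') (Int.emod_lt_of_pos u hN0)
  rw [show a / N * N + a % N = a by linarith] at r1
  rw [show u / N * N + u % N = u by linarith] at r2
  have q1 := hQ (a / N)
  have q2 := hQ (u / N)
  have c1 := abs_le.1 (hc (a / N))
  have c2 := abs_le.1 (hc (u / N))
  obtain ⟨d1, d2⟩ := div_SB a hM hN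
  obtain ⟨d3, d4⟩ := div_SB u hM hN
  have e1 := mul_le_mul_of_nonneg_left d1 hε.le
  have e2 := mul_le_mul_of_nonneg_left d2 hε.le
  have e3 := mul_le_mul_of_nonneg_left d3 hε.le
  have e4 := mul_le_mul_of_nonneg_left d4 hε.le
  have t1 := tri (a / N * N) a b
  have t2 := tri u (u / N * N) b
  have t3 := tri a (a / N * N) u
  have t4 := tri (a / N * N) (u / N * N) u
  rw [tc u (u / N * N)] at t2
  rw [tc a (a / N * N)] at t3
  nlinarith

theorem iter_SB (s : Stair) (m : ℤ) (ω : Env) (k : ℕ) :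
    (act (tr (sh s 0 m)))^[k] ω = act (tr (sh s 0 (k * m))) ω := by
  induction k with
  | zero =>
    have : sh s 0 (((0 : ℕ) : ℤ) * m) = 0 := by simp [sh]
    rw [this, act_tr_zero]
    rfl
  | succ k ih =>
    rw [Function.iterate_succ_apply', ih, act_tr_add, sh_add]
    congr 3
    push_cast; ring

theorem whp_SB {G : Mdl} (hG : Law G) (s : Stair) {ε δ : ℝ} (hε : 0 < ε) (hδ : 0 < δ) :
    (PP G).real {ω | ¬ ∃ Q : ℝ, ∀ a u b : ℤ, a ≤ u → u ≤ b →
      T ω (pt s 0 a) (pt s 0 u) - 3 * ε * ((|a| + |u| : ℤ) : ℝ) - Q ≤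
        TS ω (HGe s 0) (pt s 0 a) (pt s 0 b) - TS ω (HGe s 0) (pt s 0 u) (pt s 0 b)} ≤ 2 * δ := by
  haveI := hG.prob
  obtain ⟨M, ξ, hM, hm, h0, hi, hE, hξ⟩ := sA hG s (mul_pos hε hδ)
  have hM' : (0 : ℝ) < M := by exact_mod_cast hM
  have hA : 0 < ε * M := mul_pos hε hM'
  have hp : ∀ j, MeasurePreserving (act (tr (sh s 0 j))) (PP G) (PP G) := fun j =>
    measurePreserving_act G _
  have hdiv : (∫ ω, ξ ω ∂PP G) / (ε * M) ≤ δ := by
    rw [div_le_iff₀ hA]; linarith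
  have m1 := (maximal (PP G) (hp M) hm h0 hi hA).trans hdiv
  have m2 := maximal (PP G) (hp (-M)) (hm.comp (hp (-M)).measurable) (fun ω => h0 _)
    ((hp (-M)).integrable_comp_of_integrable hi) hA
  have e : ∫ ω, (ξ ∘ act (tr (sh s 0 (-M)))) ω ∂PP G = ∫ ω, ξ ω ∂PP G := by
    simp only [Function.comp]
    rw [← integral_map (hp (-M)).aemeasurable hm.aestronglyMeasurable, (hp (-M)).map_eq]
  rw [e] at m2
  have m3 := m2.trans hdiv
  let ρ : Env → ℝ := fun ω =>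
    ∑ i ∈ Finset.range (M * s.q), TS ω (HGe s 0) (pt s 0 0) (pt s 0 i)
  have hs := sublinear (PP G) (θ := fun j => act (tr (sh s 0 (j * M)))) (fun j => hp _) (ξ := ρ)
    (Finset.measurable_sum _ fun i _ => measurable_TS _ _ _)
    (integrable_finset_sum _ fun i _ => integrable_TS hG (conn_SA s 0 i))
  refine le_trans (ENNReal.toReal_mono (measure_ne_top _ _) (measure_mono_ae ?_))
    ((measureReal_union_le _ _).trans ((add_le_add m1 m3).trans_eq (two_mul δ).symm))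
  filter_upwards [hs] with ω hs hω
  by_contra hc
  apply hω
  obtain ⟨hc1, hc2⟩ := not_or.1 hc
  obtain ⟨Q, hQ⟩ := hs ε hε
  refine ⟨2 * ε * (M : ℤ) + 4 * Q, fun a u b hau hub => ?_⟩
  have hq : (1 : ℤ) ≤ s.q := by exact_mod_cast s.hq
  have hMz : (1 : ℤ) ≤ M := by exact_mod_cast hM
  have key := det_SB (t := fun a b => TS ω (HGe s 0) (pt s 0 a) (pt s 0 b))
    (fun a b c => TS_tri ω (conn_SA s a b) (conn_SA s b c))
    (fun a => TS_self ω (by simp [HGe])) (fun a b => TS_comm ω _ _ _) (N := M * s.q) hMz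
    (by nlinarith) (x := fun j => ξ (act (tr (sh s 0 (j * M))) ω))
    (ρ := fun j => ρ (act (tr (sh s 0 (j * M))) ω)) hε ?_ ?_ ?_ hQ hau hub
  · have := T_le_TS ω (conn_SA s a u)
    push_cast at key ⊢
    linarith
  · intro j b hb
    have := hξ (act (tr (sh s 0 (j * M))) ω) (b - j * M * s.q) (by linarith)
    simp only [TS_sh_SA] at this
    rw [zero_add, sub_add_cancel, show (M : ℤ) * s.q + j * M * s.q = (j + 1) * (M * s.q) by ring,
      mul_assoc] at this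
    exact this
  · refine cumSB_abs (fun j => h0 _) (fun n => ?_) (fun n => ?_)
    · refine le_of_not_gt fun h => hc1 ⟨n, ?_⟩
      simp only [iter_SB]
      exact_mod_cast h
    · refine le_of_not_gt fun h => hc2 ⟨n, ?_⟩
      simp only [iter_SB, Function.comp, act_tr_add, sh_add]
      refine lt_of_lt_of_eq (by exact_mod_cast h) (Finset.sum_congr rfl fun k _ => ?_)
      rw [show -(M : ℤ) + k * -(M : ℤ) = -((k : ℤ) + 1) * M by ring, add_zero]
      push_cast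
      rfl
  · intro j i hi0 hi
    obtain ⟨n, rfl⟩ := Int.eq_ofNat_of_zero_le hi0
    have hn : n ∈ Finset.range (M * s.q) := Finset.mem_range.2 (by exact_mod_cast hi)
    refine le_trans (le_of_eq ?_) (Finset.single_le_sum
      (f := fun i : ℕ => TS (act (tr (sh s 0 (j * M))) ω) (HGe s 0) (pt s 0 0) (pt s 0 i))
      (fun i _ => TS_nonneg _ _ _ _) hn)
    simp only [TS_sh_SA]
    rw [zero_add, mul_assoc, add_comm]

theorem right_SB {G : Mdl} (hG : Law G) (s : Stair) :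
    ∀ᵐ ω ∂PP G, SP s (HGe s 0) ω := by
  haveI := hG.prob
  have h1 : ∀ m : ℕ, ∀ᵐ ω ∂PP G, ∃ Q : ℝ, ∀ a u b : ℤ, a ≤ u → u ≤ b →
      T ω (pt s 0 a) (pt s 0 u) - 3 * (1 / ((m : ℝ) + 1)) * ((|a| + |u| : ℤ) : ℝ) - Q ≤
        TS ω (HGe s 0) (pt s 0 a) (pt s 0 b) - TS ω (HGe s 0) (pt s 0 u) (pt s 0 b) := by
    intro m
    rw [ae_iff, ← measureReal_eq_zero_iff]
    refine le_antisymm (le_of_forall_pos_le_add fun δ hδ => ?_) measureReal_nonneg
    have := whp_SB hG s (Nat.one_div_pos_of_nat (n := m)) (half_pos hδ)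
    linarith
  filter_upwards [ae_all_iff.2 h1] with ω h ε hε
  obtain ⟨m, hm⟩ := exists_nat_one_div_lt (div_pos hε three_pos)
  obtain ⟨Q, hQ⟩ := h m
  refine ⟨Q, fun a u b hau hub => le_trans ?_ (hQ a u b hau hub)⟩
  have h2 : (0 : ℝ) ≤ ((|a| + |u| : ℤ) : ℝ) := by positivity
  nlinarith

theorem sB {G : Mdl} (hG : Law G) (s : Stair) :
    ∀ᵐ ω ∂PP G, SP s (HGe s 0) ω ∧ SP s (HLe s 0) ω := by
  haveI := hG.prob
  filter_upwards [right_SB hG s, ae_act G (rx 0) (right_SB hG s.negx)] with ω h1 h2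
  refine ⟨h1, fun ε hε => ?_⟩
  obtain ⟨Q, hQ⟩ := h2 ε hε
  refine ⟨Q, fun a u b hau hub => ?_⟩
  have := hQ a u b hau hub
  have hS : ∀ v, v ∈ HGe s.negx 0 ↔ rx 0 v ∈ HLe s 0 := fun v => by
    simp only [HGe, HLe, Set.mem_setOf_eq, X_rx]
    omega
  rw [T_act, TS_act _ _ hS, TS_act _ _ hS] at this
  simpa only [pt_rx, sub_zero] using this

end P158.Gen
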