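import Vale.Agent.P158.GBase
import Vale.Agent.P158.FinA
import Vale.Agent.P158.FinB
import Vale.Agent.P158.Geo
import Vale.Agent.P158.F1
import Vale.Agent.P158.GSB
import Vale.Agent.P158.GMainA
import Vale.Agent.P158.GMainB
import Vale.Agent.P158.GOrd
import Vale.Agent.P158.GN1b
import Vale.Agent.P158.GNcP

open scoped NNReal ENNReal
open MeasureTheory Filter Topology

namespace P158.Gen

/-! Assembly. -/

/-- No quasi-bigeodesic crosses a staircase cut inside cones. -/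
theorem no_quasi {G : Mdl} (hG : Law G) (s : Stair) (A : ℕ) :
    ∀ᵐ ω ∂PP G, ∀ l r, RayL s A ω l → RayR s A ω r → ¬ Quasi ω l r :=
  mainB hG s A fun R Λ K => mainA hG s A
    (ord hG A (fun s' => n1b hG s' A fun R K n => ncP hG s' A R K (by positivity)) s) R Λ K

theorem ae_good {G : Mdl} (hG : Law G) : ∃ δ : ℝ, 0 < δ ∧ ∀ᵐ ω ∂PP G, Good δ ω := by
  obtain ⟨c, hc, hlow⟩ := low hG
  obtain ⟨C, hC, hloop⟩ := loop hG
  obtain ⟨δ, hδ, h⟩ := f1 hc hC
  refine ⟨δ, hδ, ?_⟩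
  have h1 := ae_of_whp (PP G) (fun ε Q ω => LowP c ε Q ω) (fun ε ε' Q ω hε hP v w => by
    have h0 : (0 : ℝ) ≤ (nrm v : ℝ) := by unfold nrm; positivity
    have := hP v w
    nlinarith) hlow
  have h2 := ae_of_whp (PP G) (fun ε Q ω => LoopP C ε Q ω) (fun ε ε' Q ω hε hP v n hn => by
    have h0 : (0 : ℝ) ≤ (nrm v : ℝ) := by unfold nrm; positivity
    exact hP v n (by nlinarith)) hloop
  have h3 := ae_all_iff.2 fun s : Stair => sB hG s
  filter_upwards [h1, h2, h3] with ω a b c' using h ω a b c'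

theorem no_bi {G : Mdl} (hG : Law G) : ∀ᵐ ω ∂PP G, ∀ l r, ¬ Bi ω l r := by
  haveI := hG.prob
  obtain ⟨δ, hδ, hg⟩ := ae_good hG
  have hq := ae_all_iff.2 fun s : Stair => ae_all_iff.2 fun A : ℕ => no_quasi hG s A
  filter_upwards [hg, ae_act G SimpleGraph.Iso.refl hg, ae_act G ry hg, ae_act G sw hg,
    ae_act G (ry.trans sw) hg, ae_act G SimpleGraph.Iso.refl hq, ae_act G sw hq]
    with ω g0 g1 g2 g3 g4 q1 q2 l r hB
  have hσ : ∀ σ : Zd ≃g Zd, (σ = SimpleGraph.Iso.refl ∨ σ = ry ∨ σ = sw ∨ σ = ry.trans sw) →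
      Good δ (act σ ω) := by
    rintro σ (rfl | rfl | rfl | rfl) <;> assumption
  obtain ⟨α, β, a, ha, hsep⟩ := geo hB.hl.inj hB.hr.inj hB.hl.adj hB.hr.adj hδ
    (fun e he hv => finA hσ hB e he hv) (fun e he hv => finA hσ hB.symm e he hv) (g0 l r hB).1
  obtain ⟨σ, p, q, hq0, hp, A, l', r', hs, hl', hr', hQ⟩ := finB hB ha hsep
  rcases hs with rfl | rfl
  exacts [q1 _ A l' r' hl' hr' hQ, q2 _ A l' r' hl' hr' hQ]

theorem no_bigeodesic {G : Mdl} (hG : Law G) :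
    ∀ᵐ ω ∂PP G, ¬ ∃ v, IsBigeodesic ω v := by
  haveI := hG.prob
  filter_upwards [ae_all_iff.2 fun a : V => ae_act G (tr a) (no_bi hG)] with ω h
  rintro ⟨v, hv⟩
  exact h (v 0) _ _ (bi_of_bigeodesic hv)

end P158.Gen
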