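import Vale.Agent.P158.ClT

open scoped NNReal ENNReal
open MeasureTheory Filter Topology

namespace P158

/-! Cheap rectangles in the truncated environment. -/

theorem measurableSet_LoopP (C ε : ℝ) (Q : ℕ) : MeasurableSet {ω | LoopP C ε Q ω} := by
  unfold LoopP
  rw [measurableSet_setOf]
  refine Measurable.forall fun v => Measurable.forall fun n => Measurable.imp measurable_const ?_
  refine Measurable.exists fun x₁ => Measurable.exists fun x₂ => Measurable.exists fun y₁ =>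
    Measurable.exists fun y₂ => ?_
  refine measurable_const.and (measurable_const.and (measurable_const.and (measurable_const.and
    (measurable_const.and (measurable_const.and (measurable_const.and (measurable_const.and
      ?_)))))))
  refine Measurable.forall fun b => Measurable.imp measurable_const <|
    Measurable.forall fun b' => Measurable.imp measurable_const ?_
  exact measurableSet_setOf.1 (measurableSet_le (measurable_T b b') measurable_const)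

/-- The environment restricted to the band `i`. -/
def res_LoopH (β : E → ℤ) (i : ℤ) (ω : Env) : Env := fun e => if β e = i then ω e else 0

theorem res_le_LoopH (β : E → ℤ) (i : ℤ) (ω : Env) (e : E) : res_LoopH β i ω e ≤ ω e := by
  unfold res_LoopH
  split_ifs
  · exact le_rfl
  · exact zero_le

theorem indep_aux_LoopH (G : Measure ℝ≥0) [IsProbabilityMeasure G] (β : E → ℤ)
    (A : ℤ → Set Env) (hA : ∀ i, MeasurableSet (A i)) : ∃ q : ℤ → ℝ≥0∞, ∀ s : Finset ℤ,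
      PP G {ω | ∀ i ∈ s, res_LoopH β i ω ∈ A i} = ∏ i ∈ s, q i := by
  have hinj : Function.Injective (fun p : (i : ℤ) × {e : E // β e = i} => p.2.1) :=
    (Equiv.sigmaFiberEquiv β).injective
  have h1 := Measure.map_infinitePi_infinitePi_of_inj (P := fun _ : E => G) hinj
  have h2 := Measure.infinitePi_map_piCurry (ι := ℤ) (κ := fun i => {e : E // β e = i})
    (X := fun _ _ => ℝ≥0) (fun _ _ => G)
  have hext : ∀ i : ℤ, Measurable fun (u : {e : E // β e = i} → ℝ≥0) (e : E) =>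
      if h : β e = i then u ⟨e, h⟩ else 0 := by
    intro i
    refine measurable_pi_lambda _ fun e => ?_
    split_ifs
    · exact measurable_pi_apply _
    · exact measurable_const
  refine ⟨fun i => Measure.infinitePi (fun _ : {e : E // β e = i} => G)
    ((fun (u : {e : E // β e = i} → ℝ≥0) (e : E) =>
      if h : β e = i then u ⟨e, h⟩ else 0) ⁻¹' A i), fun s => ?_⟩
  have h3 := Measure.infinitePi_pi
    (μ := fun i : ℤ => Measure.infinitePi (fun _ : {e : E // β e = i} => G))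
    (s := s) (t := fun i => (fun (u : {e : E // β e = i} → ℝ≥0) (e : E) =>
      if h : β e = i then u ⟨e, h⟩ else 0) ⁻¹' A i) (fun i _ => hext i (hA i))
  have hpi := MeasurableSet.pi (s := (s : Set ℤ))
    (t := fun i => (fun (u : {e : E // β e = i} → ℝ≥0) (e : E) =>
      if h : β e = i then u ⟨e, h⟩ else 0) ⁻¹' A i) (Finset.countable_toSet _)
      (fun i _ => hext i (hA i))
  rw [← h2, ← h1, Measure.map_apply (MeasurableEquiv.measurable _) hpi,
    Measure.map_apply (by fun_prop) (MeasurableEquiv.measurable _ hpi)] at h3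
  rw [← h3]
  rfl

theorem indep_LoopH (G : Measure ℝ≥0) [IsProbabilityMeasure G] (β : E → ℤ)
    (A : ℤ → Set Env) (hA : ∀ i, MeasurableSet (A i)) (s : Finset ℤ)
    (h : ∀ i ∈ s, PP G {ω | res_LoopH β i ω ∈ A i} ≤ 1 / 2) :
    PP G {ω | ∀ i ∈ s, res_LoopH β i ω ∈ A i} ≤ (1 / 2) ^ s.card := by
  obtain ⟨q, hq⟩ := indep_aux_LoopH G β A hA
  rw [hq, ← Finset.prod_const]
  refine Finset.prod_le_prod' fun i hi => ?_
  have := hq {i}
  simp only [Finset.mem_singleton, forall_eq, Finset.prod_singleton] at this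
  rw [← this]
  exact h i hi

theorem tau_mono_LoopH {ω ω' : Env} (h : ∀ e, ω' e ≤ ω e) (e : Sym2 V) : tau ω' e ≤ tau ω e := by
  unfold tau
  split_ifs
  · exact_mod_cast h _
  · exact le_rfl

theorem Cl_mono_LoopH {M : ℕ} {ω ω' : Env} (h : ∀ e, ω' e ≤ ω e) (v : V) :
    Cl M ω' v ⊆ Cl M ω v := by
  intro w hw
  refine Conn.mono hw ?_
  rintro u ⟨z, hz, hM⟩
  exact ⟨z, hz, hM.trans_le (tau_mono_LoopH h _)⟩

theorem Cl_res_LoopH {M : ℕ} {ω : Env} {β : E → ℤ} {i : ℤ} {v : V}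
    (h : ∀ u ∈ Cl M ω v, ∀ e : E, u ∈ e.1 → β e = i) :
    Cl M (res_LoopH β i ω) v = Cl M ω v := by
  classical
  refine Set.Subset.antisymm (Cl_mono_LoopH (res_le_LoopH β i ω) v) ?_
  rintro w ⟨p, hp⟩
  refine ⟨p, fun u hu => ?_⟩
  have hu' : u ∈ Cl M ω v :=
    ⟨p.takeUntil u hu, fun x hx => hp x (p.support_takeUntil_subset_support hu hx)⟩
  obtain ⟨z, hz, hM⟩ := hp u hu
  refine ⟨z, hz, ?_⟩
  have e1 := tau_edge ω ⟨s(u, z), hz⟩
  have e2 := tau_edge (res_LoopH β i ω) ⟨s(u, z), hz⟩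
  have e3 : β ⟨s(u, z), hz⟩ = i := h u hu' _ (Sym2.mem_mk_left u z)
  simp only [res_LoopH, e3, if_true] at e2
  simp only at e1
  rw [e2, ← e1]
  exact hM

theorem trunc_res_LoopH {M : ℕ} {ω : Env} {β : E → ℤ} {i : ℤ} {e : E} (he : β e = i)
    (h : ∀ v ∈ e.1, ∀ u ∈ Cl M ω v, ∀ e' : E, u ∈ e'.1 → β e' = i) :
    trunc M (res_LoopH β i ω) e = trunc M ω e := by
  have h1 : clE M (res_LoopH β i ω) e = clE M ω e := by
    ext w
    constructor
    · rintro ⟨v, hv, hw⟩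
      exact ⟨v, hv, Cl_res_LoopH (h v hv) ▸ hw⟩
    · rintro ⟨v, hv, hw⟩
      exact ⟨v, hv, (Cl_res_LoopH (h v hv)).symm ▸ hw⟩
  simp only [trunc, cap, h1]
  simp only [res_LoopH, he, if_true]

theorem squash_mono_LoopH {L L' : ℝ} (h : L ≤ L') (t : ℝ) : squash L t ≤ squash L' t := by
  unfold squash
  split_ifs with h1 h2 h2
  · exact le_rfl
  · linarith
  · have : (t - L) / (1 + (t - L)) ≤ t - L := by
      rw [div_le_iff₀ (by linarith)]
      nlinarith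
    linarith
  · have a1 : 0 < t - L' := by linarith
    have a2 : (t - L) / (1 + (t - L)) - (t - L') / (1 + (t - L')) ≤ L' - L := by
      rw [div_sub_div _ _ (by linarith) (by linarith), div_le_iff₀ (by nlinarith)]
      have b1 : 0 ≤ (L' - L) * ((t - L) + (t - L') + (t - L) * (t - L')) := by
        apply mul_nonneg (by linarith)
        nlinarith
      nlinarith
    linarith

theorem trunc_mono_LoopH {M : ℕ} {ω ω' : Env} (h : ∀ e, ω' e ≤ ω e)
    (hf : ∀ v, (Cl M ω v).Finite) (e : E) : (trunc M ω' e : ℝ) ≤ trunc M ω e := by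
  have hfin : (clE M ω e).Finite := by
    obtain ⟨e, he⟩ := e
    induction e using Sym2.ind with
    | _ x y =>
      refine ((hf x).union (hf y)).subset ?_
      rintro w ⟨v, hv, hw⟩
      rcases Sym2.mem_iff.1 hv with rfl | rfl
      · exact Or.inl hw
      · exact Or.inr hw
  have h1 : (clE M ω' e).ncard ≤ (clE M ω e).ncard := by
    refine Set.ncard_le_ncard ?_ hfin
    rintro w ⟨v, hv, hw⟩
    exact ⟨v, hv, Cl_mono_LoopH h v hw⟩
  have h2 : cap M ω' e ≤ cap M ω e := by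
    unfold cap
    have : ((clE M ω' e).ncard : ℝ) ≤ (clE M ω e).ncard := by exact_mod_cast h1
    gcongr
  rw [trunc_coe, trunc_coe]
  exact (squash_mono_LoopH h2 _).trans
    ((squash_strictMono _).monotone (by exact_mod_cast h e))

theorem markov_LoopH {G : Measure ℝ≥0} {M : ℕ} (hG : Law0 G M) {m : ℝ} (hm0 : 0 ≤ m)
    (hm : ∀ e : Sym2 V, Integrable (fun ω => tau (trunc M ω) e) (PP G) ∧
      ∫ ω, tau (trunc M ω) e ∂PP G ≤ m) (g : ℕ → E) (n : ℕ) :
    PP G {ω | 8 * n * m + 1 ≤ ∑ k ∈ Finset.range (4 * n), (trunc M ω (g k) : ℝ)} ≤ 1 / 2 := by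
  haveI := hG.prob
  have hi : ∀ e : E, Integrable (fun ω => (trunc M ω e : ℝ)) (PP G) := fun e => by
    simpa only [tau_edge] using (hm e.1).1
  have he : ∀ e : E, ∫ ω, (trunc M ω e : ℝ) ∂PP G ≤ m := fun e => by
    simpa only [tau_edge] using (hm e.1).2
  have h := mul_meas_ge_le_integral_of_nonneg (μ := PP G)
    (f := fun ω => ∑ k ∈ Finset.range (4 * n), (trunc M ω (g k) : ℝ))
    (Eventually.of_forall fun u => Finset.sum_nonneg fun k _ => NNReal.coe_nonneg _)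
    (integrable_finset_sum _ fun k _ => hi _) (8 * n * m + 1)
  rw [integral_finset_sum _ fun k _ => hi _] at h
  have h1 := Finset.sum_le_sum (s := Finset.range (4 * n)) fun k _ => he (g k)
  simp only [Finset.sum_const, Finset.card_range, nsmul_eq_mul] at h1
  push_cast at h1
  have h2 : (PP G).real {ω | 8 * n * m + 1 ≤
      ∑ k ∈ Finset.range (4 * n), (trunc M ω (g k) : ℝ)} ≤ 1 / 2 := by
    by_contra hlt
    push Not at hlt
    have : (0 : ℝ) ≤ n * m := by positivity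
    nlinarith
  rw [← ofReal_measureReal]
  refine (ENNReal.ofReal_le_ofReal h2).trans ?_
  rw [ENNReal.ofReal_div_of_pos (by norm_num)]
  simp

/-- A cluster at an end of the edge is large. -/
def Big_LoopH (M s : ℕ) (e : E) : Set Env :=
  {ω | ∃ v ∈ e.1, ∃ w ∈ Cl M ω v, (s : ℤ) ≤ nrm (w - v)}

theorem prob_Big_LoopH {G : Measure ℝ≥0} {M : ℕ} (hG : Law0 G M) (s : ℕ) (e : E) :
    PP G (Big_LoopH M s e) ≤ 2 * (1 / 2) ^ s := by
  obtain ⟨e, he⟩ := e
  induction e using Sym2.ind with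
  | _ x y =>
    rw [two_mul]
    refine le_trans (measure_mono ?_) ((measure_union_le _ _).trans
      (add_le_add (clT hG x s) (clT hG y s)))
    rintro ω ⟨v, hv, hw⟩
    rcases Sym2.mem_iff.1 hv with rfl | rfl
    · exact Or.inl hw
    · exact Or.inr hw

/-- The smaller value of `ρ` at the ends of an edge. -/
def low_LoopH (ρ : V → ℤ) (e : E) : ℤ :=
  Sym2.lift ⟨fun a b => min (ρ a) (ρ b), fun _ _ => min_comm _ _⟩ e.1

theorem low_bd_LoopH {ρ : V → ℤ} (hρ : ∀ u v, |ρ u - ρ v| ≤ nrm (u - v)) (e : E) {u : V}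
    (hu : u ∈ e.1) : ρ u - 1 ≤ low_LoopH ρ e ∧ low_LoopH ρ e ≤ ρ u := by
  obtain ⟨e, he⟩ := e
  obtain ⟨w, rfl⟩ := Sym2.mem_iff_exists.1 hu
  have h1 : |u.1 - w.1| + |u.2 - w.2| = 1 := he
  have h2 := hρ u w
  simp only [nrm, Prod.fst_sub, Prod.snd_sub, h1] at h2
  rw [abs_le] at h2
  simp only [low_LoopH, Sym2.lift_mk]
  omega

/-- All the `n` parallel segments are expensive. -/
def Bad_LoopH (m : ℝ) (g : ℤ × ℤ → E) (y₀ a : ℤ) (n : ℕ) : Set Env :=
  {ω | ∀ y ∈ Finset.Ico y₀ (y₀ + n),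
    8 * n * m + 1 ≤ ∑ k ∈ Finset.range (4 * n), (ω (g (y, a + k)) : ℝ)}

theorem prob_Bad_LoopH {G : Measure ℝ≥0} {M : ℕ} (hG : Law0 G M) {m : ℝ} (hm0 : 0 ≤ m)
    (hm : ∀ e : Sym2 V, Integrable (fun ω => tau (trunc M ω) e) (PP G) ∧
      ∫ ω, tau (trunc M ω) e ∂PP G ≤ m) {ρ : V → ℤ} (hρ : ∀ u v, |ρ u - ρ v| ≤ nrm (u - v))
    {g : ℤ × ℤ → E} (hg : ∀ z, ∀ v ∈ (g z).1, ρ v = z.1) (y₀ a : ℤ) (n s : ℕ)
    (hs : s * (2 * s + 1) ≤ n) :
    PP G (trunc M ⁻¹' Bad_LoopH m g y₀ a n) ≤ (1 + 8 * n * n : ℕ) * (1 / 2) ^ s := by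
  haveI := hG.prob
  obtain ⟨β, hβ⟩ : ∃ β : E → ℤ, β = fun e => (low_LoopH ρ e - y₀ + s) / (2 * s + 1) := ⟨_, rfl⟩
  have hβi : ∀ (i : ℤ) (u : V) (e : E), u ∈ e.1 → |ρ u - (y₀ + i * (2 * s + 1))| < s →
      β e = i := by
    intro i u e hu h
    obtain ⟨h1, h2⟩ := low_bd_LoopH hρ e hu
    rw [abs_lt] at h
    rw [hβ]
    have hpos : (0 : ℤ) < 2 * s + 1 := by positivity
    refine le_antisymm ?_ ?_
    · have : (low_LoopH ρ e - y₀ + s) / (2 * s + 1) < i + 1 := by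
        rw [Int.ediv_lt_iff_lt_mul hpos]
        linarith
      simp only
      omega
    · simp only
      rw [Int.le_ediv_iff_mul_le hpos]
      linarith
  obtain ⟨A, hA⟩ : ∃ A : ℤ → Set Env, A = fun i => {ω | 8 * n * m + 1 ≤
      ∑ k ∈ Finset.range (4 * n), (trunc M ω (g (y₀ + i * (2 * s + 1), a + k)) : ℝ)} := ⟨_, rfl⟩
  have hAm : ∀ i, MeasurableSet (A i) := by
    intro i
    rw [hA]
    refine measurableSet_le measurable_const (Finset.measurable_sum _ fun k _ => ?_)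
    exact ((measurable_pi_apply _).comp (measurable_trunc M)).coe_nnreal_real
  have h1 := indep_LoopH G β A hAm (Finset.Ico 0 (s : ℤ)) (by
    intro i _
    refine le_trans (measure_mono_ae ?_)
      (markov_LoopH hG hm0 hm (fun k => g (y₀ + i * (2 * s + 1), a + k)) n)
    filter_upwards [ae_finite_Cl hG] with ω hω h
    rw [hA] at h
    exact le_trans h (Finset.sum_le_sum fun k _ =>
      trunc_mono_LoopH (res_le_LoopH β i ω) hω _))
  have hc : (Finset.Ico (0 : ℤ) s).card = s := by simp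
  rw [hc] at h1
  have hsub : trunc M ⁻¹' Bad_LoopH m g y₀ a n ⊆
      {ω | ∀ i ∈ Finset.Ico (0 : ℤ) s, res_LoopH β i ω ∈ A i} ∪
      ⋃ i ∈ Finset.Ico (0 : ℤ) s, ⋃ k ∈ Finset.range (4 * n),
        Big_LoopH M s (g (y₀ + i * (2 * s + 1), a + k)) := by
    intro ω hω
    by_contra hcon
    rw [Set.mem_union, not_or] at hcon
    obtain ⟨hc1, hc2⟩ := hcon
    apply hc1
    intro i hi
    have hi' := Finset.mem_Ico.1 hi
    have hs' : (s : ℤ) * (2 * s + 1) ≤ n := by exact_mod_cast hs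
    have hrow : y₀ + i * (2 * s + 1) ∈ Finset.Ico y₀ (y₀ + n) := by
      rw [Finset.mem_Ico]
      constructor <;> nlinarith [hi'.1, hi'.2]
    have h2 := hω _ hrow
    rw [hA]
    refine le_trans h2 (le_of_eq (Finset.sum_congr rfl fun k hk => ?_))
    have hsmall : ∀ v ∈ (g (y₀ + i * (2 * s + 1), a + k)).1, ∀ u ∈ Cl M ω v,
        nrm (u - v) < s := by
      intro v hv u hu
      by_contra hge
      push Not at hge
      exact hc2 (Set.mem_biUnion hi (Set.mem_biUnion hk ⟨v, hv, u, hu, hge⟩))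
    rw [trunc_res_LoopH]
    · refine hβi i _ _ (Sym2.out_fst_mem _) ?_
      rw [hg _ _ (Sym2.out_fst_mem _)]
      simp only [sub_self, abs_zero]
      omega
    · intro v hv u hu e' he'
      refine hβi i u e' he' ?_
      have h3 := hρ u v
      rw [hg _ _ hv] at h3
      exact h3.trans_lt (hsmall v hv u hu)
  refine (measure_mono hsub).trans ((measure_union_le _ _).trans ?_)
  have h4 : PP G (⋃ i ∈ Finset.Ico (0 : ℤ) s, ⋃ k ∈ Finset.range (4 * n),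
      Big_LoopH M s (g (y₀ + i * (2 * s + 1), a + k))) ≤ (8 * n * n : ℕ) * (1 / 2) ^ s := by
    refine (measure_biUnion_finset_le _ _).trans ?_
    refine (Finset.sum_le_sum fun i _ => (measure_biUnion_finset_le _ _).trans
      (Finset.sum_le_sum fun k _ => prob_Big_LoopH hG s _)).trans ?_
    simp only [Finset.sum_const, Finset.card_range, hc, nsmul_eq_mul]
    rw [← mul_assoc, ← mul_assoc]
    gcongr
    have hsn : s ≤ n := le_trans (Nat.le_mul_of_pos_right s (by omega)) hs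
    have : s * (4 * n) * 2 ≤ 8 * n * n := by
      calc s * (4 * n) * 2 ≤ n * (4 * n) * 2 := by gcongr
        _ = _ := by ring
    exact_mod_cast this
  refine (add_le_add h1 h4).trans (le_of_eq ?_)
  push_cast
  ring

/-- Horizontal edges. -/
def hE_LoopH (z : ℤ × ℤ) : E := ⟨s((z.2, z.1), (z.2 + 1, z.1)), by simp [Zd]⟩

/-- Vertical edges. -/
def vE_LoopH (z : ℤ × ℤ) : E := ⟨s((z.1, z.2), (z.1, z.2 + 1)), by simp [Zd]⟩

theorem T_le_W_LoopH (ω : Env) {f : ℕ → V} (adj : ∀ i, Zd.Adj (f i) (f (i + 1))) {i j N : ℕ}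
    (hi : i ≤ N) (hj : j ≤ N) : T ω (f i) (f j) ≤ W ω f N := by
  have key : ∀ i j : ℕ, i ≤ j → j ≤ N → T ω (f i) (f j) ≤ W ω f N := by
    intro i j hij hj
    obtain ⟨p, hp, -⟩ := exists_seg adj hij
    have h1 := T_le ω p
    have h2 := W_mono ω f hj
    have h3 := W_mono ω f (Nat.zero_le i)
    rw [W_zero] at h3
    rw [hp] at h1
    linarith
  rcases le_total i j with h | h
  · exact key i j h hj
  · rw [T_comm]; exact key j i h hi

theorem T_hor_LoopH (ω : Env) (y a : ℤ) (N : ℕ) {x x' : ℤ} (hx : a ≤ x ∧ x ≤ a + N)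
    (hx' : a ≤ x' ∧ x' ≤ a + N) :
    T ω (x, y) (x', y) ≤ ∑ k ∈ Finset.range N, (ω (hE_LoopH (y, a + k)) : ℝ) := by
  have h := T_le_W_LoopH ω (f := fun k : ℕ => (a + k, y)) (fun i => by simp [Zd])
    (i := (x - a).toNat) (j := (x' - a).toNat) (N := N) (by omega) (by omega)
  rw [show a + ((x - a).toNat : ℤ) = x by omega, show a + ((x' - a).toNat : ℤ) = x' by omega] at h
  refine h.trans (le_of_eq ?_)
  refine Finset.sum_congr rfl fun k _ => ?_
  rw [← tau_edge]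
  simp [hE_LoopH, add_assoc]

theorem T_ver_LoopH (ω : Env) (x a : ℤ) (N : ℕ) {y y' : ℤ} (hy : a ≤ y ∧ y ≤ a + N)
    (hy' : a ≤ y' ∧ y' ≤ a + N) :
    T ω (x, y) (x, y') ≤ ∑ k ∈ Finset.range N, (ω (vE_LoopH (x, a + k)) : ℝ) := by
  have h := T_le_W_LoopH ω (f := fun k : ℕ => (x, a + k)) (fun i => by simp [Zd])
    (i := (y - a).toNat) (j := (y' - a).toNat) (N := N) (by omega) (by omega)
  rw [show a + ((y - a).toNat : ℤ) = y by omega, show a + ((y' - a).toNat : ℤ) = y' by omega] at h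
  refine h.trans (le_of_eq ?_)
  refine Finset.sum_congr rfl fun k _ => ?_
  rw [← tau_edge]
  simp [vE_LoopH, add_assoc]

/-- One of the four sides is missing. -/
def All_LoopH (m : ℝ) (v : V) (n : ℕ) : Set Env :=
  (Bad_LoopH m hE_LoopH (v.2 - 2 * n) (v.1 - 2 * n) n ∪
    Bad_LoopH m hE_LoopH (v.2 + n + 1) (v.1 - 2 * n) n) ∪
  (Bad_LoopH m vE_LoopH (v.1 - 2 * n) (v.2 - 2 * n) n ∪
    Bad_LoopH m vE_LoopH (v.1 + n + 1) (v.2 - 2 * n) n)

theorem prob_All_LoopH {G : Measure ℝ≥0} {M : ℕ} (hG : Law0 G M) {m : ℝ} (hm0 : 0 ≤ m)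
    (hm : ∀ e : Sym2 V, Integrable (fun ω => tau (trunc M ω) e) (PP G) ∧
      ∫ ω, tau (trunc M ω) e ∂PP G ≤ m) (v : V) (n : ℕ) :
    PP G (trunc M ⁻¹' All_LoopH m v n) ≤
      ENNReal.ofReal (4 * ((1 + 8 * n * n) * (1 / 2) ^ (Nat.sqrt (n / 3)))) := by
  obtain ⟨s, hs⟩ : ∃ s, s = Nat.sqrt (n / 3) := ⟨_, rfl⟩
  have hs' : s * (2 * s + 1) ≤ n := by
    have h1 : s * s ≤ n / 3 := hs ▸ Nat.sqrt_le _
    have h2 : s ≤ s * s := Nat.le_mul_self s
    have h3 : 3 * (n / 3) ≤ n := Nat.mul_div_le n 3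
    nlinarith
  rw [← hs]
  have e : ENNReal.ofReal (4 * ((1 + 8 * n * n) * (1 / 2) ^ s)) =
      (((1 + 8 * n * n : ℕ) : ℝ≥0∞) * (1 / 2) ^ s + (1 + 8 * n * n : ℕ) * (1 / 2) ^ s) +
        ((1 + 8 * n * n : ℕ) * (1 / 2) ^ s + (1 + 8 * n * n : ℕ) * (1 / 2) ^ s) := by
    rw [ENNReal.ofReal_mul (by norm_num), ENNReal.ofReal_mul (by positivity),
      ENNReal.ofReal_pow (by norm_num), ENNReal.ofReal_div_of_pos (by norm_num),
      ← ENNReal.ofReal_natCast]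
    simp only [ENNReal.ofReal_ofNat, ENNReal.ofReal_one]
    push_cast
    ring
  have r1 : ∀ u v : V, |u.1 - v.1| ≤ nrm (u - v) := fun u v =>
    le_add_of_nonneg_right (abs_nonneg _)
  have r2 : ∀ u v : V, |u.2 - v.2| ≤ nrm (u - v) := fun u v =>
    le_add_of_nonneg_left (abs_nonneg _)
  have g1 : ∀ z, ∀ v ∈ (vE_LoopH z).1, v.1 = z.1 := by
    intro z v hv
    rcases Sym2.mem_iff.1 hv with rfl | rfl <;> rfl
  have g2 : ∀ z, ∀ v ∈ (hE_LoopH z).1, v.2 = z.1 := by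
    intro z v hv
    rcases Sym2.mem_iff.1 hv with rfl | rfl <;> rfl
  rw [e]
  simp only [All_LoopH, Set.preimage_union]
  refine (measure_union_le _ _).trans (add_le_add ?_ ?_)
  · exact (measure_union_le _ _).trans
      (add_le_add (prob_Bad_LoopH hG hm0 hm r2 g2 _ _ _ _ hs')
        (prob_Bad_LoopH hG hm0 hm r2 g2 _ _ _ _ hs'))
  · exact (measure_union_le _ _).trans
      (add_le_add (prob_Bad_LoopH hG hm0 hm r1 g1 _ _ _ _ hs')
        (prob_Bad_LoopH hG hm0 hm r1 g1 _ _ _ _ hs'))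

theorem rect_LoopH {m : ℝ} (hm : 0 ≤ m) {ω : Env} {v : V} {n : ℕ} (h : ω ∉ All_LoopH m v n) :
    ∃ x₁ x₂ y₁ y₂ : ℤ,
    v.1 - 2 * n ≤ x₁ ∧ x₁ < v.1 - n ∧ v.1 + n < x₂ ∧ x₂ ≤ v.1 + 2 * n ∧
    v.2 - 2 * n ≤ y₁ ∧ y₁ < v.2 - n ∧ v.2 + n < y₂ ∧ y₂ ≤ v.2 + 2 * n ∧
    ∀ b ∈ RB x₁ x₂ y₁ y₂, ∀ b' ∈ RB x₁ x₂ y₁ y₂, T ω b b' ≤ (32 * m + 4) * n := by
  simp only [All_LoopH, Bad_LoopH, Set.mem_union, Set.mem_setOf_eq, not_or, not_forall,
    Finset.mem_Ico, not_le] at h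
  obtain ⟨⟨⟨y₁, hy₁, s₁⟩, ⟨y₂, hy₂, s₂⟩⟩, ⟨x₁, hx₁, t₁⟩, ⟨x₂, hx₂, t₂⟩⟩ := h
  refine ⟨x₁, x₂, y₁, y₂, by omega, by omega, by omega, by omega, by omega, by omega, by omega,
    by omega, ?_⟩
  have hn : (1 : ℝ) ≤ n := by
    have : 1 ≤ n := by omega
    exact_mod_cast this
  have hM : (0 : ℝ) ≤ 8 * n * m + 1 := by positivity
  have key : ∀ b ∈ RB x₁ x₂ y₁ y₂, T ω b (x₁, y₁) ≤ 2 * (8 * n * m + 1) := by
    rintro ⟨b₁, b₂⟩ ⟨h1, h2, h3, h4, h5⟩
    simp only at h1 h2 h3 h4 h5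
    rcases h5 with rfl | rfl | rfl | rfl
    · have := T_ver_LoopH ω b₁ (v.2 - 2 * n) (4 * n) (y := b₂) (y' := y₁)
        (by push_cast; omega) (by push_cast; omega)
      linarith
    · have a1 := T_ver_LoopH ω b₁ (v.2 - 2 * n) (4 * n) (y := b₂) (y' := y₁)
        (by push_cast; omega) (by push_cast; omega)
      have a2 := T_hor_LoopH ω y₁ (v.1 - 2 * n) (4 * n) (x := b₁) (x' := x₁)
        (by push_cast; omega) (by push_cast; omega)
      have a3 := T_tri ω (b₁, b₂) (b₁, y₁) (x₁, y₁)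
      linarith
    · have := T_hor_LoopH ω b₂ (v.1 - 2 * n) (4 * n) (x := b₁) (x' := x₁)
        (by push_cast; omega) (by push_cast; omega)
      linarith
    · have a1 := T_hor_LoopH ω b₂ (v.1 - 2 * n) (4 * n) (x := b₁) (x' := x₁)
        (by push_cast; omega) (by push_cast; omega)
      have a2 := T_ver_LoopH ω x₁ (v.2 - 2 * n) (4 * n) (y := b₂) (y' := y₁)
        (by push_cast; omega) (by push_cast; omega)
      have a3 := T_tri ω (b₁, b₂) (x₁, b₂) (x₁, y₁)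
      linarith
  intro b hb b' hb'
  have a1 := key b hb
  have a2 := key b' hb'
  have a3 := T_tri ω b (x₁, y₁) b'
  rw [T_comm ω (x₁, y₁) b'] at a3
  nlinarith

theorem summable_LoopH (c : ℕ) : Summable fun n : ℕ => (2 * ((c : ℝ) * n) + 1) ^ 2 *
    (4 * ((1 + 8 * n * n) * (1 / 2) ^ (Nat.sqrt (n / 3)))) := by
  have h0 : Tendsto (fun s : ℕ => ((s + 1 : ℕ) : ℝ) ^ 12 / 2 ^ (s + 1)) atTop (𝓝 0) :=
    (tendsto_pow_const_div_const_pow_of_one_lt 12 (by norm_num : (1 : ℝ) < 2)).comp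
      (tendsto_add_atTop_nat 1)
  obtain ⟨B, hB⟩ := h0.bddAbove_range
  have hB' : ∀ s : ℕ, ((s : ℝ) + 1) ^ 12 * (1 / 2) ^ s ≤ 2 * B := by
    intro s
    have := hB ⟨s, rfl⟩
    simp only at this
    push_cast at this
    rw [pow_succ (2 : ℝ) s, ← div_div, div_le_iff₀ (by norm_num)] at this
    rw [one_div, inv_pow, ← div_eq_mul_inv]
    linarith
  have hs : Summable fun n : ℕ => (36 * (2 * (c : ℝ) + 1) ^ 2 * 729 * (2 * B)) *
      (1 / ((n + 1 : ℕ) : ℝ) ^ 2) :=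
    ((summable_nat_add_iff 1).2 (Real.summable_one_div_nat_pow.2 (by norm_num))).mul_left _
  refine Summable.of_nonneg_of_le (fun n => by positivity) (fun n => ?_) hs
  obtain ⟨s, hs⟩ : ∃ s, s = Nat.sqrt (n / 3) := ⟨_, rfl⟩
  rw [← hs]
  have h1 : n + 1 ≤ 3 * (s + 1) ^ 2 := by
    have h2 : n / 3 < (s + 1) * (s + 1) := hs ▸ Nat.lt_succ_sqrt _
    have h3 : n < 3 * ((s + 1) * (s + 1)) := by omega
    nlinarith
  have h1' : (n : ℝ) + 1 ≤ 3 * ((s : ℝ) + 1) ^ 2 := by exact_mod_cast h1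
  have hn : (0 : ℝ) ≤ n := Nat.cast_nonneg n
  have hc : (0 : ℝ) ≤ c := Nat.cast_nonneg c
  have h4 : ((n : ℝ) + 1) ^ 6 ≤ 729 * ((s : ℝ) + 1) ^ 12 := by
    calc ((n : ℝ) + 1) ^ 6 ≤ (3 * ((s : ℝ) + 1) ^ 2) ^ 6 := by gcongr
      _ = _ := by ring
  have h5 : (2 * ((c : ℝ) * n) + 1) ≤ (2 * c + 1) * (n + 1) := by nlinarith
  have h6 : (1 + 8 * (n : ℝ) * n) ≤ 9 * (n + 1) ^ 2 := by nlinarith
  have h7 : ((n : ℝ) + 1) ^ 6 * (1 / 2) ^ s ≤ 729 * (2 * B) := by
    calc ((n : ℝ) + 1) ^ 6 * (1 / 2) ^ s ≤ 729 * ((s : ℝ) + 1) ^ 12 * (1 / 2) ^ s := by gcongr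
      _ = 729 * (((s : ℝ) + 1) ^ 12 * (1 / 2) ^ s) := by ring
      _ ≤ _ := by have := hB' s; linarith
  push_cast
  rw [mul_one_div, le_div_iff₀ (by positivity)]
  calc (2 * ((c : ℝ) * n) + 1) ^ 2 * (4 * ((1 + 8 * n * n) * (1 / 2) ^ s)) * (n + 1) ^ 2
      ≤ ((2 * c + 1) * (n + 1)) ^ 2 * (4 * ((9 * (n + 1) ^ 2) * (1 / 2) ^ s)) * (n + 1) ^ 2 := by
        gcongr
    _ = 36 * (2 * (c : ℝ) + 1) ^ 2 * (((n : ℝ) + 1) ^ 6 * (1 / 2) ^ s) := by ring
    _ ≤ 36 * (2 * (c : ℝ) + 1) ^ 2 * (729 * (2 * B)) := by gcongr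
    _ = _ := by ring

theorem loopH {G : Measure ℝ≥0} {M : ℕ} (hG : Law0 G M) : ∃ C : ℝ, 0 < C ∧ ∀ ε : ℝ, 0 < ε →
    ∀ δ : ℝ≥0∞, 0 < δ → ∃ Q : ℕ, PP G {ω | LoopP C ε Q (trunc M ω)}ᶜ ≤ δ := by
  obtain ⟨m, hm⟩ := intH hG
  have hm0 : 0 ≤ m := le_trans (integral_nonneg fun ω => tau_nonneg _ _) (hm s(0, 0)).2
  refine ⟨32 * m + 4, by positivity, fun ε hε δ hδ => ?_⟩
  obtain ⟨c, hc⟩ := exists_nat_ge (1 / ε)
  rw [div_le_iff₀ hε] at hc
  obtain ⟨S, hS⟩ : ∃ S : ℕ → Finset V, S = fun n : ℕ =>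
      Finset.Icc (-((c * n : ℕ) : ℤ)) ((c * n : ℕ) : ℤ) ×ˢ
        Finset.Icc (-((c * n : ℕ) : ℤ)) ((c * n : ℕ) : ℤ) := ⟨_, rfl⟩
  have hcard : ∀ n, (S n).card = (2 * (c * n) + 1) ^ 2 := by
    intro n
    rw [hS]
    simp only [Finset.card_product, Int.card_Icc]
    rw [show (((c * n : ℕ) : ℤ) + 1 - -((c * n : ℕ) : ℤ)).toNat = 2 * (c * n) + 1 by omega, sq]
  have hmem : ∀ (n : ℕ) (v : V), ε * (nrm v : ℝ) ≤ n → v ∈ S n := by
    intro n v hv
    have h0 : (0 : ℝ) ≤ (nrm v : ℝ) := by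
      have : (0 : ℤ) ≤ nrm v := by unfold nrm; positivity
      exact_mod_cast this
    have h1 : (nrm v : ℝ) ≤ ((c * n : ℕ) : ℝ) := by
      push_cast
      have hc0 : (0 : ℝ) ≤ c := Nat.cast_nonneg c
      nlinarith
    have h2 : nrm v ≤ ((c * n : ℕ) : ℤ) := by exact_mod_cast h1
    unfold nrm at h2
    have h3 := abs_nonneg v.1
    have h4 := abs_nonneg v.2
    rw [hS]
    simp only [Finset.mem_product, Finset.mem_Icc]
    rw [← abs_le, ← abs_le]
    constructor <;> linarith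
  obtain ⟨F, hF⟩ : ∃ F : ℕ → Set Env, F = fun n => ⋃ v ∈ S n, trunc M ⁻¹' All_LoopH m v n :=
    ⟨_, rfl⟩
  have hFp : ∀ n, PP G (F n) ≤ ENNReal.ofReal ((2 * (c * n) + 1) ^ 2 *
      (4 * ((1 + 8 * n * n) * (1 / 2) ^ (Nat.sqrt (n / 3))))) := by
    intro n
    rw [hF]
    refine (measure_biUnion_finset_le _ _).trans ?_
    refine (Finset.sum_le_sum fun v _ => prob_All_LoopH hG hm0 hm v n).trans ?_
    rw [Finset.sum_const, hcard, nsmul_eq_mul,
      ENNReal.ofReal_mul (p := (2 * ((c : ℝ) * n) + 1) ^ 2) (by positivity),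
      ← ENNReal.ofReal_natCast]
    push_cast
    exact le_rfl
  have hne : ∑' n, PP G (F n) ≠ ∞ :=
    ne_top_of_le_ne_top (summable_LoopH c).tsum_ofReal_ne_top (ENNReal.tsum_le_tsum hFp)
  obtain ⟨Q, hQ⟩ := ((ENNReal.tendsto_sum_nat_add _ hne).eventually (ge_mem_nhds hδ)).exists
  refine ⟨Q, le_trans (measure_mono ?_) ((measure_iUnion_le _).trans hQ)⟩
  intro ω hω'
  by_contra hω
  apply hω'
  intro v n hn
  have h0 : (0 : ℝ) ≤ (nrm v : ℝ) := by
    have : (0 : ℤ) ≤ nrm v := by unfold nrm; positivity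
    exact_mod_cast this
  have h1 : 0 ≤ ε * (nrm v : ℝ) := by positivity
  have hQ0 : (0 : ℝ) ≤ Q := Nat.cast_nonneg Q
  have hQn : Q ≤ n := by
    have : (Q : ℝ) ≤ n := by linarith
    exact_mod_cast this
  refine rect_LoopH hm0 fun hbad => hω (Set.mem_iUnion.2 ⟨n - Q, ?_⟩)
  rw [Nat.sub_add_cancel hQn, hF]
  exact Set.mem_biUnion (hmem n v (by linarith)) hbad

end P158
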