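import Vale.Agent.P158.PeiH
import Vale.Agent.P158.NiceA

open scoped NNReal ENNReal
open MeasureTheory Filter Topology

namespace P158

/-! Regularity of the truncated environment. -/

theorem uniq_NiceH {G : Measure ℝ≥0} {M : ℕ} (hG : Law0 G M) {x y : V} (p p' : Zd.Walk x y)
    (hp : p.IsPath) (hp' : p'.IsPath) (hne : p ≠ p') :
    PP G {ω | wt (trunc M ω) p = wt (trunc M ω) p'} = 0 := by
  classical
  have := hG.prob
  have := hG.noat
  obtain ⟨e, he, he'⟩ : ∃ e ∈ p.edges, e ∉ p'.edges := by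
    by_contra hc
    push Not at hc
    exact hne (path_eq_NiceA p p' hp hp' hc)
  set e₀ : E := ⟨e, p.edges_subset_edgeSet he⟩ with he₀
  have hmp := mp_Mod G {e₀}
  have hm : MeasurableSet {ω : Env | wt (trunc M ω) p = wt (trunc M ω) p'} :=
    measurableSet_eq_fun ((measurable_wt p).comp (measurable_trunc M))
      ((measurable_wt p').comp (measurable_trunc M))
  have hpre := hmp.measurable hm
  rw [← hmp.measure_preimage hm.nullMeasurableSet, Measure.prod_apply hpre]
  refine lintegral_eq_zero_of_ae_eq_zero (Eventually.of_forall fun ω => ?_)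
  let u : ℝ≥0 → Env := Function.update ω e₀
  let S : Set ℝ≥0 := {t | wt (trunc M (u t)) p = wt (trunc M (u t)) p'}
  have key : ∀ a ∈ S, ∀ b ∈ S, ((M : ℝ) < a ↔ (M : ℝ) < b) → a = b := by
    intro a ha b hb h
    have hc : ∀ e', cap M (u a) e' = cap M (u b) e' := cap_congr fun e' => by
      by_cases c : e' = e₀
      · simpa only [u, c, Function.update_self] using h
      · simp only [u, Function.update_of_ne c]
    have hoff : ∀ e' ∉ ({e₀} : Finset E), trunc M (u b) e' = trunc M (u a) e' := fun e' h' => by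
      have c : e' ≠ e₀ := by simpa using h'
      simp only [trunc, hc, u, Function.update_of_ne c]
    have h1 := wt_sub_wt _ _ {e₀} hoff p hp
    have h2 := wt_sub_wt _ _ {e₀} hoff p' hp'
    rw [Finset.filter_singleton, if_pos he, Finset.sum_singleton, trunc_coe, trunc_coe, hc] at h1
    rw [Finset.filter_singleton, if_neg he', Finset.sum_empty] at h2
    have h3 : wt (trunc M (u a)) p = wt (trunc M (u a)) p' := ha
    have h4 : wt (trunc M (u b)) p = wt (trunc M (u b)) p' := hb
    have h5 := (squash_strictMono (cap M (u b) e₀)).injective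
      (show squash _ (u a e₀) = squash _ (u b e₀) by linarith)
    simpa only [u, Function.update_self, NNReal.coe_inj] using h5
  have hfin : S.Finite := by
    refine ((Set.Subsingleton.finite (s := S ∩ {t | (M : ℝ) < t}) fun a ha b hb =>
      key a ha.1 b hb.1 (iff_of_true ha.2 hb.2)).union
      (Set.Subsingleton.finite (s := S \ {t | (M : ℝ) < t}) fun a ha b hb =>
        key a ha.1 b hb.1 (iff_of_false ha.2 hb.2))).subset ?_
    rw [Set.inter_union_diff]
  have h0 : PP G (Function.eval e₀ ⁻¹' S) = 0 := by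
    rw [(measurePreserving_eval_infinitePi (fun _ : E => G) e₀).measure_preimage
      hfin.measurableSet.nullMeasurableSet]
    exact hfin.measure_zero G
  refine measure_mono_null (fun η hη => ?_) h0
  simp only [Set.mem_preimage, Set.mem_ofPred_eq, Finset.piecewise_singleton] at hη
  exact hη

theorem small_NiceH {G : Measure ℝ≥0} {M : ℕ} (hG : Law0 G M) :
    ∃ b : ℝ, 0 < b ∧ G {t | (t : ℝ) ∉ Set.Icc b (M : ℝ)} ≤ 1 / 256 := by
  have := hG.prob
  have := hG.noat
  have h2 := tendsto_measure_iInter_atTop (μ := G)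
    (s := fun n : ℕ => {t : ℝ≥0 | (t : ℝ) ≤ 1 / ((n : ℝ) + 1)})
    (fun n => (measurableSet_le measurable_coe_nnreal_real measurable_const).nullMeasurableSet)
    (fun a b hab t ht => le_trans (b := 1 / ((b : ℝ) + 1)) ht (Nat.one_div_le_one_div hab)) ⟨0, measure_ne_top _ _⟩
  have h3 : G (⋂ n : ℕ, {t : ℝ≥0 | (t : ℝ) ≤ 1 / ((n : ℝ) + 1)}) = 0 := by
    refine measure_mono_null (fun t ht => ?_) (measure_singleton 0)
    refine NNReal.eq (le_antisymm (le_of_forall_pos_le_add fun ε hε => ?_) t.2)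
    obtain ⟨n, hn⟩ := exists_nat_one_div_lt hε
    have := Set.mem_iInter.1 ht n
    simp only [Set.mem_ofPred_eq] at this
    simpa using this.trans hn.le
  rw [h3] at h2
  obtain ⟨n, hn⟩ := (h2.eventually (ge_mem_nhds (show (0 : ℝ≥0∞) < 1 / 512 by simp))).exists
  refine ⟨_, Nat.one_div_pos_of_nat (n := n), le_trans (measure_mono fun t ht => ?_)
    ((measure_union_le _ _).trans ((add_le_add hn hG.light).trans ?_))⟩
  · rcases not_and_or.1 ht with h | h
    · exact Or.inl (not_le.1 h).le
    · exact Or.inr (not_le.1 h)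
  · rw [← ENNReal.toReal_le_toReal (by finiteness) (by finiteness),
      ENNReal.toReal_add (by finiteness) (by finiteness)]
    norm_num
theorem niceH {G : Measure ℝ≥0} {M : ℕ} (hG : Law0 G M) :
    ∀ᵐ ω ∂PP G, Nice (trunc M ω) :=   by
  have := hG.prob
  have := hG.noat
  have h1 : ∀ᵐ ω ∂PP G, ∀ e : E, 0 < ω e := by
    rw [ae_all_iff]
    intro e
    have h0 : PP G (Function.eval e ⁻¹' ({0} : Set ℝ≥0)) = 0 := by
      rw [(measurePreserving_eval_infinitePi (fun _ : E => G) e).measure_preimage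
        (measurableSet_singleton _).nullMeasurableSet]
      exact measure_singleton _
    rw [ae_iff]
    refine measure_mono_null (fun ω hω => ?_) h0
    simpa using hω
  obtain ⟨b, hb, hb'⟩ := small_NiceH hG
  have h2 : ∀ᵐ ω ∂PP G, ∃ Q, PeiP (Set.Icc b (M : ℝ)) 1 Q ω := by
    rw [ae_iff]
    refine le_antisymm (le_of_forall_gt_imp_ge_of_dense fun δ hδ => ?_) zero_le
    obtain ⟨Q, h⟩ := pei0 measurableSet_Icc hb' one_pos hδ
    exact le_trans (measure_mono fun ω hω hU => hω ⟨Q, hU⟩) h
  have h3 : ∀ᵐ ω ∂PP G, ∀ (x y : V) (p p' : Zd.Walk x y), p.IsPath → p'.IsPath →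
      wt (trunc M ω) p = wt (trunc M ω) p' → p = p' := by
    simp only [ae_all_iff]
    intro x y p p' hp hp'
    by_cases hne : p = p'
    · exact Eventually.of_forall fun _ _ => hne
    · rw [ae_iff]
      refine measure_mono_null (fun ω hω => ?_) (uniq_NiceH hG p p' hp hp' hne)
      simp only [Set.mem_ofPred_eq, Classical.not_imp] at hω ⊢
      exact hω.1
  filter_upwards [h1, h2, h3] with ω a ⟨Q, hQ⟩ d
  refine ⟨fun e => ?_, fun x r => ?_, d⟩
  · have h0 : squash (cap M ω e) 0 = 0 := if_pos ((Nat.cast_nonneg M).trans (le_cap M ω e))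
    have h4 := squash_strictMono (cap M ω e) (show (0 : ℝ) < ω e from a e)
    rwa [h0, ← trunc_coe] at h4
  obtain ⟨N, hN⟩ := exists_nat_ge (max (2 * (r + 1) / b) (nrm x + Q))
  have hfin : ((Set.Icc (x.1 - N) (x.1 + N)) ×ˢ (Set.Icc (x.2 - N) (x.2 + N))).Finite :=
    (Set.finite_Icc _ _).prod (Set.finite_Icc _ _)
  refine hfin.subset fun y hy => ?_
  have h5 : T (trunc M ω) x y ≤ r := hy
  obtain ⟨p, hp, h4⟩ := exists_lt_T (trunc M ω) x y one_pos
  have h6 : (p.length : ℝ) ≤ N := by
    by_contra hc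
    have k0 := (max_le_iff.1 (hN.trans (not_le.1 hc).le))
    have k1 := PeiP.trunc (M := M) Set.Icc_subset_Iic_self hQ x y p hp (by linarith [k0.2])
    have k2 := count_le_Pei (trunc M ω) (b := b) (D := Set.Icc b M) Set.Icc_subset_Ici_self p.edges
    have k3 := (Nat.cast_le (α := ℝ)).2 k1
    rw [Nat.cast_mul, Nat.cast_ofNat] at k3
    have k5 := mul_le_mul_of_nonneg_left k3 hb.le
    have k6 := (div_le_iff₀ hb).1 k0.1
    unfold wt at h4
    linarith
  have h7 : nrm (y - x) ≤ N := (nrm_le_length_Pei p).trans (by exact_mod_cast h6)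
  simp only [nrm, Prod.fst_sub, Prod.snd_sub] at h7
  have a1 := abs_nonneg (y.1 - x.1)
  have a2 := abs_nonneg (y.2 - x.2)
  have b1 := abs_le.1 (show |y.1 - x.1| ≤ N by omega)
  have b2 := abs_le.1 (show |y.2 - x.2| ≤ N by omega)
  exact ⟨⟨by omega, by omega⟩, by omega, by omega⟩

end P158
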