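import Vale.Agent.P158.TrA
import Vale.Agent.P158.Pei

open scoped NNReal ENNReal
open MeasureTheory Filter Topology

namespace P158

/-! Peierls estimate (no moment is used) for the truncated environment. -/

variable {G : Measure ℝ≥0} {M : ℕ}

open Classical in
theorem bad_PeiH [IsProbabilityMeasure G] {D : Set ℝ} (hD : MeasurableSet D)
    (hGD : G {t | (t : ℝ) ∉ D} ≤ 1 / 256) (v : V) (n : ℕ) :
    ∃ B : Set Env, MeasurableSet B ∧ PP G B ≤ ENNReal.ofReal ((1 / 2) ^ n) ∧
      ∀ ω ∉ B, ∀ w (p : Zd.Walk v w), p.IsPath → p.length = n →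
        p.length ≤ 2 * p.edges.countP (fun e => decide (tau ω e ∈ D)) := by
  obtain ⟨F, h1, h2, h3⟩ := lists_Pei n v
  have hm : MeasurableSet {t : ℝ≥0 | (t : ℝ) ∉ D} := (measurable_coe_nnreal_real hD).compl
  refine ⟨⋃ L ∈ F, ⋃ S ∈ L.toFinset.powerset.filter (fun S => n ≤ 2 * S.card),
    Set.pi (S : Set E) fun _ => {t : ℝ≥0 | (t : ℝ) ∉ D}, ?_, ?_, ?_⟩
  · exact Finset.measurableSet_biUnion _ fun L _ => Finset.measurableSet_biUnion _ fun S _ =>
      MeasurableSet.pi S.countable_toSet fun _ _ => hm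
  · have k1 : ∀ S : Finset E, n ≤ 2 * S.card →
        PP G (Set.pi (S : Set E) fun _ => {t : ℝ≥0 | (t : ℝ) ∉ D}) ≤ (1 / 16) ^ n := by
      intro S hS
      rw [Measure.infinitePi_pi _ fun _ _ => hm, Finset.prod_const]
      calc _ ≤ (1 / 256 : ℝ≥0∞) ^ S.card := by gcongr
        _ = (1 / 16) ^ (2 * S.card) := by
          rw [pow_mul, one_div, one_div, ← ENNReal.inv_pow (a := 16)]; norm_num
        _ ≤ _ := pow_le_pow_of_le_one (zero_le) (by simp) hS
    calc _ ≤ ∑ L ∈ F, ∑ S ∈ L.toFinset.powerset.filter (fun S => n ≤ 2 * S.card),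
          PP G (Set.pi (S : Set E) fun _ => {t : ℝ≥0 | (t : ℝ) ∉ D}) :=
          (measure_biUnion_finset_le _ _).trans
            (Finset.sum_le_sum fun L _ => measure_biUnion_finset_le _ _)
      _ ≤ ∑ _L ∈ F, (2 : ℝ≥0∞) ^ n * (1 / 16) ^ n := by
          refine Finset.sum_le_sum fun L hL => ?_
          refine (Finset.sum_le_card_nsmul _ _ _ fun S hS => k1 S (Finset.mem_filter.1 hS).2).trans ?_
          rw [nsmul_eq_mul]
          gcongr
          have : (L.toFinset.powerset.filter (fun S => n ≤ 2 * S.card)).card ≤ 2 ^ n :=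
            (Finset.card_filter_le _ _).trans (by
              rw [Finset.card_powerset]
              exact Nat.pow_le_pow_right two_pos ((List.toFinset_card_le L).trans (h2 L hL).le))
          exact_mod_cast this
      _ ≤ (4 : ℝ≥0∞) ^ n * (2 ^ n * (1 / 16) ^ n) := by
          rw [Finset.sum_const, nsmul_eq_mul]
          gcongr
          exact_mod_cast h1
      _ = _ := by
          rw [← mul_pow, ← mul_pow, ENNReal.ofReal_pow (by norm_num)]
          congr 1
          rw [← ENNReal.toReal_eq_toReal_iff' (by finiteness) (by finiteness)]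
          norm_num
  · intro ω hω w p hp hn
    by_contra hlt
    apply hω
    obtain ⟨L, hL, e⟩ := h3 w p hn
    have hnd : L.Nodup := List.Nodup.of_map Subtype.val (e ▸ hp.isTrail.edges_nodup)
    have e1 : p.edges.countP (fun e => decide (tau ω e ∈ D)) =
        L.countP (fun e => decide ((ω e : ℝ) ∈ D)) := by
      rw [← e, List.countP_map]
      congr 1
      funext x
      simp only [Function.comp, tau_edge]
    have e2 := List.length_eq_countP_add_countP (fun e : E => decide ((ω e : ℝ) ∈ D)) (l := L)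
    refine Set.mem_biUnion hL (Set.mem_biUnion
      (x := (L.filter fun e => decide ¬ (decide ((ω e : ℝ) ∈ D)) = true).toFinset) ?_ ?_)
    · refine Finset.mem_coe.2 (Finset.mem_filter.2 ⟨Finset.mem_powerset.2 fun x hx => ?_, ?_⟩)
      · rw [List.mem_toFinset] at hx ⊢
        exact (List.mem_filter.1 hx).1
      · rw [List.toFinset_card_of_nodup (hnd.filter _), ← List.countP_eq_length_filter]
        have := h2 L hL
        omega
    · intro x hx
      simpa using (List.mem_filter.1 (List.mem_toFinset.1 hx)).2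

theorem pei_PeiH [IsProbabilityMeasure G] {D : Set ℝ} (hD : MeasurableSet D)
    (hGD : G {t | (t : ℝ) ∉ D} ≤ 1 / 256) {ε : ℝ} (hε : 0 < ε) {δ : ℝ≥0∞} (hδ : 0 < δ) :
    ∃ (Q : ℕ) (U : Set Env), MeasurableSet U ∧ PP G Uᶜ ≤ δ ∧ ∀ ω ∈ U, PeiP D ε Q ω := by
  choose B h1 h2 h3 using bad_PeiH hD hGD
  obtain ⟨K, hK⟩ := exists_nat_ge (1 / ε)
  let bx : ℕ → Finset V := fun n => Finset.Icc (-(K * n : ℤ)) (K * n) ×ˢ Finset.Icc (-(K * n : ℤ)) (K * n)
  let B' : ℕ → Set Env := fun n => ⋃ v ∈ bx n, B v n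
  let a : ℕ → ℝ := fun n => (2 * K * n + 1) ^ 2 * (1 / 2) ^ n
  have ha : Summable a := by
    have r : ‖(1 / 2 : ℝ)‖ < 1 := by norm_num
    refine ((((summable_pow_mul_geometric_of_norm_lt_one 2 r).mul_left (4 * (K : ℝ) ^ 2)).add
      ((summable_pow_mul_geometric_of_norm_lt_one 1 r).mul_left (4 * (K : ℝ)))).add
      (summable_geometric_of_norm_lt_one r)).congr fun n => ?_
    simp only [a]; ring
  have hB : ∀ n, PP G (B' n) ≤ ENNReal.ofReal (a n) := fun n => by
    refine (measure_biUnion_finset_le _ _).trans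
      ((Finset.sum_le_card_nsmul _ _ _ fun v _ => h2 v n).trans (le_of_eq ?_))
    have e : (bx n).card = (2 * K * n + 1) ^ 2 := by
      have : ((K * n : ℤ) + 1 - -(K * n : ℤ)).toNat = 2 * K * n + 1 := by
        rw [show (K * n : ℤ) + 1 - -(K * n : ℤ) = ((2 * K * n + 1 : ℕ) : ℤ) by push_cast; ring,
          Int.toNat_natCast]
      simp only [bx, Finset.card_product, Int.card_Icc, this, sq]
    rw [e, nsmul_eq_mul, ENNReal.ofReal_mul (by positivity), ← ENNReal.ofReal_natCast]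
    push_cast
    rfl
  have ht := ENNReal.tendsto_sum_nat_add (fun n => ENNReal.ofReal (a n)) ha.tsum_ofReal_ne_top
  obtain ⟨Q, hQ⟩ := (ht.eventually (ge_mem_nhds hδ)).exists
  refine ⟨Q, (⋃ n, B' (n + Q))ᶜ, (MeasurableSet.iUnion fun n =>
    Finset.measurableSet_biUnion _ fun v _ => h1 v _).compl, ?_, fun ω hω v w p hp hn => ?_⟩
  · rw [compl_compl]
    exact (measure_iUnion_le _).trans ((ENNReal.tsum_le_tsum fun n => hB _).trans hQ)
  · refine h3 v p.length ω (fun hb => hω ?_) w p hp rfl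
    have h0 : (0 : ℝ) ≤ nrm v := by exact_mod_cast nrm_nonneg_Pei v
    have h4 : (Q : ℝ) ≤ p.length := by nlinarith
    obtain ⟨n, hn'⟩ := Nat.exists_eq_add_of_le' (Nat.cast_le.1 h4)
    refine Set.mem_iUnion.2 ⟨n, hn' ▸ Set.mem_biUnion (x := v) ?_ hb⟩
    have h5 : (nrm v : ℝ) ≤ K * p.length := by
      have : (0 : ℝ) ≤ Q := Nat.cast_nonneg _
      have h6 : (nrm v : ℝ) ≤ 1 / ε * p.length := by
        rw [one_div, ← div_eq_inv_mul, le_div_iff₀ hε]; linarith
      exact h6.trans (by gcongr)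
    have h6 : nrm v ≤ K * p.length := by exact_mod_cast h5
    unfold nrm at h6
    have := abs_nonneg v.1
    have := abs_nonneg v.2
    simp only [bx, Finset.coe_product, Finset.coe_Icc, Set.mem_prod, Set.mem_Icc, ← abs_le]
    constructor <;> linarith

open Classical in
theorem count_PeiH {D : Set ℝ} (hD : MeasurableSet D) (L : List (Sym2 V)) :
    Measurable fun ω : Env => L.countP (fun e => decide (tau ω e ∈ D)) := by
  induction L with
  | nil => exact measurable_const
  | cons e L ih =>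
    simp only [List.countP_cons, decide_eq_true_eq]
    exact ih.add (Measurable.ite (measurable_tau e hD) measurable_const measurable_const)
theorem measurableSet_PeiP {D : Set ℝ} (hD : MeasurableSet D) (ε : ℝ) (Q : ℕ) :
    MeasurableSet {ω | PeiP D ε Q ω} :=   all_Meas fun _ => all_Meas fun _ => all_Meas fun _ => imp_Meas (imp_Meas
    (measurableSet_le measurable_const (measurable_const.mul (count_PeiH hD _))))

/-- Same proof as `pei` (copy it: integrability is not used there). -/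
theorem pei0 [IsProbabilityMeasure G] {D : Set ℝ} (hD : MeasurableSet D)
    (hGD : G {t | (t : ℝ) ∉ D} ≤ 1 / 256) {ε : ℝ} (hε : 0 < ε) {δ : ℝ≥0∞} (hδ : 0 < δ) :
    ∃ Q : ℕ, PP G {ω | PeiP D ε Q ω}ᶜ ≤ δ :=   by
  obtain ⟨Q, U, -, h1, h2⟩ := pei_PeiH hD hGD hε hδ
  exact ⟨Q, (measure_mono (Set.compl_subset_compl.2 h2)).trans h1⟩

theorem PeiP.trunc {D : Set ℝ} (hM : D ⊆ Set.Iic (M : ℝ)) {ε : ℝ} {Q : ℕ} {ω : Env}
    (h : PeiP D ε Q ω) : PeiP D ε Q (trunc M ω) := fun v w p hp hn => by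
  refine (h v w p hp hn).trans (Nat.mul_le_mul_left _ (List.countP_mono_left fun e he h1 => ?_))
  have h2 := tau_edge ω ⟨e, p.edges_subset_edgeSet he⟩
  have h3 := tau_edge (P158.trunc M ω) ⟨e, p.edges_subset_edgeSet he⟩
  simp only [decide_eq_true_eq] at h1 h2 h3 ⊢
  rw [h2] at h1
  rwa [h3, trunc_of_le ((hM h1).trans (le_cap _ _ _))]
theorem peiH (hG : Law0 G M) {D : Set ℝ} (hD : MeasurableSet D) (hM : D ⊆ Set.Iic (M : ℝ))
    (hGD : G {t | (t : ℝ) ∉ D} ≤ 1 / 256) {ε : ℝ} (hε : 0 < ε) {δ : ℝ≥0∞} (hδ : 0 < δ) :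
    ∃ (Q : ℕ) (U : Set Env), MeasurableSet U ∧ (PP G).map (trunc M) Uᶜ ≤ δ ∧
      ∀ ω ∈ U, PeiP D ε Q ω :=   by
  have := hG.prob
  obtain ⟨Q, h⟩ := pei0 hD hGD hε hδ
  refine ⟨Q, _, measurableSet_PeiP hD ε Q, ?_, fun _ h => h⟩
  rw [Measure.map_apply (measurable_trunc M) (measurableSet_PeiP hD ε Q).compl]
  exact le_trans (measure_mono fun ω hω h => hω (PeiP.trunc hM h)) h

end P158
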