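import Vale.Agent.P158.ClT
import Vale.Agent.P158.PeiH
import Vale.Agent.P158.NiceH
import Vale.Agent.P158.LoopH
import Vale.Agent.P158.Mod

open scoped NNReal ENNReal
open MeasureTheory Filter Topology

namespace P158

/-! The truncated environment is a model. -/

theorem exists_law0 (G : Measure ℝ≥0) [IsProbabilityMeasure G] [NullSingletonClass G] :
    ∃ M : ℕ, Law0 G M := by
  have h2 := tendsto_measure_iInter_atTop (μ := G)
    (s := fun n : ℕ => {t : ℝ≥0 | (n : ℝ) < t})
    (fun n => (measurableSet_lt measurable_const NNReal.continuous_coe.measurable).nullMeasurableSet)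
    (fun a b hab t (ht : (b : ℝ) < t) => show (a : ℝ) < t from lt_of_le_of_lt (Nat.cast_le.2 hab) ht) ⟨0, measure_ne_top _ _⟩
  have h3 : ⋂ n : ℕ, {t : ℝ≥0 | (n : ℝ) < t} = ∅ := by
    refine Set.eq_empty_of_forall_notMem fun t ht => ?_
    obtain ⟨n, hn⟩ := exists_nat_ge (t : ℝ)
    exact absurd (Set.mem_iInter.1 ht n) (not_lt.2 hn)
  rw [h3, measure_empty] at h2
  obtain ⟨M, hM⟩ := (h2.eventually (ge_mem_nhds (show (0 : ℝ≥0∞) < 1 / 1024 by norm_num))).exists
  exact ⟨M, inferInstance, inferInstance, hM⟩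

theorem modelH {G : Measure ℝ≥0} {M : ℕ} (hG : Law0 G M) :
    ∃ m : ℝ, Model ((PP G).map (trunc M)) G M m := by
  have := hG.prob
  have := hG.noat
  have hE := measurableEmbedding_trunc M
  obtain ⟨m, hm⟩ := intH hG
  refine ⟨m, Measure.isProbabilityMeasure_map hE.measurable.aemeasurable, hG.prob, hG.noat,
    hG.light, fun σ => ⟨measurable_act σ, ?_⟩, fun e => hE.integrable_map_iff.2 (hm e).1,
    fun e => ?_, hE.ae_map_iff.2 (niceH hG), fun D hD hM hGD ε hε δ hδ => peiH hG hD hM hGD hε hδ,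
    fun σ D hD hDM A B hA h => ?_, ?_⟩
  · rw [Measure.map_map (measurable_act σ) hE.measurable]
    have : act σ ∘ trunc M = trunc M ∘ act σ := funext fun ω => (trunc_act M σ ω).symm
    rw [this, ← Measure.map_map hE.measurable (measurable_act σ),
      (measurePreserving_act G σ).map_eq]
  · rw [hE.integral_map]; exact (hm e).2
  · rw [hE.map_apply, hE.map_apply]
    refine modify G σ D hD _ _ fun ω hω ω' h1 h2 => ?_
    have hh : ∀ e : E, (M : ℝ) < ω' e ↔ (M : ℝ) < ω e := fun e => by
      by_cases he : e ∈ σ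
      · refine iff_of_false (not_lt.2 (hDM e _ (h2 e he))) ?_
        rw [← trunc_heavy_iff]
        exact not_lt.2 (hA _ hω e he)
      · rw [h1 e he]
    refine h _ hω _ (fun e he => ?_) (fun e he => ?_)
    · apply NNReal.coe_injective
      rw [trunc_coe, trunc_coe, cap_congr hh, h1 e he]
    · rw [trunc_of_le ((hDM e _ (h2 e he)).trans (le_cap M ω' e))]
      exact h2 e he
  · obtain ⟨C, hC, h⟩ := loopH hG
    refine ⟨C, hC, fun ε hε δ hδ => ?_⟩
    obtain ⟨Q, hQ⟩ := h ε hε δ hδ
    refine ⟨Q, (toMeasurable ((PP G).map (trunc M)) {ω | LoopP C ε Q ω}ᶜ)ᶜ,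
      (measurableSet_toMeasurable _ _).compl, ?_, fun ω hω => ?_⟩
    · rw [compl_compl, measure_toMeasurable, hE.map_apply]
      exact hQ
    · by_contra hn
      exact hω (subset_toMeasurable _ _ hn)

end P158
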