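import Vale.Agent.P158.Defs

/-! Internal objects of the proof. -/

open scoped NNReal ENNReal
open MeasureTheory

namespace P158

/-- The law of the environment. -/
noncomputable abbrev PP (G : Measure ℝ≥0) : Measure Env := Measure.infinitePi fun _ : E => G

/-- Mean edge weight. -/
noncomputable def mean (G : Measure ℝ≥0) : ℝ := ∫ t, (t : ℝ) ∂G

/-- The walk stays in `S`. -/
def In (S : Set V) {x y : V} (p : Zd.Walk x y) : Prop := ∀ v ∈ p.support, v ∈ S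

/-- Passage time using only walks inside `S`. -/
noncomputable def TS (ω : Env) (S : Set V) (x y : V) : ℝ :=
  ⨅ p : {p : Zd.Walk x y // In S p}, wt ω p.1

/-- `x` and `y` are joined inside `S`. -/
def Conn (S : Set V) (x y : V) : Prop := ∃ p : Zd.Walk x y, In S p

/-- The `l1` size of a vertex. -/
def nrm (v : V) : ℤ := |v.1| + |v.2|

/-- Lattice symmetries act on environments. -/
def act (σ : Zd ≃g Zd) (ω : Env) : Env := fun e => ω (σ.mapEdgeSet e)

/-- Translation by `a`. -/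
def tr (a : V) : Zd ≃g Zd where
  toEquiv := Equiv.addRight a
  map_rel_iff' := by intro x y; simp [Zd]

/-- The reflection `x ↦ k - x`. -/
def rx (k : ℤ) : Zd ≃g Zd where
  toFun v := (k - v.1, v.2)
  invFun v := (k - v.1, v.2)
  left_inv v := by simp
  right_inv v := by simp
  map_rel_iff' := by
    intro x y
    simp only [Zd, Equiv.coe_fn_mk]
    rw [show k - x.1 - (k - y.1) = -(x.1 - y.1) by ring, abs_neg]

/-- The reflection `y ↦ -y`. -/
def ry : Zd ≃g Zd where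
  toFun v := (v.1, -v.2)
  invFun v := (v.1, -v.2)
  left_inv v := by simp
  right_inv v := by simp
  map_rel_iff' := by
    intro x y
    simp only [Zd, Equiv.coe_fn_mk]
    rw [show -x.2 - -y.2 = -(x.2 - y.2) by ring, abs_neg]

/-- The transposition. -/
def sw : Zd ≃g Zd where
  toEquiv := Equiv.prodComm ℤ ℤ
  map_rel_iff' := by intro x y; simp [Zd, add_comm]

/-- A periodic staircase: the column `0` meets row `y` at abscissa `c y`. -/
structure Stair where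
  c : ℤ → ℤ
  p : ℤ
  q : ℕ
  hq : 0 < q
  c0 : c 0 = 0
  lip : ∀ y, |c (y + 1) - c y| ≤ 1
  per : ∀ y, c (y + q) = c y + p

/-- Column index of a vertex. -/
def X (s : Stair) (v : V) : ℤ := v.1 - s.c v.2

/-- The point of column `k` in row `y`. -/
def pt (s : Stair) (k y : ℤ) : V := (k + s.c y, y)

/-- The translation vector moving columns by `k` and rows by `j * q`. -/
def sh (s : Stair) (k j : ℤ) : V := (k + j * s.p, j * s.q)

/-- Staircase reflected in the first coordinate. -/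
def Stair.negx (s : Stair) : Stair where
  c y := -s.c y
  p := -s.p
  q := s.q
  hq := s.hq
  c0 := by simp [s.c0]
  lip y := by rw [show -s.c (y + 1) - -s.c y = -(s.c (y + 1) - s.c y) by ring, abs_neg]; exact s.lip y
  per y := by rw [s.per]; ring

/-- Staircase reflected in the second coordinate. -/
def Stair.negy (s : Stair) : Stair where
  c y := s.c (-y)
  p := -s.p
  q := s.q
  hq := s.hq
  c0 := by simp [s.c0]
  lip y := by
    have := s.lip (-(y + 1))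
    rw [show -(y + 1) + 1 = -y by ring] at this
    rw [abs_sub_comm]; exact this
  per y := by
    have := s.per (-(y + s.q))
    rw [show -(y + (s.q : ℤ)) + s.q = -y by ring] at this
    linarith

def HLe (s : Stair) (k : ℤ) : Set V := {v | X s v ≤ k}
def HGe (s : Stair) (k : ℤ) : Set V := {v | k ≤ X s v}
def Strip (s : Stair) (a b : ℤ) : Set V := {v | a ≤ X s v ∧ X s v ≤ b}
def Box (s : Stair) (k y : ℤ) (R : ℕ) : Set V := {v | |X s v - k| ≤ R ∧ |v.2 - y| ≤ R}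

/-- Weight of the first `n` steps of a sequence. -/
noncomputable def W (ω : Env) (f : ℕ → V) (n : ℕ) : ℝ :=
  ∑ k ∈ Finset.range n, tau ω s(f k, f (k + 1))

/-- Geodesic ray. -/
structure Ray (ω : Env) (f : ℕ → V) : Prop where
  inj : Function.Injective f
  adj : ∀ i, Zd.Adj (f i) (f (i + 1))
  geo : ∀ i j, i ≤ j → T ω (f i) (f j) = W ω f j - W ω f i

/-- The sequence stays in a double cone around the horizontal through `pt s k y`. -/
def Cone (s : Stair) (A R : ℕ) (k y : ℤ) (f : ℕ → V) : Prop :=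
  ∀ i, |(f i).2 - y| ≤ A * |X s (f i) - k| + R

structure RayL (s : Stair) (A : ℕ) (ω : Env) (f : ℕ → V) : Prop where
  ray : Ray ω f
  side : ∀ i, X s (f i) ≤ 0
  cone : ∃ R, Cone s A R 0 0 f

structure RayR (s : Stair) (A : ℕ) (ω : Env) (f : ℕ → V) : Prop where
  ray : Ray ω f
  side : ∀ i, 1 ≤ X s (f i)
  cone : ∃ R, Cone s A R 0 0 f

/-- The two rays form a bigeodesic up to a bounded error. -/
def Quasi (ω : Env) (l r : ℕ → V) : Prop :=
  ∃ m : ℝ, ∀ i j, W ω l i + W ω r j + m ≤ T ω (l i) (r j)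

/-- The Busemann functions of the two rays differ by a nonconstant function. -/
def Sep (ω : Env) (f g : ℕ → V) : Prop :=
  ∃ δ : ℝ, 0 < δ ∧ ∃ j j', ∀ k k',
    (W ω g k - W ω g j') + (W ω f k' - W ω f j) + δ ≤ T ω (f j) (g k) + T ω (g j') (f k')

/-- `i` is the first index at which `f` is in column `k`. -/
def FirstHit (s : Stair) (f : ℕ → V) (k : ℤ) (i : ℕ) : Prop :=
  X s (f i) = k ∧ ∀ i', i' < i → X s (f i') ≠ k

/-- Half-plane Busemann function on column `0`. -/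
noncomputable def bL (s : Stair) (ω : Env) (l : ℕ → V) (y : ℤ) : ℝ :=
  ⨅ i, (TS ω (HLe s 0) (l i) (pt s 0 y) - W ω l i)

/-- Half-plane Busemann function on column `1`. -/
noncomputable def bR (s : Stair) (ω : Env) (r : ℕ → V) (y : ℤ) : ℝ :=
  ⨅ j, (TS ω (HGe s 1) (r j) (pt s 1 y) - W ω r j)

/-- Cost of crossing the cut once, in row `y`. -/
noncomputable def WW (s : Stair) (ω : Env) (l r : ℕ → V) (y : ℤ) : ℝ :=
  bL s ω l y + tau ω s(pt s 0 y, pt s 1 y) + bR s ω r y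

/-- Increments of `f` are at most those of `g`. -/
def Le (f g : ℤ → ℝ) : Prop := ∀ y y', y ≤ y' → f y' - f y ≤ g y' - g y

/-- Increments of `g - f` are unbounded above. -/
def Ub (f g : ℤ → ℝ) : Prop := ∀ M : ℝ, ∃ y y', y ≤ y' ∧ M ≤ (g y' - g y) - (f y' - f y)

abbrev FF := (ℤ → ℝ) × (ℤ → ℝ)

/-- Strict antitone order on pairs. -/
def Prec (P P' : FF) : Prop := Le P.1 P'.1 ∧ Ub P.1 P'.1 ∧ Le P'.2 P.2 ∧ Ub P'.2 P.2

/-- Mass of the gap between two pairs on `[y, y']`. -/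
def Dm (P P' : FF) (y y' : ℤ) : ℝ :=
  ((P'.1 y' - P'.1 y) - (P.1 y' - P.1 y)) + ((P.2 y' - P.2 y) - (P'.2 y' - P'.2 y))

/-- The pair of Busemann functions. -/
noncomputable def pr (s : Stair) (ω : Env) (l r : ℕ → V) : FF := (bL s ω l, bR s ω r)

/-- A record in row `y`, with quality `(R, Λ, K)`. -/
structure Rec (s : Stair) (A R Λ K : ℕ) (y : ℤ) (ω : Env) (l r : ℕ → V) : Prop where
  hl : RayL s A ω l
  hr : RayR s A ω r
  near : ∀ i j, W ω l i + W ω r j + WW s ω l r y - Λ ≤ T ω (l i) (r j)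
  rob : ∀ i j (p : Zd.Walk (l i) (r j)),
    (In (Box s 0 y R ∩ HLe s 0)ᶜ p ∨ In (Box s 0 y R ∩ HGe s 1)ᶜ p) →
      W ω l i + W ω r j + WW s ω l r y + 1 ≤ wt ω p
  loc : ∀ u ∈ Box s 0 y R, ∀ u' ∈ Box s 0 y R, ∀ y' : ℤ, (K : ℤ) ≤ |y' - y| →
    T ω u u' + Λ + 2 ≤ T ω u (pt s 0 y') + T ω (pt s 0 y') u'

/-- A robust bigeodesic through the box around `pt s k y`. -/
structure RC (s : Stair) (A R K : ℕ) (η : ℝ) (k y : ℤ) (ω : Env) (l r : ℕ → V) : Prop where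
  hl : Ray ω l
  hr : Ray ω r
  sl : ∀ i, X s (l i) ≤ k
  sr : ∀ j, k + 1 ≤ X s (r j)
  cl : Cone s A R k y l
  cr : Cone s A R k y r
  bl : l 0 ∈ Box s k y R
  br : r 0 ∈ Box s k y R
  add : ∀ i j, T ω (l i) (r j) = W ω l i + TS ω (Box s k y R) (l 0) (r 0) + W ω r j
  rob : ∀ i j (p : Zd.Walk (l i) (r j)), (l 0 ∉ p.support ∨ r 0 ∉ p.support) →
    T ω (l i) (r j) + η ≤ wt ω p
  loc : ∀ u ∈ Box s k y R, ∀ u' ∈ Box s k y R, ∀ y' : ℤ, (K : ℤ) ≤ |y' - y| →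
    T ω u u' + η ≤ T ω u (pt s k y') + T ω (pt s k y') u'

/-- Two robust bigeodesics with a common left ray which branch in the box. -/
structure NC (s : Stair) (A R K : ℕ) (η : ℝ) (k y : ℤ) (ω : Env) (l r₁ r₂ : ℕ → V) : Prop where
  c1 : RC s A R K η k y ω l r₁
  c2 : RC s A R K η k y ω l r₂
  x1 : ∀ i j, T ω (l i) (r₁ j) + η ≤ T ω (l i) (r₂ 0) + T ω (r₂ 0) (r₁ j)
  x2 : ∀ i j, T ω (l i) (r₂ j) + η ≤ T ω (l i) (r₁ 0) + T ω (r₁ 0) (r₂ j)

/-- The branching event. -/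
def NEv (s : Stair) (A R K : ℕ) (η : ℝ) (k y : ℤ) : Set Env :=
  {ω | ∃ l r₁ r₂, NC s A R K η k y ω l r₁ r₂}

/-- A robust curve whose incoming slope (at distance `n₁`) exceeds its outgoing slope
(at distance `n₂`) by at least `γ`. -/
def KinkD (s : Stair) (A R K : ℕ) (η γ : ℝ) (n₁ n₂ : ℕ) (k y : ℤ) : Set Env :=
  {ω | ∃ l r i j, RC s A R K η k y ω l r ∧ FirstHit s l (k - n₁) i ∧ FirstHit s r (k + n₂) j ∧
    γ * n₁ * n₂ ≤ -((((l i).2 - y : ℤ) : ℝ) * n₂ + (((r j).2 - y : ℤ) : ℝ) * n₁)}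

/-- A robust curve whose two slopes differ by at least `γ`. -/
def Kink (s : Stair) (A R K : ℕ) (η γ : ℝ) (n₁ n₂ : ℕ) (k y : ℤ) : Set Env :=
  {ω | ∃ l r i j, RC s A R K η k y ω l r ∧ FirstHit s l (k - n₁) i ∧ FirstHit s r (k + n₂) j ∧
    γ * n₁ * n₂ ≤ |(((l i).2 - y : ℤ) : ℝ) * n₂ + (((r j).2 - y : ℤ) : ℝ) * n₁|}

/-- Almost sure regularity of the environment. -/
structure Nice (ω : Env) : Prop where
  pos : ∀ e, 0 < ω e
  fin : ∀ (x : V) (r : ℝ), {y | T ω x y ≤ r}.Finite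
  uniq : ∀ x y (p p' : Zd.Walk x y), p.IsPath → p'.IsPath → wt ω p = wt ω p' → p = p'

/-- `u` lies on a geodesic from `a` to `v`. -/
def Btw (ω : Env) (a u v : V) : Prop := T ω a u + T ω u v = T ω a v

open Classical in
/-- Long self-avoiding paths have at least half of their edge weights in `D`. -/
def PeiP (D : Set ℝ) (ε : ℝ) (Q : ℕ) (ω : Env) : Prop :=
  ∀ v w (p : Zd.Walk v w), p.IsPath → ε * (nrm v : ℝ) + Q ≤ p.length →
    p.length ≤ 2 * p.edges.countP (fun e => decide (tau ω e ∈ D))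

/-- Linear lower bound for passage times. -/
def LowP (c ε : ℝ) (Q : ℕ) (ω : Env) : Prop :=
  ∀ v w, c * (nrm (w - v) : ℝ) - ε * (nrm v : ℝ) - Q ≤ T ω v w

/-- Boundary of the rectangle `[x₁, x₂] × [y₁, y₂]`. -/
def RB (x₁ x₂ y₁ y₂ : ℤ) : Set V :=
  {b | x₁ ≤ b.1 ∧ b.1 ≤ x₂ ∧ y₁ ≤ b.2 ∧ b.2 ≤ y₂ ∧ (b.1 = x₁ ∨ b.1 = x₂ ∨ b.2 = y₁ ∨ b.2 = y₂)}

/-- Every far point is surrounded, at every linear scale, by a cheap rectangle. -/
def LoopP (C ε : ℝ) (Q : ℕ) (ω : Env) : Prop :=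
  ∀ (v : V) (n : ℕ), ε * (nrm v : ℝ) + Q ≤ n → ∃ x₁ x₂ y₁ y₂ : ℤ,
    v.1 - 2 * n ≤ x₁ ∧ x₁ < v.1 - n ∧ v.1 + n < x₂ ∧ x₂ ≤ v.1 + 2 * n ∧
    v.2 - 2 * n ≤ y₁ ∧ y₁ < v.2 - n ∧ v.2 + n < y₂ ∧ y₂ ≤ v.2 + 2 * n ∧
    ∀ b ∈ RB x₁ x₂ y₁ y₂, ∀ b' ∈ RB x₁ x₂ y₁ y₂, T ω b b' ≤ C * n

/-- Moving the starting point towards the target along the boundary of `H` gains almost the
full passage time. -/
def SP (s : Stair) (H : Set V) (ω : Env) : Prop :=
  ∀ ε : ℝ, 0 < ε → ∃ Q : ℝ, ∀ a u b : ℤ, a ≤ u → u ≤ b →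
    T ω (pt s 0 a) (pt s 0 u) - ε * ((|a| + |u| : ℤ) : ℝ) - Q ≤
      TS ω H (pt s 0 a) (pt s 0 b) - TS ω H (pt s 0 u) (pt s 0 b)

/-- The sequence crosses the half-line in direction `e` infinitely often. -/
def Vis (e : V) (g : ℕ → V) : Prop :=
  ∃ᶠ i in Filter.atTop,
    (e.1 * (g i).2 - e.2 * (g i).1) * (e.1 * (g (i + 1)).2 - e.2 * (g (i + 1)).1) ≤ 0 ∧
      0 < e.1 * (g i).1 + e.2 * (g i).2

/-- The sequence eventually avoids the cone of aperture `δ` around direction `e`. -/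
def Avoid (δ : ℝ) (e : V) (g : ℕ → V) : Prop :=
  ∀ᶠ i in Filter.atTop, ∀ t : ℝ, 0 ≤ t →
    δ * (nrm (g i) : ℝ) < |((g i).1 : ℝ) - t * e.1| + |((g i).2 : ℝ) - t * e.2|

/-- The two sequences are eventually linearly far apart. -/
def Apart (δ : ℝ) (f g : ℕ → V) : Prop :=
  ∀ᶠ i in Filter.atTop, ∀ j, δ * (nrm (g i) : ℝ) < (nrm (g i - f j) : ℝ)

/-- Local quality needed to create records in row `0`. -/
structure LocP (s : Stair) (b₀ : ℝ) (R K : ℕ) (C : ℝ) (ω : Env) : Prop where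
  heavy : ∀ k : ℤ, (k = 0 ∨ k = 1) → ∀ w (p : Zd.Walk (pt s k 0) w), p.IsPath → p.length + 1 = R →
    p.length ≤ 2 * p.edges.countP (fun e => @decide (b₀ ≤ tau ω e) (Classical.dec _))
  small : ∀ σ : Finset E, (∀ e ∈ σ, ∀ v ∈ e.1, v ∈ Box s 0 0 R) → ∑ e ∈ σ, (ω e : ℝ) ≤ C
  far : ∀ u ∈ Box s 0 0 R, ∀ u' ∈ Box s 0 0 R, ∀ y' : ℤ, (K : ℤ) ≤ |y'| →
    T ω u u' + 3 * C ≤ T ω u (pt s 0 y') + T ω (pt s 0 y') u'

/-- The staircase following the line of direction `(p, q)`. -/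
def mkStair (p : ℤ) (q : ℕ) (hq : 0 < q) (hp : |p| ≤ q) : Stair where
  c y := (p * y) / q
  p := p
  q := q
  hq := hq
  c0 := by simp
  lip y := by
    have hq' : (0 : ℤ) < q := by exact_mod_cast hq
    have h1 := Int.mul_ediv_add_emod (p * y) q
    have h2 := Int.mul_ediv_add_emod (p * (y + 1)) q
    have h3 := Int.emod_nonneg (p * y) hq'.ne'
    have h4 := Int.emod_lt_of_pos (p * y) hq'
    have h5 := Int.emod_nonneg (p * (y + 1)) hq'.ne'
    have h6 := Int.emod_lt_of_pos (p * (y + 1)) hq'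
    rw [abs_le] at hp ⊢
    constructor <;> nlinarith [hp.1, hp.2]
  per y := by
    have hq' : (q : ℤ) ≠ 0 := by exact_mod_cast hq.ne'
    rw [mul_add, Int.add_mul_ediv_right _ _ hq']

/-- Excess of the best path forced through row `0` of the cut. -/
noncomputable def defect (s : Stair) (n₁ n₂ : ℕ) (a b : ℤ) (ω : Env) : ℝ :=
  TS ω (Strip s (-n₁) 0) (pt s (-n₁) a) (pt s 0 0) + tau ω s(pt s 0 0, pt s 1 0) +
    TS ω (Strip s 1 n₂) (pt s 1 0) (pt s n₂ b) - TS ω (Strip s (-n₁) n₂) (pt s (-n₁) a) (pt s n₂ b)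

/-- The points of the curve on columns `-n`, `2n`, `3n` are almost aligned. -/
def TubeOK (s : Stair) (n : ℕ) (b : ℝ) (l r : ℕ → V) : Prop :=
  ∀ i j j', FirstHit s l (-n) i → FirstHit s r (3 * n) j → j' ≤ j → X s (r j') = 2 * n →
    ((|4 * (r j').2 - (l i).2 - 3 * (r j).2| : ℤ) : ℝ) ≤ b

/-- `k` records in row `0`, strictly ordered. -/
def Chain (s : Stair) (A R Λ K k : ℕ) : Set Env :=
  {ω | ∃ l r : Fin k → ℕ → V, (∀ i, Rec s A R Λ K 0 ω (l i) (r i)) ∧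
    ∀ i j, i < j → Prec (pr s ω (l i) (r i)) (pr s ω (l j) (r j))}

/-- A record in row `n * (K + 1) * q` for which crossing in row `0` is almost as good. -/
def NearE (s : Stair) (A R Λ K Λ₂ : ℕ) (n : ℤ) : Set Env :=
  {ω | ∃ l r, Rec s A R Λ K (n * (K + 1) * s.q) ω l r ∧
    WW s ω l r 0 ≤ WW s ω l r (n * (K + 1) * s.q) + Λ₂}

/-- Two rays from the origin forming a bigeodesic. -/
structure Bi (ω : Env) (l r : ℕ → V) : Prop where
  hl : Ray ω l
  hr : Ray ω r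
  l0 : l 0 = (0, 0)
  r0 : r 0 = (0, 0)
  add : ∀ i j, T ω (l i) (r j) = W ω l i + W ω r j

/-- Cone avoidance for ends that visit a column infinitely often. -/
def Good (δ : ℝ) (ω : Env) : Prop :=
  ∀ l r, Bi ω l r → Apart δ l r ∧ ∀ s : Stair,
    (∃ᶠ j in Filter.atTop, X s (r j) = 0 ∧ 0 < (r j).2) →
      Avoid δ (s.p, (s.q : ℤ)) l ∧ Avoid δ (-s.p, -(s.q : ℤ)) r

/-- No branching of quasi-bigeodesics to the right. -/
def NoTriple (s : Stair) (A : ℕ) (ω : Env) : Prop :=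
  ∀ l r₁ r₂, RayL s A ω l → RayR s A ω r₁ → RayR s A ω r₂ → Quasi ω l r₁ → Quasi ω l r₂ →
    ¬ Sep ω r₁ r₂

/-- Records in distant rows are strictly ordered. -/
def OrdP (s : Stair) (A : ℕ) (ω : Env) : Prop :=
  ∀ (R Λ K : ℕ) (y y' : ℤ) l r l' r', Rec s A R Λ K y ω l r → Rec s A R Λ K y' ω l' r' →
    (K : ℤ) ≤ |y - y'| →
      Prec (pr s ω l r) (pr s ω l' r') ∨ Prec (pr s ω l' r') (pr s ω l r)

/-- Standing assumptions on the edge law. -/
structure Law (G : Measure ℝ≥0) : Prop where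
  prob : IsProbabilityMeasure G
  noat : NoAtoms G
  int : Integrable (fun t : ℝ≥0 => (t : ℝ)) G

end P158
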