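import Vale.Agent.P158.Trn
import Vale.Agent.P158.Sym
import Vale.Agent.P158.Meas

open scoped NNReal ENNReal
open MeasureTheory Filter Topology

namespace P158

/-! Elementary properties of the truncation. -/

variable {M : ℕ} {ω ω' : Env}

theorem frac_TrA {s : ℝ} (hs : 0 < s) : 0 < s / (1 + s) ∧ s / (1 + s) < 1 ∧ s / (1 + s) ≤ s := by
  have h1 : 0 < 1 + s := by linarith
  refine ⟨div_pos hs h1, (div_lt_one h1).2 (by linarith), ?_⟩
  rw [div_le_iff₀ h1]; nlinarith

theorem squash_strictMono (L : ℝ) : StrictMono (squash L) := by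
  intro a b hab
  unfold squash
  by_cases ha : a ≤ L
  · by_cases hb : b ≤ L
    · rw [if_pos ha, if_pos hb]; exact hab
    · rw [if_pos ha, if_neg hb]
      have := (frac_TrA (s := b - L) (by linarith [not_le.1 hb])).1
      linarith
  · have hb : ¬ b ≤ L := fun h => ha (le_trans hab.le h)
    rw [if_neg ha, if_neg hb]
    have h1 : 0 < 1 + (a - L) := by linarith [not_le.1 ha]
    have h2 : 0 < 1 + (b - L) := by linarith [not_le.1 hb]
    have : (a - L) / (1 + (a - L)) < (b - L) / (1 + (b - L)) := by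
      rw [div_lt_div_iff₀ h1 h2]; nlinarith
    linarith

theorem squash_le_TrA (L t : ℝ) : squash L t ≤ t := by
  unfold squash
  split_ifs with h
  · exact le_rfl
  · have := (frac_TrA (s := t - L) (by linarith [not_le.1 h])).2.2
    linarith

theorem squash_le_add_TrA (L t : ℝ) : squash L t ≤ L + 1 := by
  unfold squash
  split_ifs with h
  · linarith
  · have := (frac_TrA (s := t - L) (by linarith [not_le.1 h])).2.1
    linarith

theorem squash_of_le_TrA {L t : ℝ} (h : t ≤ L) : squash L t = t := by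
  unfold squash; rw [if_pos h]

theorem le_cap (M : ℕ) (ω : Env) (e : E) : (M : ℝ) ≤ cap M ω e := by
  unfold cap
  have : (0 : ℝ) ≤ 16 * M * (clE M ω e).ncard := by positivity
  linarith

theorem squash_nonneg_TrA {L t : ℝ} (hL : 0 ≤ L) (ht : 0 ≤ t) : 0 ≤ squash L t := by
  have := (squash_strictMono L).monotone ht
  rwa [squash_of_le_TrA hL] at this

theorem trunc_coe (M : ℕ) (ω : Env) (e : E) :
    (trunc M ω e : ℝ) = squash (cap M ω e) (ω e) := by
  unfold trunc
  exact Real.coe_toNNReal _ (squash_nonneg_TrA (le_trans (Nat.cast_nonneg M) (le_cap M ω e))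
    (ω e).2)
theorem trunc_le (M : ℕ) (ω : Env) (e : E) : (trunc M ω e : ℝ) ≤ ω e := by
  rw [trunc_coe]; exact squash_le_TrA _ _
theorem trunc_of_le {e : E} (h : (ω e : ℝ) ≤ cap M ω e) : trunc M ω e = ω e := by
  apply NNReal.coe_injective
  rw [trunc_coe, squash_of_le_TrA h]
theorem cap_le_trunc {e : E} (h : cap M ω e ≤ ω e) : cap M ω e ≤ trunc M ω e := by
  rw [trunc_coe]
  have := (squash_strictMono (cap M ω e)).monotone h
  rwa [squash_of_le_TrA le_rfl] at this
theorem trunc_le_cap (M : ℕ) (ω : Env) (e : E) : (trunc M ω e : ℝ) ≤ cap M ω e + 1 := by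
  rw [trunc_coe]; exact squash_le_add_TrA _ _
theorem trunc_heavy_iff (M : ℕ) (ω : Env) (e : E) :
    (M : ℝ) < trunc M ω e ↔ (M : ℝ) < ω e := by
  rw [trunc_coe]
  have h := (squash_strictMono (cap M ω e)).lt_iff_lt (a := (M : ℝ)) (b := (ω e : ℝ))
  rwa [squash_of_le_TrA (le_cap M ω e)] at h

theorem Bad_congr_TrA (h : ∀ e : E, (M : ℝ) < ω e ↔ (M : ℝ) < ω' e) (v : V) :
    Bad M ω v ↔ Bad M ω' v := by
  unfold Bad
  refine exists_congr fun w => and_congr_right fun hw => ?_
  have h1 := tau_edge ω ⟨s(v, w), (SimpleGraph.mem_edgeSet _).2 hw⟩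
  have h2 := tau_edge ω' ⟨s(v, w), (SimpleGraph.mem_edgeSet _).2 hw⟩
  simp only at h1 h2
  rw [h1, h2]; exact h _

theorem Cl_congr (h : ∀ e : E, (M : ℝ) < ω e ↔ (M : ℝ) < ω' e) (v : V) :
    Cl M ω v = Cl M ω' v := by
  unfold Cl
  have : {u | Bad M ω u} = {u | Bad M ω' u} := Set.ext fun u => Bad_congr_TrA h u
  rw [this]
theorem cap_congr (h : ∀ e : E, (M : ℝ) < ω e ↔ (M : ℝ) < ω' e) (e : E) :
    cap M ω e = cap M ω' e := by
  unfold cap clE
  simp only [Cl_congr h]
theorem trunc_injective (M : ℕ) : Function.Injective (trunc M) := by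
  intro ω ω' h
  have hh : ∀ e : E, (M : ℝ) < ω e ↔ (M : ℝ) < ω' e := fun e => by
    rw [← trunc_heavy_iff, ← trunc_heavy_iff M ω', h]
  funext e
  apply NNReal.coe_injective
  apply (squash_strictMono (cap M ω e)).injective
  have h1 := trunc_coe M ω e
  have h2 := trunc_coe M ω' e
  rw [← cap_congr hh] at h2
  rw [← h1, ← h2, h]

theorem measurableSet_Bad_TrA (M : ℕ) (v : V) : MeasurableSet {ω | Bad M ω v} := by
  unfold Bad
  refine ex_Meas fun w => ?_
  refine and_Meas (MeasurableSet.const _) ?_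
  exact measurableSet_lt measurable_const (measurable_tau _)

theorem measurableSet_mem_Cl (M : ℕ) (v w : V) : MeasurableSet {ω | w ∈ Cl M ω v} := by
  show MeasurableSet {ω | ∃ p : Zd.Walk v w, ∀ u, u ∈ p.support → Bad M ω u}
  refine ex_Meas fun p => all_Meas fun u => imp_Meas (measurableSet_Bad_TrA M u)

theorem measurable_cap (M : ℕ) (e : E) : Measurable fun ω => cap M ω e := by
  have h : Measurable fun ω => clE M ω e := by
    refine measurable_set_iff.2 fun w => ?_
    refine measurableSet_setOf.1 ?_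
    show MeasurableSet {ω | ∃ v, v ∈ e.1 ∧ w ∈ Cl M ω v}
    exact ex_Meas fun v => and_Meas (MeasurableSet.const _) (measurableSet_mem_Cl M v w)
  have h2 : Measurable fun ω => ((clE M ω e).ncard : ℝ) :=
    (measurable_from_top (f := fun k : ℕ => (k : ℝ))).comp (measurable_ncard.comp h)
  unfold cap
  exact measurable_const.add (measurable_const.mul h2)

theorem measurable_trunc (M : ℕ) : Measurable (trunc M) := by
  refine measurable_pi_iff.2 fun e => ?_
  unfold trunc squash
  have h1 := measurable_cap M e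
  have h2 : Measurable fun ω : Env => (ω e : ℝ) := (measurable_pi_apply e).coe_nnreal_real
  refine Measurable.real_toNNReal ?_
  refine Measurable.ite (measurableSet_le h2 h1) h2 ?_
  exact h1.add ((h2.sub h1).div (measurable_const.add (h2.sub h1)))

theorem measurableEmbedding_trunc (M : ℕ) : MeasurableEmbedding (trunc M) :=
  (measurable_trunc M).measurableEmbedding (trunc_injective M)

theorem Bad_act_TrA (M : ℕ) (σ : Zd ≃g Zd) (ω : Env) (v : V) :
    Bad M (act σ ω) v ↔ Bad M ω (σ v) := by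
  unfold Bad
  constructor
  · rintro ⟨w, h1, h2⟩
    exact ⟨σ w, σ.map_rel_iff.2 h1, by rwa [tau_act] at h2⟩
  · rintro ⟨w, h1, h2⟩
    refine ⟨σ.symm w, σ.map_rel_iff.1 (by simpa using h1), ?_⟩
    rw [tau_act]; simpa using h2

theorem Cl_act_TrA (M : ℕ) (σ : Zd ≃g Zd) (ω : Env) (v w : V) :
    w ∈ Cl M (act σ ω) v ↔ σ w ∈ Cl M ω (σ v) := by
  constructor
  · rintro ⟨p, hp⟩
    refine ⟨p.map σ.toHom, fun u hu => ?_⟩
    rw [support_map_Sym, List.mem_map] at hu
    obtain ⟨u', h1, rfl⟩ := hu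
    exact (Bad_act_TrA M σ ω u').1 (hp u' h1)
  · rintro ⟨q, hq⟩
    obtain ⟨p, h1, -⟩ := exists_map_Sym σ q
    refine ⟨p, fun u hu => (Bad_act_TrA M σ ω u).2 (hq _ ?_)⟩
    rw [← h1]; exact List.mem_map_of_mem hu

theorem cap_act_TrA (M : ℕ) (σ : Zd ≃g Zd) (ω : Env) (e : E) :
    cap M (act σ ω) e = cap M ω (σ.mapEdgeSet e) := by
  have h : clE M ω (σ.mapEdgeSet e) = σ '' clE M (act σ ω) e := by
    obtain ⟨e, he⟩ := e
    induction e using Sym2.ind with
    | _ x y =>
      ext w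
      show (∃ v ∈ s(σ x, σ y), w ∈ Cl M ω v) ↔ ∃ u, (∃ v ∈ s(x, y), u ∈ Cl M (act σ ω) v) ∧ σ u = w
      constructor
      · rintro ⟨v, hv, hw⟩
        refine ⟨σ.symm w, ?_, by simp⟩
        rcases Sym2.mem_iff.1 hv with rfl | rfl
        · exact ⟨x, by simp, (Cl_act_TrA M σ ω _ _).2 (by simpa using hw)⟩
        · exact ⟨y, by simp, (Cl_act_TrA M σ ω _ _).2 (by simpa using hw)⟩
      · rintro ⟨u, ⟨v, hv, hu⟩, rfl⟩
        refine ⟨σ v, ?_, (Cl_act_TrA M σ ω _ _).1 hu⟩
        rcases Sym2.mem_iff.1 hv with rfl | rfl <;> simp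
  unfold cap
  rw [h, Set.ncard_image_of_injective _ σ.injective]

theorem trunc_act (M : ℕ) (σ : Zd ≃g Zd) (ω : Env) :
    trunc M (act σ ω) = act σ (trunc M ω) := by
  funext e
  show (squash (cap M (act σ ω) e) (act σ ω e)).toNNReal =
    (squash (cap M ω (σ.mapEdgeSet e)) (ω (σ.mapEdgeSet e))).toNNReal
  rw [cap_act_TrA]; rfl

end P158
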