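import Vale.Agent.P158.Bd
import Vale.Agent.P158.TrA

open scoped NNReal ENNReal
open MeasureTheory Filter Topology

namespace P158

/-! Bigeodesics do not feel the truncation. -/

theorem first_Red {C : Set V} {a b : V} (p : Zd.Walk a b) (ha : a ∉ C)
    (h : ∃ c ∈ p.support, c ∈ C) : ∃ (u : V) (p₁ : Zd.Walk a u) (p₂ : Zd.Walk u b),
      p = p₁.append p₂ ∧ In Cᶜ p₁ ∧ ∃ c ∈ C, Zd.Adj u c := by
  induction p with
  | nil =>
    obtain ⟨c, h1, h2⟩ := h
    rw [SimpleGraph.Walk.support_nil, List.mem_singleton] at h1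
    exact absurd (h1 ▸ h2) ha
  | @cons x y z hadj q ih =>
    by_cases hy : y ∈ C
    · exact ⟨x, .nil, .cons hadj q, rfl, fun w hw => by
        rw [SimpleGraph.Walk.support_nil, List.mem_singleton] at hw
        exact hw ▸ ha, y, hy, hadj⟩
    · obtain ⟨c, h1, h2⟩ := h
      rw [SimpleGraph.Walk.support_cons, List.mem_cons] at h1
      obtain ⟨u, p₁, p₂, e, h3, h4⟩ := ih hy ⟨c, h1.resolve_left fun e => ha (e ▸ h2), h2⟩
      refine ⟨u, .cons hadj p₁, p₂, by rw [e]; rfl, fun w hw => ?_, h4⟩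
      rw [SimpleGraph.Walk.support_cons, List.mem_cons] at hw
      rcases hw with rfl | hw
      · exact ha
      · exact h3 w hw

theorem notMem_Red {C : Set V} {w : V} (hw : Out C w) : w ∉ C := by
  obtain ⟨_, -, p, hp⟩ := hw 0
  exact hp w p.start_mem_support

theorem Out.conn_Red {C : Set V} {a u : V} (h : Out C a) (hc : Conn Cᶜ a u) : Out C u :=
  fun N => by
    obtain ⟨w, h1, h2⟩ := h N
    exact ⟨w, h1, hc.symm.trans h2⟩

theorem Out.mono_Red {C D : Set V} {a : V} (h : Out D a) (hc : C ⊆ D) : Out C a := fun N => by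
  obtain ⟨w, h1, h2⟩ := h N
  exact ⟨w, h1, h2.mono (Set.compl_subset_compl.2 hc)⟩

theorem wt_le_Red (ω : Env) {x y : V} (p : Zd.Walk x y) {a : ℝ}
    (h : ∀ e ∈ p.edges, tau ω e ≤ a) : wt ω p ≤ p.length * a := by
  have := List.sum_le_card_nsmul (p.edges.map (tau ω)) a fun x hx => by
    obtain ⟨e, he, rfl⟩ := List.mem_map.1 hx
    exact h e he
  simpa [wt] using this

theorem le_wt_Red (ω : Env) {x y : V} (p : Zd.Walk x y) {e : Sym2 V} (h : e ∈ p.edges) :
    tau ω e ≤ wt ω p :=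
  List.single_le_sum (fun z hz => by
    obtain ⟨e, -, rfl⟩ := List.mem_map.1 hz
    exact tau_nonneg _ _) _ (List.mem_map_of_mem h)

/-- Edges above the truncation level. -/
def Over (M : ℕ) (ω : Env) (e : Sym2 V) : Prop :=
  ∃ h : e ∈ Zd.edgeSet, cap M ω ⟨e, h⟩ < ω ⟨e, h⟩

theorem Over.heavy {M : ℕ} {ω : Env} {e : Sym2 V} (h : Over M ω e) : (M : ℝ) < tau ω e := by
  obtain ⟨h1, h2⟩ := h
  rw [tau_edge ω ⟨e, h1⟩]
  exact (le_cap M ω _).trans_lt h2

open Classical in
theorem surg_Red {M : ℕ} {ω : Env} (hfin : ∀ v, (Cl M ω v).Finite) {a b x y : V}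
    (p : Zd.Walk a b) (he : s(x, y) ∈ p.edges) (ho : Over M ω s(x, y))
    (ha : Out (Cl M ω x) a) (hb : Out (Cl M ω x) b) :
    ∃ p' : Zd.Walk a b, (∀ e ∈ p'.edges, Over M ω e → e ∈ p.edges) ∧
      p'.edges.countP (fun e => decide (Over M ω e)) <
        p.edges.countP (fun e => decide (Over M ω e)) ∧
      ∀ ω' : Env, (∀ e, tau ω' e ≤ tau ω e) →
        wt ω' p' + tau ω' s(x, y) ≤ wt ω' p + cap M ω ⟨_, ho.1⟩ := by
  have hx : Bad M ω x := ⟨y, ho.1, ho.heavy⟩
  have hxC : x ∈ Cl M ω x := Conn.refl hx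
  obtain ⟨u, p₁, p₂, rfl, h1, hu⟩ := first_Red p (notMem_Red ha)
    ⟨x, p.fst_mem_support_of_mem_edges he, hxC⟩
  have he2 : s(x, y) ∈ p₂.reverse.edges := by
    rw [SimpleGraph.Walk.edges_append, List.mem_append] at he
    rw [SimpleGraph.Walk.edges_reverse, List.mem_reverse]
    exact he.resolve_left fun h => h1 x (p₁.fst_mem_support_of_mem_edges h) hxC
  obtain ⟨w, q₁, q₂, e2, h2, hw⟩ := first_Red p₂.reverse (notMem_Red hb)
    ⟨x, p₂.reverse.fst_mem_support_of_mem_edges he2, hxC⟩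
  have he3 : s(x, y) ∈ q₂.edges := by
    rw [e2, SimpleGraph.Walk.edges_append, List.mem_append] at he2
    exact he2.resolve_left fun h => h2 x (q₁.fst_mem_support_of_mem_edges h) hxC
  obtain rfl : p₂ = (q₁.append q₂).reverse := by rw [← e2, SimpleGraph.Walk.reverse_reverse]
  have bad : ∀ c ∈ Cl M ω x, Bad M ω c := fun c ⟨q, hq⟩ => hq c q.end_mem_support
  obtain ⟨r, r1, r2⟩ := bd (hfin x) (fun c hc c' hc' => by
      obtain ⟨q, hq⟩ := (Conn.symm hc).trans hc'
      refine ⟨q, fun z hz => Conn.trans hc ⟨q.takeUntil z hz, fun t ht => hq t ?_⟩⟩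
      exact q.support_takeUntil_subset hz ht)
    hu hw (ha.conn_Red ⟨p₁, h1⟩) (hb.conn_Red ⟨q₁, h2⟩)
  have light : ∀ e ∈ r.edges, tau ω e ≤ M := fun e her => by
    obtain ⟨z, hz, hzC, c, hc, hzc⟩ := r1 e her
    obtain ⟨t, rfl⟩ := Sym2.mem_iff_exists.1 hz
    by_contra hl
    have hzb : Bad M ω z := ⟨t, r.adj_of_mem_edges her, not_le.1 hl⟩
    refine hzC (Conn.trans hc ⟨.cons hzc.symm .nil, fun t ht => ?_⟩)
    simp only [SimpleGraph.Walk.support_cons, SimpleGraph.Walk.support_nil, List.mem_cons,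
      List.not_mem_nil, or_false] at ht
    rcases ht with rfl | rfl
    · exact bad _ hc
    · exact hzb
  have nov : ∀ e ∈ r.edges, ¬ Over M ω e := fun e her h => (light e her).not_gt h.heavy
  refine ⟨p₁.append (r.append q₁.reverse), fun e h h' => ?_, ?_, fun ω' hω' => ?_⟩
  · simp only [SimpleGraph.Walk.edges_append, SimpleGraph.Walk.edges_reverse, List.mem_append,
      List.mem_reverse] at h ⊢
    rcases h with h | h | h
    · exact Or.inl h
    · exact absurd h' (nov e h)
    · exact Or.inr (Or.inl h)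
  · have c1 : r.edges.countP (fun e => decide (Over M ω e)) = 0 :=
      List.countP_eq_zero.2 fun e h => by simpa using nov e h
    have c2 : 0 < q₂.edges.countP (fun e => decide (Over M ω e)) :=
      List.countP_pos_iff.2 ⟨_, he3, by simpa using ho⟩
    simp only [SimpleGraph.Walk.edges_append, SimpleGraph.Walk.edges_reverse, List.countP_append,
      List.countP_reverse, c1]
    omega
  · have c1 := wt_le_Red ω' r fun e h => (hω' e).trans (light e h)
    have c2 := le_wt_Red ω' q₂ he3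
    have c3 : (Cl M ω x).ncard ≤ (clE M ω ⟨_, ho.1⟩).ncard :=
      Set.ncard_le_ncard (fun z hz => ⟨x, by simp, hz⟩) (((hfin x).union (hfin y)).subset
        fun z ⟨t, ht, hz⟩ => by
          rcases Sym2.mem_iff.1 ht with rfl | rfl
          · exact Or.inl hz
          · exact Or.inr hz)
    have c4 : (r.length : ℝ) ≤ 16 * (clE M ω ⟨_, ho.1⟩).ncard := by
      exact_mod_cast r2.trans (Nat.mul_le_mul_left _ c3)
    have c5 : (0 : ℝ) ≤ M := Nat.cast_nonneg _
    have c6 := mul_le_mul_of_nonneg_right c4 c5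
    simp only [wt_append, wt_reverse, cap]
    linarith

theorem tau_le_Red (M : ℕ) (ω : Env) (e : Sym2 V) : tau (trunc M ω) e ≤ tau ω e := by
  unfold tau
  split_ifs
  · exact trunc_le _ _ _
  · exact le_rfl

theorem tau_eq_Red {M : ℕ} {ω : Env} {e : Sym2 V} (h : ¬ Over M ω e) :
    tau (trunc M ω) e = tau ω e := by
  unfold tau
  split_ifs with he
  · rw [trunc_of_le (not_lt.1 fun h' => h ⟨he, h'⟩)]
  · rfl

open Classical in
theorem low_Red {M : ℕ} {ω : Env} (hfin : ∀ v, (Cl M ω v).Finite) {a b : V} {D : Set V}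
    (ha : Out D a) (hb : Out D b) (n : ℕ) : ∀ p : Zd.Walk a b,
      p.edges.countP (fun e => decide (Over M ω e)) < n →
      (∀ e ∈ p.edges, Over M ω e → ∀ c ∈ e, Cl M ω c ⊆ D) → T ω a b ≤ wt (trunc M ω) p := by
  induction n with
  | zero => exact fun _ h => absurd h (Nat.not_lt_zero _)
  | succ n ih =>
    intro p hn hp
    by_cases h : ∃ e ∈ p.edges, Over M ω e
    · obtain ⟨e, he, ho⟩ := h
      induction e using Sym2.ind with
      | h x y =>
        have hD := hp _ he ho x (by simp)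
        obtain ⟨p', h1, h2, h3⟩ := surg_Red hfin p he ho (ha.mono_Red hD) (hb.mono_Red hD)
        have h4 := ih p' (by omega) fun e h h' => hp e (h1 e h h') h'
        have h5 := h3 _ (tau_le_Red M ω)
        have h6 := cap_le_trunc ho.2.le
        rw [← tau_edge] at h6
        linarith
    · refine (T_le ω p).trans (le_of_eq ?_)
      unfold wt
      rw [List.map_congr_left fun e he => tau_eq_Red fun h' => h ⟨e, he, h'⟩]

theorem seg_Red {v : ℤ → V} (adj : ∀ i, Zd.Adj (v i) (v (i + 1))) {a b : ℤ} (h : a ≤ b) :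
    ∃ p : Zd.Walk (v a) (v b), (∀ ω, wt ω p = ∑ k ∈ Finset.Ico a b, tau ω s(v k, v (k + 1))) ∧
      ∀ e, e ∈ p.edges ↔ ∃ k ∈ Finset.Ico a b, e = s(v k, v (k + 1)) := by
  induction b, h using Int.le_induction with
  | base => exact ⟨.nil, fun ω => by simp [wt], by simp⟩
  | succ n hn ih =>
    obtain ⟨p, h1, h2⟩ := ih
    have e : Finset.Ico a (n + 1) = insert n (Finset.Ico a n) := by
      ext k
      simp only [Finset.mem_Ico, Finset.mem_insert]
      omega
    refine ⟨p.append (.cons (adj n) .nil), fun ω => ?_, fun e' => ?_⟩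
    · rw [wt_append, wt_cons, h1, e, Finset.sum_insert (by simp)]
      simp [wt, add_comm]
    · rw [e]
      simp [h2, or_comm]

theorem ray_Red {D : Set V} {f : ℕ → V} (inj : Function.Injective f)
    (adj : ∀ i, Zd.Adj (f i) (f (i + 1))) (h : ∀ n, f n ∉ D) : Out D (f 0) := fun N => by
  obtain ⟨n, hn⟩ := ((tendsto_nrm inj).eventually_ge_atTop N).exists
  obtain ⟨p, -, h1, -⟩ := exists_seg adj (Nat.zero_le n)
  refine ⟨_, hn, p, fun w hw => ?_⟩
  obtain ⟨k, -, -, rfl⟩ := (h1 w).1 hw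
  exact h k

theorem far_Red {D : Set V} (hD : D.Finite) {v : ℤ → V} (inj : Function.Injective v)
    (adj : ∀ i, Zd.Adj (v i) (v (i + 1))) (i j : ℤ) :
    ∃ i' ≤ i, ∃ j' ≥ j, Out D (v i') ∧ Out D (v j') := by
  have hf := hD.preimage inj.injOn
  obtain ⟨K, hK⟩ := hf.bddAbove
  obtain ⟨L, hL⟩ := hf.bddBelow
  refine ⟨min i (L - 1), min_le_left _ _, max j (K + 1), le_max_left _ _, ?_, ?_⟩
  · simpa using ray_Red (D := D) (f := fun n => v (min i (L - 1) - n))
      (fun a b h => by simpa using inj h)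
      (fun n => by
        have := (adj (min i (L - 1) - (n + 1 : ℕ))).symm
        rwa [show min i (L - 1) - (n + 1 : ℕ) + 1 = min i (L - 1) - n by push_cast; ring] at this)
      fun n h => by
        have := hL h
        omega
  · simpa using ray_Red (D := D) (f := fun n => v (max j (K + 1) + n))
      (fun a b h => by simpa using inj h)
      (fun n => by
        have := adj (max j (K + 1) + n)
        rwa [add_assoc] at this)
      fun n h => by
        have := hK h
        omega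

theorem red {M : ℕ} {ω : Env} (hfin : ∀ v, (Cl M ω v).Finite) {v : ℤ → V}
    (h : IsBigeodesic ω v) : IsBigeodesic (trunc M ω) v := by
  obtain ⟨inj, adj, geo⟩ := h
  have nov : ∀ k, ¬ Over M ω s(v k, v (k + 1)) := fun k ho => by
    obtain ⟨i, hi, j, hj, h1, h2⟩ := far_Red (hfin (v k)) inj adj k (k + 1)
    obtain ⟨p, p1, p2⟩ := seg_Red adj (show i ≤ j by omega)
    obtain ⟨p', -, -, h3⟩ := surg_Red hfin p
      ((p2 _).2 ⟨k, Finset.mem_Ico.2 ⟨hi, by omega⟩, rfl⟩) ho h1 h2
    have h4 := h3 ω fun _ => le_rfl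
    have h5 := T_le ω p'
    have h6 := ho.2
    rw [← tau_edge] at h6
    rw [p1, geo i j (by omega)] at h4
    linarith
  have add : ∀ (g : ℤ → ℝ) (a b c : ℤ), a ≤ b → b ≤ c → ∑ k ∈ Finset.Ico a c, g k =
      ∑ k ∈ Finset.Ico a b, g k + ∑ k ∈ Finset.Ico b c, g k := fun g a b c h1 h2 => by
    rw [← Finset.sum_union (Finset.Ico_disjoint_Ico_consecutive a b c),
      Finset.Ico_union_Ico_eq_Ico h1 h2]
  refine ⟨inj, adj, fun i j hij => le_antisymm (le_T _ fun p _ => ?_) ?_⟩
  · have hD : (⋃ c ∈ p.support.toFinset, Cl M ω c).Finite :=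
      Set.Finite.biUnion p.support.toFinset.finite_toSet fun c _ => hfin c
    obtain ⟨i', hi, j', hj, h1, h2⟩ := far_Red hD inj adj i j
    obtain ⟨p₁, a1, a2⟩ := seg_Red adj hi
    obtain ⟨p₂, b1, b2⟩ := seg_Red adj hj
    have h3 := low_Red hfin h1 h2 _ (p₁.append (p.append p₂)) (Nat.lt_succ_self _)
      fun e he ho c hc => by
        simp only [SimpleGraph.Walk.edges_append, List.mem_append] at he
        rcases he with he | he | he
        · obtain ⟨k, -, rfl⟩ := (a2 e).1 he
          exact absurd ho (nov k)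
        · obtain ⟨t, rfl⟩ := Sym2.mem_iff_exists.1 hc
          exact Set.subset_biUnion_of_mem (u := fun c => Cl M ω c)
            (List.mem_toFinset.2 (p.fst_mem_support_of_mem_edges he))
        · obtain ⟨k, -, rfl⟩ := (b2 e).1 he
          exact absurd ho (nov k)
    rw [wt_append, wt_append, a1, b1, ← geo i' j' (by omega), add _ i' i j' hi (by omega),
      add _ i j j' hij.le hj] at h3
    simp only [tau_eq_Red (nov _)] at h3 ⊢
    linarith
  · obtain ⟨p, p1, -⟩ := seg_Red adj hij.le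
    rw [← p1]
    exact T_le _ p

end P158
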