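import Vale.Agent.P158.Int
import Vale.Agent.P158.Sym
import Vale.Agent.P158.Cross

open scoped NNReal ENNReal
open MeasureTheory Filter Topology

namespace P158

/-! The block deficiency of the boundary Busemann function has small mean. -/

theorem conn_SA (s : Stair) (a b : ℤ) : Conn (HGe s 0) (pt s 0 a) (pt s 0 b) :=
  conn_HGe s (by simp) (by simp)

theorem TS_sh_SA (s : Stair) (j : ℤ) (ω : Env) (a b : ℤ) :
    TS (act (tr (sh s 0 j)) ω) (HGe s 0) (pt s 0 a) (pt s 0 b) =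
      TS ω (HGe s 0) (pt s 0 (a + j * s.q)) (pt s 0 (b + j * s.q)) := by
  rw [TS_act (S' := HGe s 0) _ _ (fun v => by simp [HGe, X_sh]), tr_apply, tr_apply, pt_sh, pt_sh,
    add_zero]

theorem integral_sh_SA {G : Measure ℝ≥0} (hG : Law G) (s : Stair) (j a b : ℤ) :
    ∫ ω, TS ω (HGe s 0) (pt s 0 (a + j * s.q)) (pt s 0 (b + j * s.q)) ∂PP G =
      ∫ ω, TS ω (HGe s 0) (pt s 0 a) (pt s 0 b) ∂PP G := by
  haveI := hG.prob
  have h := measurePreserving_act G (tr (sh s 0 j))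
  simp only [← TS_sh_SA]
  rw [← integral_map h.aemeasurable (measurable_TS _ _ _).aestronglyMeasurable, h.map_eq]

theorem seq_SA {u d : ℕ → ℝ} {l ε M : ℝ} (hl : 0 ≤ l) (hM : 0 ≤ M) (hu : ∀ j : ℕ, l * M * j ≤ u j)
    (h1 : u 1 ≤ (l + ε) * M) (hd : Monotone d) (e : ∀ j, d j = u 1 - u (j + 1) + u j) (j : ℕ) :
    d j ≤ ε * M := by
  have h2 : ∀ J : ℕ, J * d j ≤ J * u 1 - u (j + J) + u j := by
    intro J
    induction J with
    | zero => simp
    | succ J ih =>
      have := hd (Nat.le_add_right j J)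
      rw [e (j + J)] at this
      rw [← add_assoc]
      push_cast
      linarith
  by_contra hc
  obtain ⟨J, hJ⟩ := exists_nat_gt (u j / (d j - ε * M))
  rw [div_lt_iff₀ (by linarith)] at hJ
  have h3 := hu (j + J)
  have h4 := h2 J
  have h5 := mul_le_mul_of_nonneg_left h1 (Nat.cast_nonneg (α := ℝ) J)
  have h6 : 0 ≤ l * M * j := by positivity
  push_cast at h3
  nlinarith

theorem sA {G : Measure ℝ≥0} (hG : Law G) (s : Stair) {ε : ℝ} (hε : 0 < ε) :
    ∃ (M : ℕ) (ξ : Env → ℝ), 1 ≤ M ∧ Measurable ξ ∧ (∀ ω, 0 ≤ ξ ω) ∧ Integrable ξ (PP G) ∧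
      ∫ ω, ξ ω ∂PP G ≤ ε * M ∧ ∀ ω (b : ℤ), (M * s.q : ℤ) ≤ b →
        TS ω (HGe s 0) (pt s 0 0) (pt s 0 (M * s.q)) - ξ ω ≤
          TS ω (HGe s 0) (pt s 0 0) (pt s 0 b) -
            TS ω (HGe s 0) (pt s 0 (M * s.q)) (pt s 0 b) := by
  haveI := hG.prob
  let t : Env → ℤ → ℤ → ℝ := fun ω a b => TS ω (HGe s 0) (pt s 0 a) (pt s 0 b)
  have hti : ∀ a b, Integrable (fun ω => t ω a b) (PP G) := fun a b =>
    integrable_TS hG (conn_SA s a b)
  let U : ℕ → ℝ := fun n => ∫ ω, t ω 0 (n * s.q) ∂PP G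
  have hU0 : ∀ n, 0 ≤ U n := fun n => integral_nonneg fun ω => TS_nonneg _ _ _ _
  have hbdd : BddBelow (Set.range fun n : ℕ => U (n + 1) / ((n : ℝ) + 1)) :=
    ⟨0, by rintro _ ⟨n, rfl⟩; exact div_nonneg (hU0 _) (by positivity)⟩
  set l := ⨅ n : ℕ, U (n + 1) / ((n : ℝ) + 1) with hl
  have hl0 : 0 ≤ l := Real.iInf_nonneg fun n => div_nonneg (hU0 _) (by positivity)
  have hlU : ∀ n : ℕ, l * n ≤ U n := by
    intro n
    rcases n with _ | n
    · simpa using hU0 0
    · have := ciInf_le hbdd n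
      rw [le_div_iff₀ (by positivity)] at this
      push_cast
      exact this
  obtain ⟨m, hm⟩ := exists_lt_of_ciInf_lt (lt_add_of_pos_right l hε)
  rw [div_lt_iff₀ (by positivity)] at hm
  have hq : (1 : ℤ) ≤ s.q := by exact_mod_cast s.hq
  set M := m + 1 with hM
  have hMq : (1 : ℤ) ≤ (M : ℤ) * s.q := by
    have : (1 : ℤ) ≤ (M : ℤ) := by rw [hM]; push_cast; omega
    nlinarith
  let D : Env → ℤ → ℝ := fun ω b => t ω 0 (M * s.q) - t ω 0 b + t ω (M * s.q) b
  have hDm : ∀ ω b b', (M : ℤ) * s.q ≤ b → b ≤ b' → D ω b ≤ D ω b' := by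
    intro ω b b' h1 h2
    have := monge_half s ω (y₁ := 0) (y₂ := M * s.q) (by omega) h1 h2
    simp only [D, t]
    linarith
  have hD0 : ∀ ω b, 0 ≤ D ω b := by
    intro ω b
    have := TS_tri ω (conn_SA s 0 (M * s.q)) (conn_SA s (M * s.q) b)
    simp only [D, t]
    linarith
  have hD2 : ∀ ω b, D ω b ≤ 2 * t ω 0 (M * s.q) := by
    intro ω b
    have := TS_tri ω (conn_SA s (M * s.q) 0) (conn_SA s 0 b)
    rw [TS_comm ω _ (pt s 0 (M * s.q)) (pt s 0 0)] at this
    simp only [D, t]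
    linarith
  let d : ℕ → Env → ℝ := fun j ω => D ω (((j : ℤ) + 1) * (M * s.q))
  have hdm : ∀ ω, Monotone fun j => d j ω := by
    intro ω j j' h
    have h' : (j : ℤ) ≤ j' := by exact_mod_cast h
    refine hDm ω _ _ ?_ ?_
    · nlinarith [Int.natCast_nonneg j]
    · nlinarith
  have hdb : ∀ ω, BddAbove (Set.range fun j => d j ω) := fun ω =>
    ⟨_, by rintro _ ⟨j, rfl⟩; exact hD2 ω _⟩
  have hdM : ∀ j, Measurable (d j) := fun j =>
    ((measurable_TS _ _ _).sub (measurable_TS _ _ _)).add (measurable_TS _ _ _)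
  have hdi : ∀ j, Integrable (d j) (PP G) := fun j => ((hti _ _).sub (hti _ _)).add (hti _ _)
  have hξM : Measurable fun ω => ⨆ j, d j ω := Measurable.iSup hdM
  have hξ0 : ∀ ω, 0 ≤ ⨆ j, d j ω := fun ω => (hD0 ω _).trans (le_ciSup (hdb ω) 0)
  have hξi : Integrable (fun ω => ⨆ j, d j ω) (PP G) := by
    refine ((hti 0 (M * s.q)).const_mul 2).mono' hξM.aestronglyMeasurable
      (ae_of_all _ fun ω => ?_)
    rw [Real.norm_eq_abs, abs_of_nonneg (hξ0 ω)]
    exact ciSup_le fun j => hD2 ω _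
  refine ⟨M, fun ω => ⨆ j, d j ω, by omega, hξM, hξ0, hξi, ?_, fun ω b hb => ?_⟩
  · refine le_of_tendsto' (integral_tendsto_of_tendsto_of_monotone hdi hξi (ae_of_all _ hdm)
      (ae_of_all _ fun ω => tendsto_atTop_ciSup (hdm ω) (hdb ω))) fun j => ?_
    refine seq_SA (u := fun j => U (j * M)) (d := fun j => ∫ ω, d j ω ∂PP G) hl0
      (Nat.cast_nonneg M) (fun j => ?_) ?_
      (fun j j' h => integral_mono (hdi j) (hdi j') fun ω => hdm ω h) (fun j => ?_) j
    · have := hlU (j * M)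
      push_cast at this
      linarith
    · simp only [one_mul]
      rw [hM]
      push_cast
      exact hm.le
    · have hI : Integrable (fun ω => t ω 0 (M * s.q) - t ω 0 (((j : ℤ) + 1) * (M * s.q))) (PP G) :=
        (hti _ _).sub (hti _ _)
      have e := integral_sh_SA hG s M 0 ((j * M : ℕ) * s.q)
      simp only [d, D]
      rw [integral_add hI (hti _ _), integral_sub (hti _ _) (hti _ _)]
      simp only [U, t, one_mul]
      rw [← e]
      have e1 : (((j + 1) * M : ℕ) : ℤ) * s.q = ((j : ℤ) + 1) * (M * s.q) := by push_cast; ring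
      have e2 : ((j * M : ℕ) : ℤ) * s.q + M * s.q = ((j : ℤ) + 1) * (M * s.q) := by
        push_cast; ring
      rw [e1, e2, zero_add]
  · have h1 : b ≤ ((b.toNat : ℤ) + 1) * (M * s.q) := by
      have : (b.toNat : ℤ) = b := Int.toNat_of_nonneg (by omega)
      rw [this]
      nlinarith
    have h2 := (hDm ω _ _ hb h1).trans (le_ciSup (hdb ω) b.toNat)
    simp only [D, t] at h2
    linarith

end P158
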