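import Vale.Agent.P158.Srt
import Vale.Agent.P158.RecA
import Vale.Agent.P158.Sym2
import Vale.Agent.P158.NM
import Vale.Agent.P158.Int

open scoped NNReal ENNReal
open MeasureTheory Filter Topology

namespace P158

/-! The expected number of ordered records in a row is finite. -/

/-- Chains with unit gaps on `[a, b]`. -/
def ChL (s : Stair) (A R Λ K k : ℕ) (y a b : ℤ) : Set Env :=
  {ω | ∃ l r : Fin k → ℕ → V, (∀ i, Rec s A R Λ K y ω (l i) (r i)) ∧
      ∀ i j, i < j → Prec (pr s ω (l i) (r i)) (pr s ω (l j) (r j)) ∧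
        1 ≤ Dm (pr s ω (l i) (r i)) (pr s ω (l j) (r j)) a b}

/-- Shift of a pair. -/
def shF (c : ℤ) (P : FF) : FF := (fun y => P.1 (y + c), fun y => P.2 (y + c))

theorem le_shift_StA {f g : ℤ → ℝ} {c : ℤ} (h : Le (fun y => f (y + c)) (fun y => g (y + c))) :
    Le f g := fun y y' hy => by
  have := h (y - c) (y' - c) (by omega)
  simpa using this

theorem ub_shift_StA {f g : ℤ → ℝ} {c : ℤ} (h : Ub (fun y => f (y + c)) (fun y => g (y + c))) :
    Ub f g := fun M => by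
  obtain ⟨y, y', hy, hM⟩ := h M
  exact ⟨y + c, y' + c, by omega, hM⟩

theorem prec_shift_StA {P Q : FF} {c : ℤ} (h : Prec (shF c P) (shF c Q)) : Prec P Q :=
  ⟨le_shift_StA h.1, ub_shift_StA h.2.1, le_shift_StA h.2.2.1, ub_shift_StA h.2.2.2⟩

theorem pr_sh_StA (s : Stair) (ω : Env) (j : ℤ) (l r : ℕ → V) :
    pr s (act (tr (sh s 0 j)) ω) l r =
      shF (j * s.q) (pr s ω (fun i => l i + sh s 0 j) (fun i => r i + sh s 0 j)) := by
  unfold pr shF
  refine Prod.ext ?_ ?_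
  · funext y; exact bL_sh s ω j l y
  · funext y; exact bR_sh s ω j r y

theorem chL_sh (s : Stair) (A R Λ K k : ℕ) (j a b : ℤ) :
    act (tr (sh s 0 j)) ⁻¹' ChL s A R Λ K k 0 a b ⊆
      ChL s A R Λ K k (j * s.q) (a + j * s.q) (b + j * s.q) := by
  rintro ω ⟨l, r, h1, h2⟩
  refine ⟨fun i n => l i n + sh s 0 j, fun i n => r i n + sh s 0 j, fun i => ?_,
    fun i i' hi => ?_⟩
  · have := (Rec_sh s A R Λ K ω j 0 (l i) (r i)).1 (h1 i)
    rwa [zero_add] at this
  · obtain ⟨h3, h4⟩ := h2 i i' hi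
    rw [pr_sh_StA, pr_sh_StA] at h3 h4
    exact ⟨prec_shift_StA h3, h4⟩

theorem far_dm_StA {s : Stair} {A R Λ K : ℕ} {ω : Env} {l r l' r' : ℕ → V} {y y' a b : ℤ}
    (h : Rec s A R Λ K y ω l r) (h' : Rec s A R Λ K y' ω l' r') (hy : (K : ℤ) ≤ |y - y'|)
    (hp : Prec (pr s ω l r) (pr s ω l' r')) (h1 : a ≤ y ∧ y ≤ b) (h2 : a ≤ y' ∧ y' ≤ b) :
    1 ≤ Dm (pr s ω l r) (pr s ω l' r') a b := by
  have g1 := h.gap (y' := y') (by rwa [abs_sub_comm])
  have g2 := h'.gap (y' := y) hy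
  have g3 := (le_abs_self _).trans (hp.abs_le h1 h2)
  simp only [WW, pr] at g1 g2 g3 ⊢
  linarith

theorem count_StA {s : Stair} {A R Λ K : ℕ} {ω : Env} (hO : OrdP s A ω) (m L : ℕ)
    (J : Finset (ℕ × ℕ)) (hJ : ∀ i ∈ J, i.1 < m)
    (h : ∀ i ∈ J, ω ∈ ChL s A R Λ K (i.2 + 1) ((i.1 * (K + 1) : ℤ) * s.q)
      (-L + (i.1 * (K + 1) : ℤ) * s.q) (L + (i.1 * (K + 1) : ℤ) * s.q)) :
    (J.card : ℝ) ≤ 1 + (2 * TS ω (HLe s 0) (pt s 0 (-L)) (pt s 0 (L + (m * (K + 1) : ℤ) * s.q)) +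
      2 * TS ω (HGe s 1) (pt s 1 (-L)) (pt s 1 (L + (m * (K + 1) : ℤ) * s.q))) := by
  classical
  have ex : ∀ n : ℕ, ∃ l r : ℕ → ℕ → V,
      (∀ k, (n, k) ∈ J → Rec s A R Λ K ((n * (K + 1) : ℤ) * s.q) ω (l k) (r k)) ∧
      ∀ k k', (n, k) ∈ J → (n, k') ∈ J → k < k' →
        Prec (pr s ω (l k) (r k)) (pr s ω (l k') (r k')) ∧
        1 ≤ Dm (pr s ω (l k) (r k)) (pr s ω (l k') (r k'))
          (-L + (n * (K + 1) : ℤ) * s.q) (L + (n * (K + 1) : ℤ) * s.q) := by
    intro n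
    rcases (J.filter fun i => i.1 = n).eq_empty_or_nonempty with h0 | h0
    · have : ∀ k, (n, k) ∉ J := fun k hk => by
        have : (n, k) ∈ J.filter fun i => i.1 = n := Finset.mem_filter.2 ⟨hk, rfl⟩
        rw [h0] at this
        simp at this
      exact ⟨fun _ _ => 0, fun _ _ => 0, fun k hk => absurd hk (this k),
        fun k _ hk => absurd hk (this k)⟩
    · obtain ⟨i, hi, hmax⟩ := Finset.exists_max_image _ (fun i : ℕ × ℕ => i.2) h0
      obtain ⟨hi1, hi2⟩ := Finset.mem_filter.1 hi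
      obtain ⟨l, r, h1, h2⟩ := h i hi1
      rw [hi2] at h1 h2
      have lt : ∀ k, (n, k) ∈ J → k < i.2 + 1 := fun k hk =>
        Nat.lt_succ_of_le (hmax (n, k) (Finset.mem_filter.2 ⟨hk, rfl⟩))
      refine ⟨fun k => if hk : k < i.2 + 1 then l ⟨k, hk⟩ else 0,
        fun k => if hk : k < i.2 + 1 then r ⟨k, hk⟩ else 0, fun k hk => ?_,
        fun k k' hk hk' hkk => ?_⟩
      · simp only [dif_pos (lt k hk)]
        exact h1 _
      · simp only [dif_pos (lt k hk), dif_pos (lt k' hk')]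
        exact h2 _ _ hkk
  choose l r hl hr using ex
  have hq : (1 : ℤ) ≤ s.q := by exact_mod_cast s.hq
  have far : ∀ n n' : ℕ, n ≠ n' →
      (K : ℤ) ≤ |(n * (K + 1) : ℤ) * s.q - (n' * (K + 1) : ℤ) * s.q| := fun n n' hn => by
    have e : (n * (K + 1) : ℤ) * s.q - (n' * (K + 1) : ℤ) * s.q = (n - n') * ((K + 1) * s.q) := by
      ring
    have h1 : (1 : ℤ) ≤ |(n : ℤ) - n'| := Int.one_le_abs (sub_ne_zero.2 (by exact_mod_cast hn))
    have h2 : (K + 1 : ℤ) ≤ (K + 1) * s.q := le_mul_of_one_le_right (by positivity) hq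
    rw [e, abs_mul, abs_of_nonneg (by positivity : (0 : ℤ) ≤ (K + 1) * s.q)]
    nlinarith
  have rng : ∀ i ∈ J, 0 ≤ (i.1 * (K + 1) : ℤ) * s.q ∧
      (i.1 * (K + 1) : ℤ) * s.q ≤ (m * (K + 1) : ℤ) * s.q := fun i hi =>
    ⟨by positivity, by
      have : (i.1 : ℤ) ≤ m := by exact_mod_cast (hJ i hi).le
      gcongr⟩
  obtain ⟨J', nx, hs, hc, -, hn, hsum⟩ := exists_succ J
    (fun i => pr s ω (l i.1 i.2) (r i.1 i.2)) (fun i hi j hj hij => by
      by_cases h1 : i.1 = j.1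
      · obtain ⟨n, k⟩ := i
        obtain ⟨n', k'⟩ := j
        simp only at h1
        subst h1
        rcases lt_or_gt_of_ne (fun h2 : k = k' => hij (by rw [h2])) with h2 | h2
        · exact Or.inl (hr n k k' hi hj h2).1
        · exact Or.inr (hr n k' k hj hi h2).1
      · exact hO R Λ K _ _ _ _ _ _ (hl i.1 i.2 hi) (hl j.1 j.2 hj) (far _ _ h1))
    (a := -L) (b := L + (m * (K + 1) : ℤ) * s.q) (TS_nonneg ω (HLe s 0) _ _)
    (TS_nonneg ω (HGe s 1) _ _) (fun i hi => bL_lip (hl i.1 i.2 hi).hl _ _)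
    (fun i hi => bR_lip (hl i.1 i.2 hi).hr _ _)
  have one : ∀ i ∈ J', (1 : ℝ) ≤ Dm (pr s ω (l i.1 i.2) (r i.1 i.2))
      (pr s ω (l (nx i).1 (nx i).2) (r (nx i).1 (nx i).2)) (-L) (L + (m * (K + 1) : ℤ) * s.q) := by
    intro i hi
    obtain ⟨hj, hp⟩ := hn i hi
    have hi' := hs hi
    have r1 := rng i hi'
    have r2 := rng _ hj
    have hL : (0 : ℤ) ≤ L := by positivity
    by_cases h1 : i.1 = (nx i).1
    · generalize nx i = j at *
      obtain ⟨n, k⟩ := i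
      obtain ⟨n', k'⟩ := j
      simp only at h1
      subst h1
      simp only at *
      rcases lt_trichotomy k k' with h2 | h2 | h2
      · exact (hr n k k' hi' hj h2).2.trans (hp.dm_mono (by omega) (by omega) (by omega))
      · subst h2
        exact absurd hp (Prec.irrefl _)
      · exact absurd (hp.trans (hr n k' k hj hi' h2).1) (Prec.irrefl _)
    · exact far_dm_StA (hl i.1 i.2 hi') (hl _ _ hj) (far _ _ h1) hp (by omega) (by omega)
  have h1 : (J'.card : ℝ) ≤ _ := le_trans (by simp) ((Finset.sum_le_sum one).trans hsum)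
  have h2 : (J.card : ℝ) ≤ J'.card + 1 := by exact_mod_cast hc
  linarith

theorem sum_chL {G : Measure ℝ≥0} (hG : Law G) (s : Stair) (A R Λ K : ℕ)
    (hO : ∀ᵐ ω ∂PP G, OrdP s A ω) (L k₀ : ℕ) :
    ∑ k ∈ Finset.range k₀, (PP G).real (ChL s A R Λ K (k + 1) 0 (-L) L) ≤
      8 * ((K + 1) * s.q) * mean G + 1 := by
  haveI := hG.prob
  have hm := mean_nonneg G
  set S := ∑ k ∈ Finset.range k₀, (PP G).real (ChL s A R Λ K (k + 1) 0 (-L) L) with hS
  have key : ∀ m : ℕ, (m : ℝ) * S ≤ 1 + 8 * (2 * L + m * ((K + 1) * s.q)) * mean G := by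
    intro m
    have hab : -(L : ℤ) ≤ L + (m * (K + 1) : ℤ) * s.q := by
      have : (0 : ℤ) ≤ (m * (K + 1) : ℤ) * s.q := by positivity
      omega
    have i1 := integrable_TS hG (conn_HLe s (k := 0) (x := pt s 0 (-L))
      (y := pt s 0 (L + (m * (K + 1) : ℤ) * s.q)) (by simp) (by simp))
    have i2 := integrable_TS hG (conn_HGe s (k := 1) (x := pt s 1 (-L))
      (y := pt s 1 (L + (m * (K + 1) : ℤ) * s.q)) (by simp) (by simp))
    have h1 := sum_le_of_count (PP G) (Finset.range m ×ˢ Finset.range k₀)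
      (fun i => ChL s A R Λ K (i.2 + 1) ((i.1 * (K + 1) : ℤ) * s.q)
        (-L + (i.1 * (K + 1) : ℤ) * s.q) (L + (i.1 * (K + 1) : ℤ) * s.q))
      (fun i _ => nm_ChainL _ s A R Λ K _ _ _ _) _
      ((integrable_const (1 : ℝ)).add ((i1.const_mul 2).add (i2.const_mul 2)))
      (hO.mono fun ω hω J hJ h => count_StA hω m L J
        (fun i hi => Finset.mem_range.1 (Finset.mem_product.1 (hJ hi)).1) h)
    have b1 := integral_TS_strip hG s (a := -1) (b := 0) (by norm_num) (S := HLe s 0)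
      (fun v hv => hv.2) (x := pt s 0 (-L)) (y := pt s 0 (L + (m * (K + 1) : ℤ) * s.q))
      (by simp [Strip]) (by simp [Strip])
    have b2 := integral_TS_strip hG s (a := 1) (b := 2) (by norm_num) (S := HGe s 1)
      (fun v hv => hv.1) (x := pt s 1 (-L)) (y := pt s 1 (L + (m * (K + 1) : ℤ) * s.q))
      (by simp [Strip]) (by simp [Strip])
    simp only [X_pt, pt_snd, sub_self, abs_zero, zero_add] at b1 b2
    rw [abs_sub_comm, abs_of_nonneg (sub_nonneg.2 hab)] at b1 b2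
    push_cast at b1 b2
    rw [integral_add' (integrable_const _) ((i1.const_mul 2).add (i2.const_mul 2)),
      integral_add' (i1.const_mul 2) (i2.const_mul 2), integral_const_mul, integral_const_mul,
      integral_const, probReal_univ, one_smul, Finset.sum_product] at h1
    have h2 : (m : ℝ) * S ≤ ∑ n ∈ Finset.range m, ∑ k ∈ Finset.range k₀,
        (PP G).real (ChL s A R Λ K (k + 1) ((n * (K + 1) : ℤ) * s.q)
        (-L + (n * (K + 1) : ℤ) * s.q) (L + (n * (K + 1) : ℤ) * s.q)) := by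
      rw [← nsmul_eq_mul, ← Finset.card_range m, ← Finset.sum_const, Finset.card_range]
      refine Finset.sum_le_sum fun n _ => Finset.sum_le_sum fun k _ => ?_
      refine le_trans (le_of_eq ?_) (measureReal_mono (chL_sh s A R Λ K (k + 1) (n * (K + 1))
        (-L) L))
      simp only [Measure.real, PP_act]
    nlinarith
  obtain ⟨m, hm1⟩ := exists_nat_gt (1 + 16 * L * mean G)
  have h0 : (0 : ℝ) < m := lt_of_le_of_lt (by positivity) hm1
  have := key m
  refine le_of_mul_le_mul_left ?_ h0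
  nlinarith

theorem chain_eq_StA (s : Stair) (A R Λ K k : ℕ) :
    Chain s A R Λ K k = ⋃ L : ℕ, ChL s A R Λ K k 0 (-L) L := by
  ext ω
  simp only [Set.mem_iUnion]
  constructor
  · rintro ⟨l, r, h1, h2⟩
    have : ∀ᶠ L : ℕ in atTop, ∀ i j : Fin k, i < j →
        1 ≤ Dm (pr s ω (l i) (r i)) (pr s ω (l j) (r j)) (-L) L := by
      simp only [eventually_all]
      exact fun i j hij => (h2 i j hij).dm_large 1
    obtain ⟨L, hL⟩ := this.exists
    exact ⟨L, l, r, h1, fun i j hij => ⟨h2 i j hij, hL i j hij⟩⟩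
  · rintro ⟨L, l, r, h1, h2⟩
    exact ⟨l, r, h1, fun i j hij => (h2 i j hij).1⟩

theorem chL_mono (s : Stair) (A R Λ K k : ℕ) :
    Monotone fun L : ℕ => ChL s A R Λ K k 0 (-L) L := by
  rintro L L' hL ω ⟨l, r, h1, h2⟩
  exact ⟨l, r, h1, fun i j hij => ⟨(h2 i j hij).1, (h2 i j hij).2.trans
    ((h2 i j hij).1.dm_mono (by omega) (by omega) (by omega))⟩⟩

theorem stA {G : Measure ℝ≥0} (hG : Law G) (s : Stair) (A R Λ K : ℕ)
    (hO : ∀ᵐ ω ∂PP G, OrdP s A ω) : ∑' k : ℕ, PP G (Chain s A R Λ K (k + 1)) ≠ ∞ := by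
  haveI := hG.prob
  refine ne_top_of_le_ne_top (b := ENNReal.ofReal (8 * ((K + 1) * s.q) * mean G + 1))
    ENNReal.ofReal_ne_top (ENNReal.tsum_le_of_sum_range_le fun k₀ => ?_)
  have t : Tendsto (fun L : ℕ => ∑ k ∈ Finset.range k₀, PP G (ChL s A R Λ K (k + 1) 0 (-L) L))
      atTop (𝓝 (∑ k ∈ Finset.range k₀, PP G (Chain s A R Λ K (k + 1)))) := by
    refine tendsto_finset_sum _ fun k _ => ?_
    rw [chain_eq_StA]
    exact tendsto_measure_iUnion_atTop (chL_mono s A R Λ K (k + 1))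
  refine le_of_tendsto' t fun L => ?_
  refine le_trans (le_of_eq ?_) (ENNReal.ofReal_le_ofReal (sum_chL hG s A R Λ K hO L k₀))
  rw [ENNReal.ofReal_sum_of_nonneg fun _ _ => measureReal_nonneg]
  exact Finset.sum_congr rfl fun k _ => (ofReal_measureReal (measure_ne_top _ _)).symm

end P158
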