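import Vale.Agent.P158.Obj

open scoped NNReal ENNReal
open MeasureTheory Filter Topology

namespace P158

/-! Terminal branches in a tree order. -/

theorem min_Term {α β : Type} (le : α → α → Prop) (trans : ∀ u v w, le u v → le v w → le u w)
    (anti : ∀ u v, le u v → le v u → u = v) (S : Finset β) (hS : S.Nonempty) (u : β → α)
    (refl : ∀ c ∈ S, le (u c) (u c)) :
    ∃ c ∈ S, ∀ c' ∈ S, le (u c') (u c) → u c' = u c := by
  classical
  obtain ⟨c, hc, h⟩ := S.exists_min_image (fun c => (S.filter fun x => le (u x) (u c)).card) hS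
  refine ⟨c, hc, fun c' hc' hl => ?_⟩
  have h1 : (S.filter fun x => le (u x) (u c')) ⊆ S.filter fun x => le (u x) (u c) := fun x hx =>
    Finset.mem_filter.2 ⟨(Finset.mem_filter.1 hx).1, trans _ _ _ (Finset.mem_filter.1 hx).2 hl⟩
  have h2 := Finset.eq_of_subset_of_card_le h1 (h c' hc')
  have h3 : c ∈ S.filter fun x => le (u x) (u c') := h2 ▸ Finset.mem_filter.2 ⟨hc, refl c hc⟩
  exact anti _ _ hl (Finset.mem_filter.1 h3).2

theorem term {α ι : Type} (le : α → α → Prop) (trans : ∀ u v w, le u v → le v w → le u w)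
    (anti : ∀ u v, le u v → le v u → u = v)
    (chain : ∀ u u' v, le u v → le u' v → le u u' ∨ le u' u) (I : Finset ι)
    (u q : ι → Bool → α) (h1 : ∀ e ∈ I, ∀ b, le (u e b) (q e b))
    (h2 : ∀ e ∈ I, ∀ b, ¬ le (u e (!b)) (q e b))
    (h3 : ∀ e ∈ I, ∀ e' ∈ I, e ≠ e' → ∀ b b', le (u e b) (u e' b') → le (u e b) (u e' (!b')))
    (h4 : ∀ e ∈ I, ∀ e' ∈ I, e ≠ e' → ∀ b b', u e b ≠ u e' b') :
    ∃ P : Finset (ι × Bool), (∀ x ∈ P, x.1 ∈ I) ∧ I.card ≤ P.card ∧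
      ∀ x ∈ P, ∀ x' ∈ P, x ≠ x' →
        ¬ le (u x.1 x.2) (q x'.1 x'.2) ∨ ¬ le (u x'.1 x'.2) (q x.1 x.2) := by
  classical
  let K : Finset (ι × Bool) := I ×ˢ Finset.univ
  have hK : ∀ x, x ∈ K ↔ x.1 ∈ I := fun x => by simp [K]
  let S : ι × Bool → Finset (ι × Bool) := fun x => K.filter fun y =>
    x.1 ≠ y.1 ∧ le (u x.1 x.2) (u y.1 y.2) ∧ le (u y.1 y.2) (q x.1 x.2)
  have hS : ∀ x y, y ∈ S x ↔ y.1 ∈ I ∧ x.1 ≠ y.1 ∧ le (u x.1 x.2) (u y.1 y.2) ∧
      le (u y.1 y.2) (q x.1 x.2) := fun x y => by rw [Finset.mem_filter, hK]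
  have hb : ∀ x y : ι × Bool, x ≠ y → x.1 = y.1 → y = (x.1, !x.2) := by
    rintro ⟨e, b⟩ ⟨e', b'⟩ h rfl
    cases b <;> cases b' <;> simp at h ⊢
  have h5 : ∀ e ∈ I, ∀ e' ∈ I, e ≠ e' → ∀ b b' b'', le (u e b) (u e' b') →
      le (u e b) (u e' b'') := by
    intro e he e' he' hn b b' b'' h
    by_cases e : b'' = b'
    · rwa [e]
    · have : b'' = !b' := by cases b' <;> cases b'' <;> simp at e ⊢
      rw [this]; exact h3 _ he _ he' hn _ _ h
  have hm : ∀ x : ι × Bool, ∃ c : ι × Bool, (S x).Nonempty → c ∈ S x ∧ ∀ c' ∈ S x,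
      le (u c'.1 c'.2) (u c.1 c.2) → u c'.1 c'.2 = u c.1 c.2 := fun x => by
    by_cases h : (S x).Nonempty
    · obtain ⟨c, hc⟩ := min_Term le trans anti (S x) h (fun c => u c.1 c.2) fun c hc =>
        (chain _ _ _ ((hS x c).1 hc).2.2.2 ((hS x c).1 hc).2.2.2).elim id id
      exact ⟨c, fun _ => hc⟩
    · exact ⟨x, fun h' => absurd h' h⟩
  choose g hg using hm
  have key : ∀ x y : ι × Bool, x.1 ∈ I → y.1 ∈ I → (S x).Nonempty → (S y).Nonempty →
      (g x).1 = (g y).1 → x ≠ y → ¬ le (u x.1 x.2) (u y.1 y.2) := by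
    intro x y hx hy sx sy e hn hl
    obtain ⟨a1, a2, a3, a4⟩ := (hS _ _).1 (hg x sx).1
    obtain ⟨b1, b2, b3, b4⟩ := (hS _ _).1 (hg y sy).1
    have c1 : le (u y.1 y.2) (u (g x).1 (g x).2) := by
      rw [e]; exact h5 _ hy _ b1 b2 _ _ _ b3
    have c2 := trans _ _ _ c1 a4
    by_cases h : x.1 = y.1
    · rw [hb x y hn h] at c2
      exact h2 _ hx _ c2
    · exact h4 _ hy _ a1 (e ▸ b2) _ _ ((hg x sx).2 y ((hS _ _).2 ⟨hy, h, hl, c2⟩) c1)
  refine ⟨K.filter fun x => ¬ (S x).Nonempty, fun x hx => (hK x).1 (Finset.mem_filter.1 hx).1, ?_,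
    fun x hx y hy hn => ?_⟩
  · have e1 := Finset.card_filter_add_card_filter_not (s := K) fun x => (S x).Nonempty
    have e2 : K.card = I.card * 2 := by simp [K]
    have e3 : (K.filter fun x => (S x).Nonempty).card ≤ I.card := by
      refine Finset.card_le_card_of_injOn (fun x => (g x).1) (fun x hx => ?_) fun x hx y hy e => ?_
      · exact ((hS _ _).1 (hg x (Finset.mem_filter.1 hx).2).1).1
      · obtain ⟨hx, sx⟩ := Finset.mem_filter.1 hx
        obtain ⟨hy, sy⟩ := Finset.mem_filter.1 hy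
        rw [hK] at hx hy
        by_contra hn
        obtain ⟨a1, a2, a3, a4⟩ := (hS _ _).1 (hg x sx).1
        obtain ⟨b1, b2, b3, b4⟩ := (hS _ _).1 (hg y sy).1
        have e' : (g x).1 = (g y).1 := e
        have c1 : le (u y.1 y.2) (u (g x).1 (g x).2) := by
          rw [e']; exact h5 _ hy _ b1 b2 _ _ _ b3
        rcases chain _ _ _ a3 c1 with h | h
        · exact key x y hx hy sx sy e' hn h
        · exact key y x hy hx sy sx e'.symm (Ne.symm hn) h
    omega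
  · obtain ⟨hx, sx⟩ := Finset.mem_filter.1 hx
    obtain ⟨hy, sy⟩ := Finset.mem_filter.1 hy
    rw [hK] at hx hy
    by_contra hc
    push Not at hc
    by_cases h : x.1 = y.1
    · have := hc.2
      rw [hb x y hn h] at this
      exact h2 _ hx _ this
    · rcases chain _ _ _ hc.1 (h1 _ hy _) with h' | h'
      · exact sx ⟨y, (hS _ _).2 ⟨hy, h, h', hc.2⟩⟩
      · exact sy ⟨x, (hS _ _).2 ⟨hx, Ne.symm h, h', hc.1⟩⟩

end P158
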