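import Vale.Agent.P158.Obj

/-! Removing the moment assumption: weights that are too heavy to be used by a bigeodesic are
truncated; the truncated environment is stationary and integrable. -/

open scoped NNReal ENNReal
open MeasureTheory

namespace P158

/-- A vertex with a heavy incident edge. -/
def Bad (M : ℕ) (ω : Env) (v : V) : Prop := ∃ w, Zd.Adj v w ∧ (M : ℝ) < tau ω s(v, w)

/-- The cluster of bad vertices containing `v` (empty if `v` is not bad). -/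
def Cl (M : ℕ) (ω : Env) (v : V) : Set V := {w | Conn {u | Bad M ω u} v w}

/-- The bad clusters at the ends of an edge. -/
def clE (M : ℕ) (ω : Env) (e : E) : Set V := {w | ∃ v ∈ e.1, w ∈ Cl M ω v}

/-- The truncation level of an edge. -/
noncomputable def cap (M : ℕ) (ω : Env) (e : E) : ℝ := M + 16 * M * (clE M ω e).ncard

/-- A strictly increasing map which is the identity up to `L` and bounded by `L + 1`. -/
noncomputable def squash (L t : ℝ) : ℝ := if t ≤ L then t else L + (t - L) / (1 + (t - L))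

/-- The truncated environment. -/
noncomputable def trunc (M : ℕ) (ω : Env) : Env :=
  fun e => (squash (cap M ω e) (ω e)).toNNReal

/-- `u` is joined to infinity outside `C`. -/
def Out (C : Set V) (u : V) : Prop := ∀ N : ℤ, ∃ w, N ≤ nrm w ∧ Conn Cᶜ u w

/-- What the proof uses about the law `μ` of the environment. -/
structure Model (μ : Measure Env) (G : Measure ℝ≥0) (M : ℕ) (m : ℝ) : Prop where
  prob : IsProbabilityMeasure μ
  gprob : IsProbabilityMeasure G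
  noat : NullSingletonClass G
  light : G {t | (M : ℝ) < t} ≤ 1 / 1024
  inv : ∀ σ : Zd ≃g Zd, MeasurePreserving (act σ) μ μ
  int : ∀ e : Sym2 V, Integrable (fun ω => tau ω e) μ
  mean : ∀ e : Sym2 V, ∫ ω, tau ω e ∂μ ≤ m
  nice : ∀ᵐ ω ∂μ, Nice ω
  pei : ∀ D : Set ℝ, MeasurableSet D → D ⊆ Set.Iic (M : ℝ) → G {t | (t : ℝ) ∉ D} ≤ 1 / 256 →
    ∀ ε : ℝ, 0 < ε → ∀ δ : ℝ≥0∞, 0 < δ →
      ∃ (Q : ℕ) (U : Set Env), MeasurableSet U ∧ μ Uᶜ ≤ δ ∧ ∀ ω ∈ U, PeiP D ε Q ω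
  modify : ∀ (σ : Finset E) (D : E → Set ℝ≥0), (∀ e, MeasurableSet (D e)) →
    (∀ e, ∀ t ∈ D e, (t : ℝ) ≤ M) → ∀ A B : Set Env, (∀ ω ∈ A, ∀ e ∈ σ, (ω e : ℝ) ≤ M) →
    (∀ ω ∈ A, ∀ ω' : Env, (∀ e ∉ σ, ω' e = ω e) → (∀ e ∈ σ, ω' e ∈ D e) → ω' ∈ B) →
    (∏ e ∈ σ, G (D e)) * μ A ≤ μ B
  loop : ∃ C : ℝ, 0 < C ∧ ∀ ε : ℝ, 0 < ε → ∀ δ : ℝ≥0∞, 0 < δ →
    ∃ (Q : ℕ) (U : Set Env), MeasurableSet U ∧ μ Uᶜ ≤ δ ∧ ∀ ω ∈ U, LoopP C ε Q ω

/-- Standing assumptions for the truncation. -/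
structure Law0 (G : Measure ℝ≥0) (M : ℕ) : Prop where
  prob : IsProbabilityMeasure G
  noat : NullSingletonClass G
  light : G {t | (M : ℝ) < t} ≤ 1 / 1024

end P158
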